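import Vale.Agent.P166.Rsb.FormulaConvex

/-!
# P166: `Atoms.zOf`, `Atoms.hOf` and `gSph` through the working definitions
-/

open MeasureTheory Real Finset Set

namespace Vale.Agent.P166.Rsb

namespace Atoms

variable {d : ℕ} (A : Atoms d)

theorem isSpec : IsSpec A.w := ⟨A.w_pos, A.w_sum⟩

theorem topA_eq : topA A.a = A.top :=
  le_antisymm (ciSup_le fun c => A.mono.monotone (Fin.le_last c)) (IsSpec.le_topA A.a _)

theorem stj_eq (z : ℝ) : A.stj z = stA A.a A.w z := rfl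

theorem zOf_eq {x : ℝ} (hx : 0 < x) : A.zOf x = zA A.a A.w x := by
  obtain ⟨h1, h2⟩ := A.isSpec.zA_spec (a := A.a) hx
  have e : {z | A.top < z ∧ x ≤ A.stj z} = Set.Ioc A.top (zA A.a A.w x) := by
    ext z
    simp only [Set.mem_ofPred_eq, Set.mem_Ioc, A.stj_eq, ← A.topA_eq]
    refine and_congr_right fun hz => ?_
    rw [← (A.isSpec.stA_antitone A.a).le_iff_ge h1 hz, h2]
  rw [zOf, e, csSup_Ioc (A.topA_eq ▸ h1)]

theorem hOf_eq (x : ℝ) : A.hOf x = hA A.a A.w x := by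
  rcases lt_or_ge 0 x with hx | hx
  · rw [hOf, if_neg (not_le.2 hx), A.zOf_eq hx, A.isSpec.hA_eq hx]
  · rw [hOf, if_pos hx, IsSpec.hA_zero A.a A.w hx]

theorem integral_law (f : ℝ → ℝ) : ∫ t, f t ∂A.law = ∑ e, A.w e * f (A.a e) := by
  rw [law, integral_finsetSum_measure fun e _ => ?_]
  · refine sum_congr rfl fun e _ => ?_
    rw [integral_smul_measure, integral_dirac, ENNReal.toReal_ofReal (A.w_pos e).le, smul_eq_mul]
  · exact (integrable_dirac ENNReal.coe_lt_top).smul_measure ENNReal.ofReal_ne_top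

instance : IsProbabilityMeasure A.law := ⟨by
  rw [law, Measure.coe_finsetSum, Finset.sum_apply]
  simp [← ENNReal.ofReal_sum_of_nonneg fun e _ => (A.w_pos e).le, A.w_sum]⟩

theorem gSph_law (x : ℝ) : gSph A.law A.top x = gA A.a A.w x := by
  rcases lt_or_ge 0 x with hx | hx
  · rw [gSph, if_neg (not_le.2 hx), gA, if_pos hx]
    simp only [integral_law]
    refine IsLeast.csInf_eq ⟨⟨_, A.topA_eq ▸ (A.isSpec.zA_spec (a := A.a) hx).1, rfl⟩, ?_⟩
    rintro _ ⟨z, hz, rfl⟩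
    have := A.isSpec.zA_min (a := A.a) hx (A.topA_eq ▸ hz)
    linarith
  · rw [gSph, if_pos hx, gA, if_neg (not_lt.2 hx)]

end Atoms

end Vale.Agent.P166.Rsb
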