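import Vale.Agent.P166.Rsb.FormulaDefs
import Vale.Agent.P157.Rsb.Algebra

/-!
# P166: identities for `comb`
-/

open Real Finset
open Vale.Agent.P157.Rsb (lev vOf IsPath tail)

namespace Vale.Agent.P166.Rsb

variable {k : ℕ} {q q' : ℕ → ℝ} {φ ψ : ℝ → ℝ}

theorem lev_pos' (k i : ℕ) : 0 < lev k (i + 1) := by unfold P157.Rsb.lev; positivity

theorem vOf_step {i : ℕ} (hi : i < k) :
    vOf k q i = vOf k q (i + 1) + lev k (i + 1) * (q (i + 1) - q i) := by
  simp only [P157.Rsb.vOf, sum_eq_sum_Ico_succ_bot hi]; ring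

theorem vOf_top (k : ℕ) (q : ℕ → ℝ) : vOf k q k = 1 - q k := by simp [P157.Rsb.vOf]

theorem vOf_eq_tail {j : ℕ} (hj : j ≤ k) :
    vOf k q j = 1 - lev k (j + 1) * q j - tail k q (j + 1) := by
  rw [P157.Rsb.vOf_eq_room, P157.RsbAlg.room_eq hj, P157.Rsb.tail_succ_eq_tau]
  rfl

theorem vOf_nonneg (hq : IsPath k q) (j : ℕ) : 0 ≤ vOf k q j := by
  refine add_nonneg (sub_nonneg.2 hq.2.2) (sum_nonneg fun i hi => ?_)
  exact mul_nonneg (lev_pos' k i).le (sub_nonneg.2 (hq.2.1 i (mem_Ico.1 hi).2))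

theorem vOf_le_one (hq : IsPath k q) {j : ℕ} (hj : j ≤ k) : vOf k q j ≤ 1 :=
  (P157.Rsb.vOf_eq_room j).trans_le (P157.RsbAlg.room_le_one (P157.Rsb.isPath_alg hq) hj)

theorem vOf_anti (hq : IsPath k q) {i : ℕ} (hi : i < k) : vOf k q (i + 1) ≤ vOf k q i := by
  rw [vOf_step hi]
  exact le_add_of_nonneg_right (mul_nonneg (lev_pos' k i).le (sub_nonneg.2 (hq.2.1 i hi)))

/-- The identity path functional has the value one. -/
theorem comb_id (h0 : q 0 = 0) : comb k q (fun v => v) = 1 := by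
  have : ∀ i ∈ range k, (vOf k q i - vOf k q (i + 1)) / lev k (i + 1) = q (i + 1) - q i := fun i hi => by
    rw [vOf_step (mem_range.1 hi), add_sub_cancel_left, mul_div_cancel_left₀ _ (lev_pos' k i).ne']
  simp only [comb, sum_congr rfl this, sum_range_sub q, h0, vOf_top]
  ring

theorem comb_mono (hq : IsPath k q) (h0 : φ 0 ≤ ψ 0)
    (h : ∀ x y, 0 ≤ x → x ≤ y → y ≤ 1 → φ y - φ x ≤ ψ y - ψ x) : comb k q φ ≤ comb k q ψ := by
  refine add_le_add ?_ (sum_le_sum fun i hi => div_le_div_of_nonneg_right ?_ (lev_pos' k i).le)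
  · linarith [h 0 (vOf k q k) le_rfl (vOf_nonneg hq k) (vOf_le_one hq le_rfl)]
  · exact h _ _ (vOf_nonneg hq _) (vOf_anti hq (mem_range.1 hi)) (vOf_le_one hq (mem_range.1 hi).le)

theorem comb_sub : comb k q (fun v => φ v - ψ v) = comb k q φ - comb k q ψ := by
  rw [comb, comb, comb, add_sub_add_comm, ← sum_sub_distrib]
  exact congrArg _ (sum_congr rfl fun i _ => by ring)

theorem comb_const_mul (c : ℝ) : comb k q (fun v => c * φ v) = c * comb k q φ := by
  rw [comb, comb, mul_add, mul_sum]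
  exact congrArg _ (sum_congr rfl fun i _ => by ring)

/-- A functional of increments of size `C` is at most `C`. -/
theorem abs_comb_le {C : ℝ} (hq : IsPath k q) (h0 : φ 0 = 0)
    (h : ∀ x y, 0 ≤ x → x ≤ y → y ≤ 1 → |φ y - φ x| ≤ C * (y - x)) : |comb k q φ| ≤ C := by
  have e : ∀ c : ℝ, comb k q (fun v => c * v) = c := fun c => by
    rw [comb_const_mul, comb_id hq.1, mul_one]
  rw [abs_le]
  constructor
  · rw [← e (-C)]
    exact comb_mono hq (by simp [h0]) fun x y a b c => by linarith [(abs_le.1 (h x y a b c)).1]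
  · conv_rhs => rw [← e C]
    exact comb_mono hq (by simp [h0]) fun x y a b c => by linarith [(abs_le.1 (h x y a b c)).2]

/-- Two functionals with increments `C` apart have values `C` apart. -/
theorem abs_comb_sub_le {C : ℝ} (hq : IsPath k q) (h0 : φ 0 = ψ 0)
    (h : ∀ x y, 0 ≤ x → x ≤ y → y ≤ 1 → |(φ y - ψ y) - (φ x - ψ x)| ≤ C * (y - x)) :
    |comb k q φ - comb k q ψ| ≤ C :=
  comb_sub (φ := φ) (ψ := ψ) ▸ abs_comb_le hq (sub_eq_zero.2 h0) h

/-- Weights against the increments of the tail variables are weights against the tails. -/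
theorem comb_delta (h0 : q 0 = q' 0) (D : ℕ → ℝ) :
    D k * (vOf k q' k - vOf k q k) + ∑ i ∈ range k, (D i * (vOf k q' i - vOf k q i)
        - D (i + 1) * (vOf k q' (i + 1) - vOf k q (i + 1))) / lev k (i + 1)
      = -∑ i ∈ range k,
          (D i - D (i + 1)) / lev k (i + 1) * (tail k q' (i + 1) - tail k q (i + 1)) := by
  have e : ∀ i ∈ range k, (D i * (vOf k q' i - vOf k q i)
        - D (i + 1) * (vOf k q' (i + 1) - vOf k q (i + 1))) / lev k (i + 1) =
      (D (i + 1) * (q' (i + 1) - q (i + 1)) - D i * (q' i - q i))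
        - (D i - D (i + 1)) / lev k (i + 1) * (tail k q' (i + 1) - tail k q (i + 1)) := fun i hi => by
    have hi := mem_range.1 hi
    have hl := (lev_pos' k i).ne'
    have s1 : vOf k q' (i + 1) - vOf k q (i + 1) = vOf k q' i - vOf k q i
        - lev k (i + 1) * ((q' (i + 1) - q (i + 1)) - (q' i - q i)) := by
      rw [vOf_step (q := q) hi, vOf_step (q := q') hi]; ring
    rw [s1, vOf_eq_tail (q := q) hi.le, vOf_eq_tail (q := q') hi.le]
    field_simp
    ring
  rw [sum_congr rfl e, sum_sub_distrib, sum_range_sub fun i => D i * (q' i - q i), vOf_top, vOf_top,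
    h0]
  ring

end Vale.Agent.P166.Rsb
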