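import Vale.Agent.P166.Rsb.Pins
import Vale.Agent.P166.Rsb.FormulaBridge
import Vale.Agent.P166.Rsb.FormulaPath

/-!
# P166: the energy functional is continuous in the spectral law

If two bounded functions differ by at most `δ`, the energy functionals of their two laws (each with a
top edge at most `δ` from the other one) differ by at most `β δ / 2`, for every path.  Every law with
top edge `b` is `δ`-close in this sense to an atomic law.
-/

open MeasureTheory Real Finset
open Vale.Agent.P157.Rsb (IsPath vOf)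

namespace Vale.Agent.P166.Rsb

/-- A bound on the infimum of one linear family from another, for increments. -/
theorem inf_incr {L L' : ℝ → ℝ} {b b' δ x y : ℝ} (hb : b' ≤ b + δ) (hxy : x ≤ y)
    (hmono : ∀ u v, b + δ < u → u ≤ v → L' u - L (u - δ) ≤ L' v - L (v - δ))
    (h1 : BddBelow ((fun z => z * y + L' z) '' Set.Ioi b'))
    (h2 : BddBelow ((fun z => z * x + L z) '' Set.Ioi b)) :
    sInf ((fun z => z * y + L' z) '' Set.Ioi b') + sInf ((fun z => z * x + L z) '' Set.Ioi b)
      ≤ sInf ((fun z => z * y + L z) '' Set.Ioi b) + sInf ((fun z => z * x + L' z) '' Set.Ioi b')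
        + δ * (y - x) := by
  set A := sInf ((fun z => z * y + L' z) '' Set.Ioi b')
  set B := sInf ((fun z => z * x + L z) '' Set.Ioi b)
  have key : ∀ z, b < z → ∀ z', b' < z' → A + B - δ * (y - x) - (z * y + L z) ≤ z' * x + L' z' := by
    intro z hz z' hz'
    rcases le_or_gt (z + δ) z' with h | h
    · have hA : A ≤ (z + δ) * y + L' (z + δ) := csInf_le h1 ⟨z + δ, by simp only [Set.mem_Ioi]; linarith, rfl⟩
      have hB : B ≤ (z' - δ) * x + L (z' - δ) := csInf_le h2 ⟨z' - δ, by simp only [Set.mem_Ioi]; linarith, rfl⟩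
      have hm := hmono (z + δ) z' (by linarith) h
      rw [add_sub_cancel_right] at hm
      linarith
    · have hA : A ≤ z' * y + L' z' := csInf_le h1 ⟨z', hz', rfl⟩
      have hB : B ≤ z * x + L z := csInf_le h2 ⟨z, hz, rfl⟩
      have := mul_le_mul_of_nonneg_right (show z' ≤ z + δ by linarith) (sub_nonneg.2 hxy)
      linarith
  have h3 : ∀ z, b < z →
      A + B - δ * (y - x) - (z * y + L z) ≤ sInf ((fun z => z * x + L' z) '' Set.Ioi b') := by
    intro z hz
    refine le_csInf (Set.nonempty_Ioi.image _) ?_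
    rintro _ ⟨z', hz', rfl⟩
    exact key z hz z' hz'
  have h4 : A + B - δ * (y - x) - sInf ((fun z => z * x + L' z) '' Set.Ioi b')
      ≤ sInf ((fun z => z * y + L z) '' Set.Ioi b) := by
    refine le_csInf (Set.nonempty_Ioi.image _) ?_
    rintro _ ⟨z, hz, rfl⟩
    linarith [h3 z hz]
  linarith

section coupling

variable {Ω : Type*} [MeasurableSpace Ω] {P : Measure Ω} [IsProbabilityMeasure P]
  {r₁ r₂ : Ω → ℝ} {b₁ b₂ δ c : ℝ}

theorem integrable_log_sub {r : Ω → ℝ} {b z : ℝ} (hm : Measurable r)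
    (hr : ∀ᵐ t ∂P, r t ∈ Set.Icc c b) (hz : b < z) : Integrable (fun t => log (z - r t)) P := by
  refine Integrable.of_bound (Real.measurable_log.comp (hm.const_sub z)).aestronglyMeasurable
    (|log (z - b)| + |log (z - c)|) ?_
  filter_upwards [hr] with t ht
  have h1 : log (z - b) ≤ log (z - r t) := log_le_log (sub_pos.2 hz) (by linarith [ht.2])
  have h2 : log (z - r t) ≤ log (z - c) := log_le_log (by linarith [ht.2]) (by linarith [ht.1])
  rw [Real.norm_eq_abs, abs_le]
  constructor <;> linarith [neg_abs_le (log (z - b)), le_abs_self (log (z - c)),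
    abs_nonneg (log (z - b)), abs_nonneg (log (z - c))]

omit [IsProbabilityMeasure P] in
theorem gSph_map {r : Ω → ℝ} (hm : Measurable r) (b : ℝ) {x : ℝ} (hx : 0 < x) :
    gSph (P.map r) b x =
      sInf ((fun z => (z * x - 1 - log x - ∫ t, log (z - r t) ∂P) / 2) '' Set.Ioi b) := by
  rw [gSph, if_neg (not_le.2 hx)]
  refine congrArg (fun f : ℝ → ℝ => sInf (f '' Set.Ioi b)) (funext fun z => ?_)
  rw [integral_map hm.aemeasurable
    (show AEStronglyMeasurable (fun t => log (z - t)) (P.map r) from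
      (Real.measurable_log.comp (measurable_id.const_sub z)).aestronglyMeasurable)]

/-- The objective is at least `c x`, for laws on `[c, b]`. -/
theorem mul_le_spec {r : Ω → ℝ} {b z x : ℝ} (hm : Measurable r)
    (hr : ∀ᵐ t ∂P, r t ∈ Set.Icc c b) (hz : b < z) (hx : 0 < x) :
    c * x + (1 + log x) ≤ z * x - ∫ t, log (z - r t) ∂P := by
  have hle : ∫ t, log (z - r t) ∂P ≤ ∫ _, ((z - c) * x - 1 - log x) ∂P := by
    refine integral_mono_ae (integrable_log_sub hm hr hz) (integrable_const _) ?_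
    filter_upwards [hr] with t ht
    have h1 := log_le_sub_one_of_pos (mul_pos (show 0 < z - r t by linarith [ht.2]) hx)
    rw [log_mul (show z - r t ≠ 0 by linarith [ht.2]) hx.ne'] at h1
    have := mul_le_mul_of_nonneg_right (show z - r t ≤ z - c by linarith [ht.1]) hx.le
    linarith
  simp only [integral_const, probReal_univ, one_smul] at hle
  linarith

variable (hm₁ : Measurable r₁) (hm₂ : Measurable r₂) (h₁ : ∀ᵐ t ∂P, r₁ t ∈ Set.Icc c b₁)
  (h₂ : ∀ᵐ t ∂P, r₂ t ∈ Set.Icc c b₂) (hb : b₂ ≤ b₁ + δ) (hd : ∀ᵐ t ∂P, r₂ t ≤ r₁ t + δ)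
include hm₁ hm₂ h₁ h₂ hb hd

/-- One side of the continuity of `gSph`, for increments. -/
theorem gSph_map_incr {x y : ℝ} (hx : 0 ≤ x) (hxy : x ≤ y) :
    gSph (P.map r₂) b₂ y - gSph (P.map r₁) b₁ y
      ≤ gSph (P.map r₂) b₂ x - gSph (P.map r₁) b₁ x + δ * (y - x) / 2 := by
  set L₁ : ℝ → ℝ := fun z => -∫ t, log (z - r₁ t) ∂P with hL₁
  set L₂ : ℝ → ℝ := fun z => -∫ t, log (z - r₂ t) ∂P with hL₂
  have e : ∀ {r : Ω → ℝ} {b : ℝ}, Measurable r → (∀ᵐ t ∂P, r t ∈ Set.Icc c b) → ∀ u, 0 < u →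
      BddBelow ((fun z => z * u + -∫ t, log (z - r t) ∂P) '' Set.Ioi b) ∧
      gSph (P.map r) b u
        = (sInf ((fun z => z * u + -∫ t, log (z - r t) ∂P) '' Set.Ioi b) - (1 + log u)) / 2 := by
    intro r b hm hr u hu
    have hb' : BddBelow ((fun z => z * u + -∫ t, log (z - r t) ∂P) '' Set.Ioi b) := by
      refine ⟨c * u + (1 + log u), ?_⟩
      rintro _ ⟨z, hz, rfl⟩
      linarith [mul_le_spec hm hr hz hu]
    refine ⟨hb', ?_⟩
    rw [gSph_map hm b hu]
    refine le_antisymm ?_ ?_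
    · rw [le_div_iff₀ two_pos, le_sub_iff_add_le]
      refine le_csInf (Set.nonempty_Ioi.image _) ?_
      rintro _ ⟨z, hz, rfl⟩
      have : sInf ((fun z => (z * u - 1 - log u - ∫ t, log (z - r t) ∂P) / 2) '' Set.Ioi b)
          ≤ (z * u - 1 - log u - ∫ t, log (z - r t) ∂P) / 2 := by
        refine csInf_le ⟨c * u / 2, ?_⟩ ⟨z, hz, rfl⟩
        rintro _ ⟨z, hz, rfl⟩
        linarith [mul_le_spec hm hr hz hu]
      linarith
    · refine le_csInf (Set.nonempty_Ioi.image _) ?_
      rintro _ ⟨z, hz, rfl⟩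
      linarith [csInf_le hb' ⟨z, hz, rfl⟩]
  rcases hxy.eq_or_lt with rfl | hlt
  · simp
  have hy : 0 < y := hx.trans_lt hlt
  obtain ⟨q1, e1⟩ := e hm₁ h₁ y hy
  obtain ⟨q2, e2⟩ := e hm₂ h₂ y hy
  rcases hx.eq_or_lt with rfl | hx
  · have e0 : ∀ (ν : Measure ℝ) (b : ℝ), gSph ν b 0 = 0 := fun ν b => if_pos le_rfl
    simp only [e0, sub_zero, zero_add]
    rw [e1, e2]
    have : sInf ((fun z => z * y + L₂ z) '' Set.Ioi b₂) - δ * y
        ≤ sInf ((fun z => z * y + L₁ z) '' Set.Ioi b₁) := by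
      refine le_csInf (Set.nonempty_Ioi.image _) ?_
      rintro _ ⟨z, hz, rfl⟩
      have hz' : b₂ < z + δ := by linarith [Set.mem_Ioi.1 hz]
      have hint : ∫ t, log (z - r₁ t) ∂P ≤ ∫ t, log (z + δ - r₂ t) ∂P := by
        refine integral_mono_ae (integrable_log_sub hm₁ h₁ hz) (integrable_log_sub hm₂ h₂ hz') ?_
        filter_upwards [hd, h₁] with t ht ht1
        exact log_le_log (by linarith [ht1.2, Set.mem_Ioi.1 hz]) (by linarith)
      have := csInf_le q2 ⟨z + δ, hz', rfl⟩
      simp only [hL₁, hL₂] at this ⊢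
      linarith
    simp only [hL₁, hL₂] at this
    linarith
  · obtain ⟨p1, f1⟩ := e hm₁ h₁ x hx
    obtain ⟨-, f2⟩ := e hm₂ h₂ x hx
    rw [e1, e2, f1, f2]
    have hmono : ∀ u v, b₁ + δ < u → u ≤ v → L₂ u - L₁ (u - δ) ≤ L₂ v - L₁ (v - δ) := by
      intro u v hu huv
      have u1 : b₁ < u - δ := by linarith
      have v1 : b₁ < v - δ := by linarith
      have u2 : b₂ < u := by linarith
      have v2 : b₂ < v := by linarith
      have hint : ∫ t, (log (v - r₂ t) - log (u - r₂ t)) ∂P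
          ≤ ∫ t, (log (v - δ - r₁ t) - log (u - δ - r₁ t)) ∂P := by
        refine integral_mono_ae ((integrable_log_sub hm₂ h₂ v2).sub (integrable_log_sub hm₂ h₂ u2))
          ((integrable_log_sub hm₁ h₁ v1).sub (integrable_log_sub hm₁ h₁ u1)) ?_
        filter_upwards [hd, h₁, h₂] with t ht ht1 ht2
        have a1 : 0 < u - r₂ t := by linarith [ht2.2]
        have a2 : 0 < v - r₂ t := by linarith
        have a3 : 0 < u - δ - r₁ t := by linarith [ht1.2]
        have a4 : 0 < v - δ - r₁ t := by linarith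
        rw [← log_div a2.ne' a1.ne', ← log_div a4.ne' a3.ne']
        refine log_le_log (div_pos a2 a1) ?_
        rw [div_le_div_iff₀ a1 a3]
        nlinarith [mul_nonneg (sub_nonneg.2 huv) (show 0 ≤ r₁ t + δ - r₂ t by linarith)]
      rw [integral_sub (integrable_log_sub hm₂ h₂ v2) (integrable_log_sub hm₂ h₂ u2),
        integral_sub (integrable_log_sub hm₁ h₁ v1) (integrable_log_sub hm₁ h₁ u1)] at hint
      simp only [hL₁, hL₂]
      linarith
    have := inf_incr hb hlt.le hmono q2 p1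
    simp only [hL₁, hL₂] at this
    linarith

omit hb hd in
/-- The energy functional moves at most `β δ / 2`. -/
theorem abs_eng_map_sub_le (hb : |b₁ - b₂| ≤ δ) (hd : ∀ᵐ t ∂P, |r₁ t - r₂ t| ≤ δ) {β : ℝ} {k : ℕ}
    {q : ℕ → ℝ} (hβ : 0 ≤ β) (hq : IsPath k q) :
    |eng (P.map r₁) b₁ β k q - eng (P.map r₂) b₂ β k q| ≤ β * δ / 2 := by
  obtain ⟨hb', hb''⟩ := abs_le.1 hb
  refine abs_comb_sub_le hq (by simp [gSph]) fun x y hx hxy _ => ?_
  have h1 := gSph_map_incr (P := P) hm₁ hm₂ h₁ h₂ (by linarith : b₂ ≤ b₁ + δ)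
    (hd.mono fun t ht => by linarith [(abs_le.1 ht).1]) (mul_nonneg hβ hx)
    (mul_le_mul_of_nonneg_left hxy hβ)
  have h2 := gSph_map_incr (P := P) hm₂ hm₁ h₂ h₁ (by linarith : b₁ ≤ b₂ + δ)
    (hd.mono fun t ht => by linarith [(abs_le.1 ht).2]) (mul_nonneg hβ hx)
    (mul_le_mul_of_nonneg_left hxy hβ)
  rw [abs_le]
  constructor <;> linarith

end coupling

/-- A law with top edge `b` is carried to an atomic law by a map that moves points by at most `δ`. -/
theorem exists_atoms {μ : Measure ℝ} [IsProbabilityMeasure μ] {b lo δ : ℝ} (htop : IsTopEdge μ b)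
    (hlo : μ (Set.Iio lo) = 0) (hδ : 0 < δ) :
    ∃ (d : ℕ) (A : Atoms d) (r : ℝ → ℝ), Measurable r ∧ μ.map r = A.law ∧
      (∀ t ∈ Set.Icc lo b, |r t - t| ≤ δ) ∧ |A.top - b| ≤ δ ∧ lo ≤ A.a 0 := by
  classical
  set r : ℝ → ℝ := fun t => lo + δ * (⌊(t - lo) / δ⌋₊ : ℕ) with hr
  have hrm : Measurable r := ((measurable_from_nat (f := fun n : ℕ => (n : ℝ))).comp
    (Nat.measurable_floor.comp ((measurable_id.sub_const lo).div_const δ))).const_mul δ |>.const_add lo
  have hclose : ∀ t, lo ≤ t → r t ≤ t ∧ t ≤ r t + δ := fun t ht => by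
    have h0 : 0 ≤ (t - lo) / δ := div_nonneg (sub_nonneg.2 ht) hδ.le
    have h1 := (le_div_iff₀ hδ).1 (Nat.floor_le h0)
    have h2 := (div_lt_iff₀ hδ).1 (Nat.lt_floor_add_one ((t - lo) / δ))
    simp only [hr]
    constructor <;> linarith
  set V : Finset ℝ := (range (⌊(b - lo) / δ⌋₊ + 1)).image fun n => lo + δ * (n : ℕ) with hV
  have hae : ∀ᵐ t ∂μ, t ∈ Set.Icc lo b := by
    have h1 : ∀ᵐ t ∂μ, t ∉ Set.Ioi b := measure_eq_zero_iff_ae_notMem.1 htop.1
    have h2 : ∀ᵐ t ∂μ, t ∉ Set.Iio lo := measure_eq_zero_iff_ae_notMem.1 hlo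
    filter_upwards [h1, h2] with t a c
    exact ⟨not_lt.1 c, not_lt.1 a⟩
  set ν := μ.map r with hν
  have : IsProbabilityMeasure ν := Measure.isProbabilityMeasure_map hrm.aemeasurable
  have hVν : ν (↑V)ᶜ = 0 := by
    rw [hν, Measure.map_apply hrm V.measurableSet.compl]
    refine ae_iff.1 (hae.mono fun t ht => ?_)
    refine Finset.mem_coe.2 (mem_image.2 ⟨_, mem_range.2 (Nat.lt_succ_of_le ?_), rfl⟩)
    exact Nat.floor_le_floor (div_le_div_of_nonneg_right (by linarith [ht.2]) hδ.le)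
  set S := V.filter fun v => ν {v} ≠ 0 with hS
  have hdec : ν = ∑ v ∈ S, ν {v} • Measure.dirac v := by
    refine Measure.ext fun E hE => ?_
    have hz : ν (E \ ↑V) = 0 := measure_mono_null (fun x hx => hx.2) hVν
    have e1 : ν E = ν (↑(V.filter (· ∈ E)) : Set ℝ) := by
      have h := measure_inter_add_sdiff (μ := ν) E V.measurableSet
      rw [hz, add_zero] at h
      rw [← h]
      congr 1
      ext x; simp [and_comm]
    rw [e1, ← sum_measure_singleton, Measure.coe_finsetSum, Finset.sum_apply, sum_filter,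
      sum_filter]
    refine sum_congr rfl fun v _ => ?_
    by_cases h : ν {v} = 0
    · simp [h]
    · simp [h, Measure.dirac_apply' _ hE, Set.indicator_apply]
  have hsum : ∑ v ∈ S, (ν {v}).toReal = 1 := by
    rw [← ENNReal.toReal_sum fun v _ => measure_ne_top _ _]
    have h := congrArg (fun m : Measure ℝ => m Set.univ) hdec
    simp only [measure_univ, Measure.coe_finsetSum, Finset.sum_apply, Measure.coe_smul,
      Pi.smul_apply, smul_eq_mul, mul_one] at h
    rw [← h, ENNReal.toReal_one]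
  obtain ⟨d, hd⟩ : ∃ d, S.card = d + 1 := by
    refine Nat.exists_eq_succ_of_ne_zero fun h => ?_
    rw [card_eq_zero.1 h, sum_empty] at hsum
    exact zero_ne_one hsum
  set f := S.orderEmbOfFin hd with hf
  have hmap : (univ : Finset (Fin (d + 1))).map f.toEmbedding = S :=
    Finset.map_orderEmbOfFin_univ S hd
  have hmem : ∀ e, f e ∈ S := S.orderEmbOfFin_mem hd
  set A : Atoms d :=
    { a := f
      w := fun e => (ν {f e}).toReal
      mono := f.strictMono
      w_pos := fun e => ENNReal.toReal_pos (mem_filter.1 (hmem e)).2 (measure_ne_top _ _)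
      w_sum := by
        rw [← hsum]
        conv_rhs => rw [← hmap, sum_map]
        rfl } with hA
  refine ⟨d, A, r, hrm, ?_, fun t ht => ?_, ?_, ?_⟩
  · rw [← hν]
    refine hdec.trans ?_
    rw [Atoms.law]
    conv_lhs => rw [← hmap, sum_map]
    exact sum_congr rfl fun e _ => by
      simp only [hA, RelEmbedding.coe_toEmbedding]
      rw [ENNReal.ofReal_toReal (measure_ne_top _ _)]
  · obtain ⟨a, c⟩ := hclose t ht.1
    rw [abs_le]; constructor <;> linarith
  · have htopS : A.top ∈ S := hmem _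
    have hne := (mem_filter.1 htopS).2
    have hub : A.top ≤ b := by
      by_contra h
      rw [not_le] at h
      refine hne ?_
      rw [hν, Measure.map_apply hrm (measurableSet_singleton _)]
      refine measure_eq_zero_iff_ae_notMem.2 (hae.mono fun t ht hmem' => ?_)
      rw [Set.mem_preimage, Set.mem_singleton_iff] at hmem'
      linarith [(hclose t ht.1).1, ht.2]
    have hlb : b - δ ≤ A.top := by
      by_contra h
      rw [not_le] at h
      have hpos := htop.2 ((b - δ - A.top) / 2) (by linarith)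
      refine absurd ?_ hpos.ne'
      have hz : ∀ᵐ t ∂μ, r t ≤ A.top := by
        refine ae_of_ae_map hrm.aemeasurable (p := fun v => v ≤ A.top) ?_
        rw [ae_iff, ← hν, hdec, Measure.coe_finsetSum, Finset.sum_apply]
        refine sum_eq_zero fun v hv => ?_
        obtain ⟨e, -, he⟩ := Finset.mem_map.1 (hmap ▸ hv)
        have : v ≤ A.top := he ▸ f.monotone (Fin.le_last e)
        simp [this]
      refine measure_eq_zero_iff_ae_notMem.2 ((hz.and hae).mono fun t ht hmem' => ?_)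
      linarith [(hclose t ht.2.1).2, ht.1, Set.mem_Ioi.1 hmem']
    rw [abs_le]; constructor <;> linarith
  · obtain ⟨n, -, hn⟩ := mem_image.1 (mem_filter.1 (hmem 0)).1
    have : (0 : ℝ) ≤ δ * (n : ℕ) := by positivity
    simp only [hA]
    linarith

/-- The energy half of `ApproxStmt`, with the coupling used for it. -/
theorem exists_atoms_eng {μ : Measure ℝ} [IsProbabilityMeasure μ] {b lo ε : ℝ} (htop : IsTopEdge μ b)
    (hlo : μ (Set.Iio lo) = 0) (hε : 0 < ε) :
    ∃ (d : ℕ) (A : Atoms d) (r : ℝ → ℝ), Measurable r ∧ μ.map r = A.law ∧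
      (∀ t ∈ Set.Icc lo b, |r t - t| ≤ ε) ∧ |A.top - b| ≤ ε ∧ lo ≤ A.a 0 ∧
      ∀ (β : ℝ) (k : ℕ) (q : ℕ → ℝ), 0 ≤ β → IsPath k q →
        |eng μ b β k q - eng A.law A.top β k q| ≤ β * ε := by
  obtain ⟨d, A, r, hrm, hlaw, hr, htp, h0⟩ := exists_atoms htop hlo hε
  refine ⟨d, A, r, hrm, hlaw, hr, htp, h0, fun β k q hβ hq => ?_⟩
  have h1 : ∀ᵐ t ∂μ, t ∈ Set.Icc lo b := by
    filter_upwards [measure_eq_zero_iff_ae_notMem.1 htop.1, measure_eq_zero_iff_ae_notMem.1 hlo]
      with t a c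
    exact ⟨not_lt.1 c, not_lt.1 a⟩
  have h2 : ∀ᵐ t ∂μ, r t ∈ Set.Icc lo A.top := by
    refine ae_of_ae_map hrm.aemeasurable (p := fun v => v ∈ Set.Icc lo A.top) ?_
    rw [hlaw, ae_iff, Atoms.law, Measure.coe_finsetSum, Finset.sum_apply]
    refine sum_eq_zero fun e _ => ?_
    have : A.a e ∈ Set.Icc lo A.top :=
      ⟨h0.trans (A.mono.monotone (Fin.zero_le e)), A.mono.monotone (Fin.le_last e)⟩
    simp [this.1, this.2]
  have h := abs_eng_map_sub_le (P := μ) (r₁ := id) (r₂ := r) (b₁ := b) (b₂ := A.top) (δ := ε) (c := lo)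
    measurable_id hrm h1 h2 (by rwa [abs_sub_comm]) (h1.mono fun t ht => by
      rw [abs_sub_comm]; exact hr t ht) hβ hq
  rw [Measure.map_id, hlaw] at h
  exact h.trans (by linarith [mul_nonneg hβ hε.le])

end Vale.Agent.P166.Rsb
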