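import Vale.Agent.P166.Rsb.FormulaKappa

/-!
# P166: the energy functional as a function of the path

It decreases in the tails, is Lipschitz in the mass-weighted distance and bounded by the atoms.
-/

open Real Finset
open Vale.Agent.P157.Rsb (IsPath tail)

namespace Vale.Agent.P166.Rsb

namespace Atoms

variable {d k : ℕ} (A : Atoms d)

theorem eng_zero (k : ℕ) (q : ℕ → ℝ) : eng A.law A.top 0 k q = 0 := by simp [eng, comb, gSph]

/-- A bound on the derivatives is a bound on the energy functionals. -/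
theorem eng_sub_le {β M : ℝ} (hβ : 0 ≤ β) {q q' : ℕ → ℝ} (hq : IsPath k q) (hq' : IsPath k q')
    (h : ∀ t ∈ Set.Ioo 0 β, A.eAt t k q' - A.eAt t k q ≤ M) :
    eng A.law A.top β k q' - eng A.law A.top β k q ≤ β * M := by
  rcases hβ.eq_or_lt with rfl | hβ
  · simp [eng_zero]
  set F := fun t => eng A.law A.top t k q' - eng A.law A.top t k q with hF
  have hd : ∀ t ∈ Set.Ioo 0 β, HasDerivAt F (A.eAt t k q' - A.eAt t k q) t := fun t ht =>
    (A.hasDerivAt_eng ht.1 hq').sub (A.hasDerivAt_eng ht.1 hq)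
  have hc : ContinuousOn F (Set.Icc 0 β) :=
    ((A.continuousOn_eng hq').sub (A.continuousOn_eng hq)).mono Set.Icc_subset_Ici_self
  obtain ⟨t, ht, he⟩ := exists_hasDerivAt_eq_slope F _ hβ hc hd
  have h0 : F 0 = 0 := by simp [hF, eng_zero]
  rw [h0, sub_zero, sub_zero] at he
  have := h t ht
  rw [he, div_le_iff₀ hβ] at this
  linarith [show F β = eng A.law A.top β k q' - eng A.law A.top β k q from rfl]

/-- Larger tails give a smaller energy functional. -/
theorem eng_anti {β : ℝ} (hβ : 0 ≤ β) {q q' : ℕ → ℝ} (hq : IsPath k q) (hq' : IsPath k q')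
    (ht : ∀ j ∈ Icc 1 k, tail k q j ≤ tail k q' j) :
    eng A.law A.top β k q' ≤ eng A.law A.top β k q := by
  have := A.eng_sub_le (M := 0) hβ hq hq' fun t htt =>
    sub_nonpos.2 ((formulaStmt d A).1 k t q q' htt.1 hq hq' ht)
  linarith

/-- The energy functional is Lipschitz in the mass-weighted distance of paths. -/
theorem exists_eng_lip (B : ℝ) (hB : 0 < B) :
    ∃ C : ℝ, 0 ≤ C ∧ ∀ (k : ℕ) (β : ℝ) (q q' : ℕ → ℝ), 0 ≤ β → β ≤ B → IsPath k q → IsPath k q' →
      |eng A.law A.top β k q' - eng A.law A.top β k q|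
        ≤ β * (C * (P157.Rsb.mass k * ∑ l ∈ Icc 1 k, |q' l - q l|)) := by
  obtain ⟨C, hC0, hC⟩ := A.exists_eAt_lip B hB
  refine ⟨C, hC0, fun k β q q' hβ hβB hq hq' => ?_⟩
  have h1 := A.eng_sub_le (β := β) hβ hq hq' fun t ht =>
    (le_abs_self _).trans (hC k t q q' ht.1 (ht.2.le.trans hβB) hq hq')
  have h2 := A.eng_sub_le (β := β) hβ hq' hq fun t ht =>
    (le_abs_self _).trans (by rw [abs_sub_comm]; exact hC k t q q' ht.1 (ht.2.le.trans hβB) hq hq')
  rw [abs_le]; constructor <;> linarith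

/-- The energy functional is bounded by the atoms. -/
theorem abs_eng_le {β : ℝ} (hβ : 0 ≤ β) {q : ℕ → ℝ} (hq : IsPath k q) :
    |eng A.law A.top β k q| ≤ β * ((∑ e, |A.a e|) / 2) := by
  rcases hβ.eq_or_lt with rfl | hβ'
  · simp [eng_zero]
  obtain ⟨t, ht, he⟩ := exists_hasDerivAt_eq_slope (fun t => eng A.law A.top t k q) _ hβ'
    ((A.continuousOn_eng hq).mono Set.Icc_subset_Ici_self) fun t ht => A.hasDerivAt_eng ht.1 hq
  have h := A.abs_eAt_le ht.1 hq
  rw [he, eng_zero, sub_zero, sub_zero, abs_div, abs_of_pos hβ', div_le_iff₀ hβ'] at h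
  linarith

end Atoms

end Vale.Agent.P166.Rsb
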