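import Vale.Agent.P166.Rsb.FormulaPath
import Vale.Agent.P157.Rsb.Refine

/-!
# P166: `comb` does not depend on the grid
-/

open Real Finset
open Vale.Agent.P157.Rsb (lev vOf IsPath refinePath refine_step refine_at lev_refine top_div sum_jumps
  vOf_range vOf_refine)

namespace Vale.Agent.P166.Rsb

variable {k k' r : ℕ}

/-- Repeating every level `r + 1` times leaves `comb` unchanged. -/
theorem comb_refine (hk : k' + 1 = (r + 1) * (k + 1)) (q : ℕ → ℝ) (g : ℝ → ℝ) :
    comb k' (refinePath r q) g = comb k q g := by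
  have hd : ∀ p p' : ℕ, (r + 1) * p + r ≤ (r + 1) * p' + r ↔ p ≤ p' := fun p p' => by
    rw [Nat.add_le_add_iff_right, Nat.mul_le_mul_left_iff (by omega)]
  have hd' : ∀ p p' : ℕ, (r + 1) * (p + 1) ≤ (r + 1) * p' + r ↔ p + 1 ≤ p' := fun p p' => by
    constructor
    · intro h
      have h' : (r + 1) * (p + 1) < (r + 1) * (p' + 1) := by rw [Nat.mul_add _ p' 1]; omega
      exact Nat.le_of_lt_succ (Nat.lt_of_mul_lt_mul_left h')
    · intro h; have := Nat.mul_le_mul_left (r + 1) h; omega
  have htop : vOf k' (refinePath r q) k' = vOf k q k := by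
    simp [P157.Rsb.vOf, P157.Rsb.refinePath, top_div hk]
  have hz : ∀ i < k', ¬ (r + 1) ∣ (i + 1) →
      (g (vOf k' (refinePath r q) i) - g (vOf k' (refinePath r q) (i + 1))) / lev k' (i + 1) = 0 := by
    intro i hi h
    rw [vOf_step hi, refine_step r q h, sub_self, mul_zero, add_zero, sub_self, zero_div]
  rw [comb, comb, htop, sum_jumps hk hz]
  refine congrArg _ (sum_congr rfl fun p _ => ?_)
  rw [show (r + 1) * p + r + 1 = (r + 1) * (p + 1) by ring, lev_refine hk, vOf_refine hk,
    vOf_refine hk, vOf_range k q p, vOf_range k q (p + 1)]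
  simp only [hd, hd']

end Vale.Agent.P166.Rsb
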