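import Vale.Agent.P166.Rsb.Pins
import Vale.Agent.P166.Rsb.FormulaRefine
import Vale.Agent.P157.Cube2.Refine

/-!
# P166: the upper bound on every grid, and for every spectral law

A path on any grid is a path on every finer grid with the same energy and no larger entropy, so the
upper bound holds for every step path.  With `ApproxStmt` it holds for every law with a top edge.
-/

open MeasureTheory Real Filter Topology Finset
open Vale.Agent.P157.Rsb (IsPath refinePath isPath_refine)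
open Vale.Agent.P157.Cube2 (spinSup spinSup_refine_le)

namespace Vale.Agent.P166.Rsb

variable {k k' r : ℕ}

/-- The energy functional does not depend on the grid. -/
theorem eng_refine (hk : k' + 1 = (r + 1) * (k + 1)) (μ : Measure ℝ) (b β : ℝ) (q : ℕ → ℝ) :
    eng μ b β k' (refinePath r q) = eng μ b β k q :=
  comb_refine hk q _

/-- The upper bound at every step path, for atomic laws. -/
theorem upper_all (hU : UpperStmt) {d : ℕ} (A : Atoms d) {β ε : ℝ} (hβ : 0 < β) (hε : 0 < ε)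
    {k : ℕ} {q : ℕ → ℝ} (hq : IsPath k q) :
    ∃ θ : ℝ, 0 < θ ∧ ∃ N₀ : ℕ, ∀ N : ℕ, N₀ ≤ N → ∀ (c : Fin N → Fin (d + 1)), Fits A c θ →
      ∀ (m : Measure (Fin N → Fin N → ℝ)), IsHaarOrth m →
        meanP m β A.a c ≤ spinSup k q + eng A.law A.top β k q + ε := by
  obtain ⟨K, hK⟩ := hU d A β ε hβ hε
  have hk : ((K + 1) * (k + 1) - 1) + 1 = (K + 1) * (k + 1) :=
    Nat.sub_add_cancel (Nat.mul_pos (Nat.succ_pos K) (Nat.succ_pos k))
  have hKk : K ≤ (K + 1) * (k + 1) - 1 := by
    have := Nat.le_mul_of_pos_right (K + 1) (show 0 < k + 1 by omega)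
    omega
  obtain ⟨θ, hθ, N₀, hN₀⟩ := hK _ hKk _ (isPath_refine hk hq)
  refine ⟨θ, hθ, N₀, fun N hN c hc m hm => ?_⟩
  have h := hN₀ N hN c hc m hm
  rw [eng_refine hk] at h
  linarith [spinSup_refine_le P157.Cube2.spin hk hq]

/-- The upper bound at every step path, for every law with a top edge. -/
theorem upper_law (hU : UpperStmt) (hX : ApproxStmt) {μ : Measure ℝ} [IsProbabilityMeasure μ]
    {b : ℝ} (hb : IsTopEdge μ b) (hlo : ∃ lo, μ (Set.Iio lo) = 0) {lam : ∀ N, Fin N → ℝ}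
    (hlam : Admissible μ b lam) {β ε : ℝ} (hβ : 0 < β) (hε : 0 < ε) {k : ℕ} {q : ℕ → ℝ}
    (hq : IsPath k q) :
    ∀ᶠ N in atTop, ∀ m : Measure (Fin N → Fin N → ℝ), IsHaarOrth m →
      ∫ U, press β (lam N) U ∂m ≤ spinSup k q + eng μ b β k q + ε := by
  obtain ⟨d, A, heng, hfit⟩ :=
    hX μ b inferInstance hb hlo (ε / (4 * β)) (by positivity)
  have hβε : β * (ε / (4 * β)) = ε / 4 := by field_simp
  obtain ⟨θ, hθ, N₀, hN₀⟩ := upper_all hU A hβ (ε := ε / 2) (by linarith) hq
  filter_upwards [hfit lam hlam θ hθ, eventually_ge_atTop N₀] with N hN hge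
  obtain ⟨c, hc, hclose⟩ := hN
  intro m hm
  have h1 := (abs_le.1 (hclose β m hβ.le hm)).2
  have h2 := (abs_le.1 (heng β k q hβ.le hq)).1
  rw [hβε] at h1 h2
  linarith [hN₀ N hge c hc m hm]

end Vale.Agent.P166.Rsb
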