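import Vale.Agent.P166.Main
import Vale.Agent.P166.Rsb.UpperAll
import Vale.Agent.P166.Rsb.FormulaEng

/-!
# P166 module I: the pressure converges to the variational formula

The upper and the lower bound for atomic laws, carried to every law with a top edge by the atomic
approximation, pin the mean pressure; the deterministic centre of `P166.Main` gives convergence in
mean.
-/

open MeasureTheory Real Filter Topology Finset
open Vale.Agent.P157.Rsb (IsPath)
open Vale.Agent.P157.Cube2 (spinSup)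

namespace Vale.Agent.P166.Rsb

/-- The values of the variational functional at all step paths on all grids. -/
def formulaValues (μ : Measure ℝ) (b β : ℝ) : Set ℝ :=
  {x | ∃ (k : ℕ) (q : ℕ → ℝ), IsPath k q ∧ x = spinSup k q + eng μ b β k q}

theorem formulaValues_nonempty (μ : Measure ℝ) (b β : ℝ) : (formulaValues μ b β).Nonempty :=
  ⟨_, 0, fun _ => 0, ⟨rfl, fun _ _ => le_rfl, zero_le_one⟩, rfl⟩

variable {μ : Measure ℝ} [IsProbabilityMeasure μ] {b β : ℝ}

theorem formulaValues_bddBelow (hX : ApproxStmt) (hb : IsTopEdge μ b)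
    (hlo : ∃ lo, μ (Set.Iio lo) = 0) (hβ : 0 ≤ β) : BddBelow (formulaValues μ b β) := by
  obtain ⟨d, A, heng, -⟩ := hX μ b inferInstance hb hlo 1 one_pos
  refine ⟨-(β * ((∑ e, |A.a e|) / 2) + β), ?_⟩
  rintro _ ⟨k, q, hq, rfl⟩
  linarith [(abs_le.1 (heng β k q hβ hq)).1, (abs_le.1 (A.abs_eng_le hβ hq)).1,
    (P157.Cube2.spin.2.1 k q hq).2.2]

theorem exists_isGLB_formulaValues (hX : ApproxStmt) (hb : IsTopEdge μ b)
    (hlo : ∃ lo, μ (Set.Iio lo) = 0) (hβ : 0 ≤ β) : ∃ l, IsGLB (formulaValues μ b β) l :=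
  ⟨_, isGLB_csInf (formulaValues_nonempty μ b β) (formulaValues_bddBelow hX hb hlo hβ)⟩

/-- The mean pressure is eventually at most the infimum of the functional. -/
theorem mean_le (hUp : UpperStmt) (hX : ApproxStmt) (hb : IsTopEdge μ b)
    (hlo : ∃ lo, μ (Set.Iio lo) = 0) {l : ℝ} (hl : IsGLB (formulaValues μ b β) l)
    {lam : ∀ N, Fin N → ℝ} (hlam : Admissible μ b lam) (hβ : 0 < β) {ε : ℝ} (hε : 0 < ε) :
    ∀ᶠ N in atTop, ∀ m : Measure (Fin N → Fin N → ℝ), IsHaarOrth m →
      ∫ U, press β (lam N) U ∂m ≤ l + ε := by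
  obtain ⟨x, ⟨k, q, hq, hxe⟩, -, hx⟩ := hl.exists_between (show l < l + ε / 2 by linarith)
  filter_upwards [upper_law hUp hX hb hlo hlam hβ (half_pos hε) hq] with N hN m hm
  linarith [hN m hm]

/-- The mean pressure is eventually at least the infimum of the functional. -/
theorem le_mean (hLo : LowerStmt) (hX : ApproxStmt) (hb : IsTopEdge μ b)
    (hlo : ∃ lo, μ (Set.Iio lo) = 0) {l : ℝ} (hl : IsGLB (formulaValues μ b β) l)
    {lam : ∀ N, Fin N → ℝ} (hlam : Admissible μ b lam) (hβ : 0 < β) {ε : ℝ} (hε : 0 < ε) :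
    ∀ᶠ N in atTop, ∀ m : Measure (Fin N → Fin N → ℝ), IsHaarOrth m →
      l - ε ≤ ∫ U, press β (lam N) U ∂m := by
  obtain ⟨d, A, heng, hfit⟩ := hX μ b inferInstance hb hlo (ε / (4 * β)) (by positivity)
  obtain ⟨K, hK⟩ := hLo d A β (ε / 4) hβ (by linarith)
  obtain ⟨θ, hθ, N₀, hN₀⟩ := hK K le_rfl
  have hβε : β * (ε / (4 * β)) = ε / 4 := by field_simp
  filter_upwards [hfit lam hlam θ hθ, eventually_ge_atTop N₀] with N hN hge
  obtain ⟨c, hc, hclose⟩ := hN
  intro m hm
  obtain ⟨q, hq, hmean⟩ := hN₀ N hge c hc m hm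
  have h1 := (abs_le.1 (hclose β m hβ.le hm)).1
  have h2 := (abs_le.1 (heng β K q hβ.le hq)).2
  have h3 : l ≤ spinSup K q + eng μ b β K q := hl.1 ⟨K, q, hq, rfl⟩
  rw [hβε] at h1 h2
  linarith

/-- Integrability of the distance to a constant. -/
theorem integrable_press_sub {N : ℕ} {m : Measure (Fin N → Fin N → ℝ)} (hm : IsHaarOrth m)
    (hβ : 0 ≤ β) (hN : N ≠ 0) (lam : Fin N → ℝ) (c : ℝ) :
    Integrable (fun U => press β lam U - c) m := by
  have := hm.1
  exact (integrable_press hm hβ hN lam).sub (integrable_const c)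

/-- A centre of the pressure is asymptotic to its mean. -/
theorem centre_close {lam : ∀ N, Fin N → ℝ} {m : ∀ N, Measure (Fin N → Fin N → ℝ)}
    (hm : ∀ N, IsHaarOrth (m N)) (hβ : 0 ≤ β) {c : ℕ → ℝ}
    (hc : Tendsto (fun N => ∫⁻ U, ENNReal.ofReal |press β (lam N) U - c N| ∂m N) atTop (𝓝 0)) :
    Tendsto (fun N => ∫ U, press β (lam N) U ∂m N - c N) atTop (𝓝 0) := by
  have h := (ENNReal.tendsto_toReal ENNReal.zero_ne_top).comp hc
  rw [ENNReal.toReal_zero] at h
  refine squeeze_zero_norm' ?_ h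
  filter_upwards [eventually_ge_atTop 1] with N hN
  have := (hm N).1
  have hN0 : N ≠ 0 := Nat.one_le_iff_ne_zero.1 hN
  have hi := integrable_press_sub (hm N) hβ hN0 (lam N) (c N)
  simp only [Function.comp_apply, Real.norm_eq_abs]
  have e : (∫⁻ U, ENNReal.ofReal |press β (lam N) U - c N| ∂m N).toReal
      = ∫ U, |press β (lam N) U - c N| ∂m N :=
    (integral_eq_lintegral_of_nonneg_ae (Eventually.of_forall fun U => abs_nonneg _)
      hi.abs.aestronglyMeasurable).symm
  rw [e, show ∫ U, press β (lam N) U ∂m N - c N = ∫ U, (press β (lam N) U - c N) ∂m N by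
    rw [integral_sub (integrable_press (hm N) hβ hN0 (lam N)) (integrable_const _)]; simp]
  exact abs_integral_le_integral_abs

/-- The upper bound: the positive part of the pressure minus the infimum tends to zero in mean. -/
theorem upper_only (hUp : UpperStmt) (hX : ApproxStmt) {μ : Measure ℝ} [IsProbabilityMeasure μ]
    {b : ℝ} (hb : IsTopEdge μ b) (hlo : ∃ lo, μ (Set.Iio lo) = 0) {β : ℝ} (hβ : 0 < β) :
    ∃ l, IsGLB (formulaValues μ b β) l ∧ ∀ lam : ∀ N, Fin N → ℝ, Admissible μ b lam →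
      ∀ m : ∀ N, Measure (Fin N → Fin N → ℝ), (∀ N, IsHaarOrth (m N)) →
        (∀ ε : ℝ, 0 < ε → ∀ᶠ N in atTop, ∫ U, press β (lam N) U ∂m N ≤ l + ε) ∧
        Tendsto (fun N => ∫⁻ U, ENNReal.ofReal (press β (lam N) U - l) ∂m N) atTop (𝓝 0) := by
  obtain ⟨l, hl⟩ := exists_isGLB_formulaValues hX hb hlo hβ.le
  refine ⟨l, hl, fun lam hlam m hm => ?_⟩
  have hup : ∀ ε : ℝ, 0 < ε → ∀ᶠ N in atTop, ∫ U, press β (lam N) U ∂m N ≤ l + ε := fun ε hε =>
    (mean_le hUp hX hb hlo hl hlam hβ hε).mono fun N hN => hN _ (hm N)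
  refine ⟨hup, ?_⟩
  obtain ⟨c, hc⟩ := exists_centre hb hβ.le
  have h1 := hc lam hlam m hm
  have hpos : Tendsto (fun N => ENNReal.ofReal (c N - l)) atTop (𝓝 0) := by
    refine ENNReal.tendsto_nhds_zero.2 fun e he => ?_
    obtain ⟨r, hr0, hre⟩ := ENNReal.lt_iff_exists_real_btwn.1 he
    have hr : 0 < r := ENNReal.ofReal_pos.1 hre.1
    filter_upwards [Metric.tendsto_nhds.1 (centre_close hm hβ.le h1) (r / 2) (half_pos hr),
      hup (r / 2) (half_pos hr)] with N a1 a2
    rw [Real.dist_eq, sub_zero] at a1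
    exact (ENNReal.ofReal_le_ofReal (by linarith [(abs_lt.1 a1).1])).trans hre.2.le
  have hsum : Tendsto (fun N => ∫⁻ U, ENNReal.ofReal |press β (lam N) U - c N| ∂m N
      + ENNReal.ofReal (c N - l)) atTop (𝓝 0) := by simpa using h1.add hpos
  refine tendsto_of_tendsto_of_tendsto_of_le_of_le tendsto_const_nhds hsum (fun N => bot_le) fun N => ?_
  have := (hm N).1
  calc ∫⁻ U, ENNReal.ofReal (press β (lam N) U - l) ∂m N
      ≤ ∫⁻ U, (ENNReal.ofReal |press β (lam N) U - c N| + ENNReal.ofReal (c N - l)) ∂m N :=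
        lintegral_mono fun U => (ENNReal.ofReal_le_ofReal
          (show press β (lam N) U - l ≤ |press β (lam N) U - c N| + (c N - l) by
            linarith [le_abs_self (press β (lam N) U - c N)])).trans ENNReal.ofReal_add_le
    _ = _ := by rw [lintegral_add_right _ measurable_const]; simp

/-- The variational formula for the limiting pressure. -/
theorem variational (hUp : UpperStmt) (hLo : LowerStmt) (hX : ApproxStmt) {μ : Measure ℝ}
    [IsProbabilityMeasure μ] {b : ℝ} (hb : IsTopEdge μ b) (hlo : ∃ lo, μ (Set.Iio lo) = 0)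
    {β : ℝ} (hβ : 0 < β) :
    ∃ l, IsGLB (formulaValues μ b β) l ∧ ∀ lam : ∀ N, Fin N → ℝ, Admissible μ b lam →
      ∀ m : ∀ N, Measure (Fin N → Fin N → ℝ), (∀ N, IsHaarOrth (m N)) →
        Tendsto (fun N => ∫ U, press β (lam N) U ∂m N) atTop (𝓝 l) ∧
        Tendsto (fun N => ∫⁻ U, ENNReal.ofReal |press β (lam N) U - l| ∂m N) atTop (𝓝 0) := by
  obtain ⟨l, hl⟩ := exists_isGLB_formulaValues hX hb hlo hβ.le
  refine ⟨l, hl, fun lam hlam m hm => ?_⟩
  have hmean : Tendsto (fun N => ∫ U, press β (lam N) U ∂m N) atTop (𝓝 l) := by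
    refine Metric.tendsto_nhds.2 fun e he => ?_
    filter_upwards [mean_le hUp hX hb hlo hl hlam hβ (half_pos he),
      le_mean hLo hX hb hlo hl hlam hβ (half_pos he)] with N a1 a2
    rw [Real.dist_eq, abs_lt]
    constructor <;> linarith [a1 _ (hm N), a2 _ (hm N)]
  refine ⟨hmean, ?_⟩
  obtain ⟨c, hc⟩ := exists_centre hb hβ.le
  have h1 := hc lam hlam m hm
  have hcl : Tendsto (fun N => ENNReal.ofReal |c N - l|) atTop (𝓝 0) := by
    have h := hmean.sub (centre_close hm hβ.le h1)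
    simp only [sub_sub_cancel, sub_zero] at h
    simpa using ENNReal.tendsto_ofReal ((h.sub_const l).abs)
  have hsum : Tendsto (fun N => ∫⁻ U, ENNReal.ofReal |press β (lam N) U - c N| ∂m N
      + ENNReal.ofReal |c N - l|) atTop (𝓝 0) := by simpa using h1.add hcl
  refine tendsto_of_tendsto_of_tendsto_of_le_of_le tendsto_const_nhds hsum (fun N => bot_le) fun N => ?_
  have := (hm N).1
  calc ∫⁻ U, ENNReal.ofReal |press β (lam N) U - l| ∂m N
      ≤ ∫⁻ U, (ENNReal.ofReal |press β (lam N) U - c N| + ENNReal.ofReal |c N - l|) ∂m N :=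
        lintegral_mono fun U =>
          (ENNReal.ofReal_le_ofReal (abs_sub_le _ (c N) _)).trans ENNReal.ofReal_add_le
    _ = _ := by rw [lintegral_add_right _ measurable_const]; simp

end Vale.Agent.P166.Rsb
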