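import Vale.Agent.P166.Main
import Vale.Agent.P166.Rsb.FormulaApprox

/-!
# P166: admissible spectra are close to block spectra

The blocks follow the order of the entries.  All but `o(N)` entries are then close to the atom of
their block, and the exceptional ones carry bounded Gibbs mass on average.
-/

open MeasureTheory Filter Topology Real Finset

namespace Vale.Agent.P166.Rsb

variable {d N : ℕ}

/-- The weight of the atoms above `e`. -/
noncomputable def Atoms.wGt (A : Atoms d) (e : Fin (d + 1)) : ℝ := ∑ f, if e < f then A.w f else 0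

/-- The weight of the atoms from `e` on. -/
noncomputable def Atoms.wGe (A : Atoms d) (e : Fin (d + 1)) : ℝ := ∑ f, if e ≤ f then A.w f else 0

theorem Atoms.wGe_eq (A : Atoms d) (e : Fin (d + 1)) : A.wGe e = A.w e + A.wGt e := by
  unfold Atoms.wGe Atoms.wGt
  have h : ∀ f, (if e ≤ f then A.w f else 0) = (if f = e then A.w f else 0) + if e < f then A.w f else 0 :=
    fun f => by
      rcases lt_trichotomy e f with h | h | h
      · rw [if_pos h.le, if_neg h.ne', if_pos h, zero_add]
      · subst h; simp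
      · rw [if_neg h.not_ge, if_neg h.ne, if_neg h.not_gt, add_zero]
  simp only [h, sum_add_distrib, Finset.sum_ite_eq', mem_univ, if_true]

theorem Atoms.wGt_nonneg (A : Atoms d) (e : Fin (d + 1)) : 0 ≤ A.wGt e :=
  sum_nonneg fun f _ => by split_ifs <;> [exact (A.w_pos f).le; exact le_rfl]

theorem Atoms.wGe_le_one (A : Atoms d) (e : Fin (d + 1)) : A.wGe e ≤ 1 := by
  rw [← A.w_sum]
  exact sum_le_sum fun f _ => by split_ifs <;> [exact le_rfl; exact (A.w_pos f).le]

/-- The cut below which indices, in decreasing order of the entries, belong to atoms above `e`. -/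
noncomputable def cut (A : Atoms d) (N : ℕ) (e : Fin (d + 1)) : ℕ := ⌈(N : ℝ) * A.wGt e⌉₊

/-- The cut below which indices belong to atoms from `e` on. -/
noncomputable def cut' (A : Atoms d) (N : ℕ) (e : Fin (d + 1)) : ℕ := ⌈(N : ℝ) * A.wGe e⌉₊

/-- The atom of the index `i` in decreasing order. -/
noncomputable def blk (A : Atoms d) (N : ℕ) (i : Fin N) : Fin (d + 1) :=
  ⟨(univ.filter fun e => i.val < cut A N e).card, by
    refine Nat.lt_succ_of_le ((card_le_card (t := univ.erase (Fin.last d)) fun e he => ?_).trans (le_of_eq ?_))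
    · refine mem_erase.2 ⟨fun h => ?_, mem_univ e⟩
      simp only [mem_filter, mem_univ, true_and, h] at he
      have : A.wGt (Fin.last d) = 0 := sum_eq_zero fun f _ => if_neg (not_lt.2 (Fin.le_last f))
      simp [cut, this] at he
    · simp⟩

theorem wGt_anti (A : Atoms d) {e f : Fin (d + 1)} (h : e ≤ f) : A.wGt f ≤ A.wGt e :=
  sum_le_sum fun g _ => by
    by_cases hg : f < g
    · rw [if_pos hg, if_pos (h.trans_lt hg)]
    · rw [if_neg hg]; split_ifs <;> [exact (A.w_pos g).le; exact le_rfl]

theorem lt_blk_iff (A : Atoms d) (i : Fin N) (f : Fin (d + 1)) : f < blk A N i ↔ i.val < cut A N f := by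
  have hS : ∀ a b : Fin (d + 1), b ≤ a → a ∈ univ.filter (fun e => i.val < cut A N e)
      → b ∈ univ.filter fun e => i.val < cut A N e := fun a b hba ha => by
    simp only [mem_filter, mem_univ, true_and] at ha ⊢
    exact ha.trans_le (Nat.ceil_mono (mul_le_mul_of_nonneg_left (wGt_anti A hba) (Nat.cast_nonneg N)))
  rw [Fin.lt_def, blk, ← mem_iff_lt_card hS]
  simp

theorem blk_eq_iff (A : Atoms d) (i : Fin N) (e : Fin (d + 1)) :
    blk A N i = e ↔ cut A N e ≤ i.val ∧ i.val < cut' A N e := by
  have h1 : i.val < cut A N e ↔ e < blk A N i := (lt_blk_iff A i e).symm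
  have h2 : i.val < cut' A N e ↔ e ≤ blk A N i := by
    rcases Fin.eq_zero_or_eq_succ e with rfl | ⟨f, rfl⟩
    · have : A.wGe 0 = 1 := (sum_congr rfl fun f _ => if_pos (Fin.zero_le f)).trans A.w_sum
      simp [cut', this]
    · have : A.wGe f.succ = A.wGt f.castSucc := sum_congr rfl fun g _ => by
        simp only [Fin.castSucc_lt_iff_succ_le]
      rw [show cut' A N f.succ = cut A N f.castSucc by rw [cut', cut, this], ← lt_blk_iff,
        Fin.castSucc_lt_iff_succ_le]
  rw [← not_lt, h1, h2]
  constructor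
  · rintro rfl; exact ⟨lt_irrefl _, le_rfl⟩
  · rintro ⟨a, b⟩; exact le_antisymm (not_lt.1 a) b

theorem card_blk (A : Atoms d) (e : Fin (d + 1)) :
    ((univ.filter fun i : Fin N => blk A N i = e).card : ℝ) = (cut' A N e : ℝ) - cut A N e := by
  have hle : cut A N e ≤ cut' A N e := Nat.ceil_mono (mul_le_mul_of_nonneg_left
    (by rw [A.wGe_eq]; linarith [A.w_pos e]) (Nat.cast_nonneg N))
  have hN : cut' A N e ≤ N :=
    Nat.ceil_le.2 (mul_le_of_le_one_right (Nat.cast_nonneg N) (A.wGe_le_one e))
  have h : (univ.filter fun i : Fin N => blk A N i = e) =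
      (univ.filter fun i : Fin N => i.val < cut' A N e) \ (univ.filter fun i : Fin N => i.val < cut A N e) := by
    ext i
    simp [blk_eq_iff, and_comm]
  rw [h, card_sdiff_of_subset (fun i hi => by
    simp only [mem_filter, mem_univ, true_and] at hi ⊢; exact hi.trans_le hle),
    Fin.card_filter_val_lt, Fin.card_filter_val_lt, min_eq_right hN, min_eq_right (hle.trans hN),
    Nat.cast_sub hle]

theorem law_Ioi (A : Atoms d) (e : Fin (d + 1)) :
    A.law.real (Set.Ioi (A.a e)) = A.wGt e ∧ A.law.real (Set.Ici (A.a e)) = A.wGe e := by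
  have h : ∀ S : Set ℝ, MeasurableSet S →
      A.law.real S = ∑ f, A.w f * S.indicator (1 : ℝ → ℝ) (A.a f) := fun S hS => by
    rw [measureReal_def, Atoms.law, Measure.coe_finsetSum, Finset.sum_apply, ENNReal.toReal_sum]
    · refine sum_congr rfl fun f _ => ?_
      by_cases hf : A.a f ∈ S
      · simp [Measure.dirac_apply' _ hS, hf, (A.w_pos f).le]
      · simp [Measure.dirac_apply' _ hS, hf]
    · intro f _
      by_cases hf : A.a f ∈ S <;> simp [Measure.dirac_apply' _ hS, hf]
  refine ⟨?_, ?_⟩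
  · rw [h _ measurableSet_Ioi]
    refine sum_congr rfl fun f _ => ?_
    simp only [Set.indicator_apply, Set.mem_Ioi, A.mono.lt_iff_lt, Pi.one_apply, mul_ite, mul_one, mul_zero]
  · rw [h _ measurableSet_Ici]
    refine sum_congr rfl fun f _ => ?_
    simp only [Set.indicator_apply, Set.mem_Ici, A.mono.le_iff_le, Pi.one_apply, mul_ite, mul_one, mul_zero]

theorem exists_nonatom (μ : Measure ℝ) [IsProbabilityMeasure μ] {x y : ℝ} (h : x < y) :
    ∃ t, x < t ∧ t < y ∧ μ {t} = 0 := by
  have hA : {x : ℝ | 0 < μ {x}}.Countable := by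
    simpa using Measure.countable_meas_pos_of_disjoint_iUnion (μ := μ) (As := fun x : ℝ => {x})
      (fun x => measurableSet_singleton x) fun x y hxy => Set.disjoint_singleton.2 hxy
  obtain ⟨t, ht1, ht2⟩ := (hA.dense_compl ℝ).exists_between h
  exact ⟨t, ht2.1, ht2.2, nonpos_iff_eq_zero.1 (not_lt.1 ht1)⟩

/-- Module I: atomic approximation. -/
theorem approxStmt : ApproxStmt := by
  intro μ b hμ htop ⟨lo, hlo⟩ ε hε
  set δ := ε / 8 with hδd
  have hδ : 0 < δ := by positivity
  obtain ⟨d, A, r, hrm, hlaw, hr, htp, -, heng⟩ := exists_atoms_eng htop hlo hδ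
  refine ⟨d, A, fun β k q hβ hq => (heng β k q hβ hq).trans (mul_le_mul_of_nonneg_left (by linarith) hβ),
    fun lam hlam θ hθ => ?_⟩
  have hae : ∀ᵐ t ∂μ, t ∈ Set.Icc lo b := by
    filter_upwards [measure_eq_zero_iff_ae_notMem.1 htop.1, measure_eq_zero_iff_ae_notMem.1 hlo]
      with t a c
    exact ⟨not_lt.1 c, not_lt.1 a⟩
  -- thresholds beside every atom
  choose tp htp1 htp2 htp0 using fun e => exists_nonatom μ (show A.a e + δ < A.a e + 2 * δ by linarith)
  choose tm htm1 htm2 htm0 using fun e => exists_nonatom μ (show A.a e - 2 * δ < A.a e - δ by linarith)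
  have hup : ∀ e, μ.real (Set.Ioi (tp e)) ≤ A.wGt e := fun e => by
    rw [← (law_Ioi A e).1, ← hlaw, map_measureReal_apply hrm measurableSet_Ioi]
    refine ENNReal.toReal_mono (measure_ne_top _ _) (measure_mono_ae (hae.mono fun t ht hmem => ?_))
    have h1 := abs_le.1 (hr t ht)
    have h2 : tp e < t := hmem
    show A.a e < r t
    linarith [htp1 e]
  have hdn : ∀ e, A.wGe e ≤ μ.real (Set.Ioi (tm e)) := fun e => by
    rw [← (law_Ioi A e).2, ← hlaw, map_measureReal_apply hrm measurableSet_Ici]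
    refine ENNReal.toReal_mono (measure_ne_top _ _) (measure_mono_ae (hae.mono fun t ht hmem => ?_))
    have h1 := abs_le.1 (hr t ht)
    have h2 : A.a e ≤ r t := hmem
    show tm e < t
    linarith [htm2 e]
  obtain ⟨a₁, ha₁⟩ := hlam.2.2
  set W := A.w (Fin.last d)
  have hW : 0 < W := A.w_pos _
  set D := |b| + |a₁| + |A.top| + |A.a 0| + 4 * δ + 1
  have hD : 0 < D := by positivity
  set θ₁ := min θ (min (W / 4) (δ * W / (8 * (D * (d + 1)))))
  have hθ₁ : 0 < θ₁ := lt_min hθ (lt_min (by positivity) (by positivity))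
  have hev : ∀ᶠ N : ℕ in atTop, ∀ e, (count (lam N) (tp e) : ℝ) / N ≤ A.wGt e + θ₁ / (4 * (d + 1)) ∧
      A.wGe e - θ₁ / (4 * (d + 1)) ≤ (count (lam N) (tm e) : ℝ) / N := by
    refine eventually_all.2 fun e => ?_
    have hg : 0 < θ₁ / (4 * ((d : ℝ) + 1)) := by positivity
    filter_upwards [(tendsto_count hlam (htp0 e)).eventually (eventually_le_nhds
        (show μ.real (Set.Ioi (tp e)) < A.wGt e + θ₁ / (4 * (d + 1)) by linarith [hup e])),
      (tendsto_count hlam (htm0 e)).eventually (eventually_ge_nhds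
        (show A.wGe e - θ₁ / (4 * (d + 1)) < μ.real (Set.Ioi (tm e)) by linarith [hdn e]))] with N h1 h2
    exact ⟨h1, h2⟩
  have hNev : ∀ᶠ N : ℕ in atTop, 4 * ((d : ℝ) + 1) ≤ θ₁ * N :=
    ((tendsto_natCast_atTop_atTop (R := ℝ)).const_mul_atTop hθ₁).eventually_ge_atTop _
  filter_upwards [hev, hNev, hlam.2.1 δ hδ, ha₁, eventually_ge_atTop 1] with N hN hNbig hNb hNa hN1
  have hN0 : 0 < N := hN1
  have hNr : (0 : ℝ) < N := by exact_mod_cast hN0
  obtain ⟨ρ, hρ⟩ := exists_sorted (lam N)
  set c : Fin N → Fin (d + 1) := fun i => blk A N (ρ.symm i)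
  have hd1 : (1 : ℝ) ≤ (d : ℝ) + 1 := by linarith [Nat.cast_nonneg (α := ℝ) d]
  have hcard : ∀ e, |((univ.filter fun i => c i = e).card : ℝ) - A.w e * N| ≤ 1 := fun e => by
    have h : (univ.filter fun i => c i = e).card = (univ.filter fun i : Fin N => blk A N i = e).card :=
      Finset.card_bij (fun i _ => ρ.symm i) (fun i hi => by simpa [c] using hi)
        (fun i _ j _ h => ρ.symm.injective h)
        fun i hi => ⟨ρ i, by simpa [c] using hi, ρ.symm_apply_apply i⟩
    rw [h, card_blk]
    have a1 := Nat.le_ceil ((N : ℝ) * A.wGt e)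
    have a2 := Nat.ceil_lt_add_one (mul_nonneg hNr.le (A.wGt_nonneg e))
    have a3 := Nat.le_ceil ((N : ℝ) * (A.w e + A.wGt e))
    have a4 := Nat.ceil_lt_add_one (mul_nonneg hNr.le (add_nonneg (A.w_pos e).le (A.wGt_nonneg e)))
    simp only [cut, cut', A.wGe_eq]
    rw [abs_le]
    constructor <;> linarith
  refine ⟨c, fun e => (hcard e).trans ?_, fun β m hβ hm => ?_⟩
  · have := mul_le_mul_of_nonneg_right (min_le_left θ (min (W / 4) (δ * W / (8 * (D * (d + 1)))))) hNr.le
    linarith
  have := hm.1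
  -- exceptional indices
  set Bad := univ.filter fun i => 3 * δ < |lam N i - A.a (c i)|
  have hbad : (Bad.card : ℝ) ≤ θ₁ * N := by
    set G := fun e => (univ.filter fun i : Fin N => i.val < count (lam N) (tp e) ∧ cut A N e ≤ i.val) ∪
      univ.filter fun i : Fin N => count (lam N) (tm e) ≤ i.val ∧ i.val < cut' A N e
    have hsub : Bad ⊆ (univ.biUnion G).map ρ.toEmbedding := fun i hi => by
      simp only [Bad, mem_filter, mem_univ, true_and] at hi
      refine Finset.mem_map.2 ⟨ρ.symm i, mem_biUnion.2 ⟨c i, mem_univ _, ?_⟩, ρ.apply_symm_apply i⟩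
      obtain ⟨h1, h2⟩ := (blk_eq_iff A (ρ.symm i) (c i)).1 rfl
      rcases lt_abs.1 hi with h | h
      · refine mem_union_left _ (mem_filter.2 ⟨mem_univ _, (hρ _ _).1 ?_, h1⟩)
        rw [ρ.apply_symm_apply]
        linarith [htp2 (c i)]
      · refine mem_union_right _ (mem_filter.2 ⟨mem_univ _, not_lt.1 fun h3 => ?_, h2⟩)
        have := (hρ _ _).2 h3
        rw [ρ.apply_symm_apply] at this
        linarith [htm1 (c i)]
    have hG : ∀ e, ((G e).card : ℝ) ≤ θ₁ / (2 * (d + 1)) * N + 1 := fun e => by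
      obtain ⟨g1, g2⟩ := hN e
      rw [div_le_iff₀ hNr] at g1
      rw [le_div_iff₀ hNr] at g2
      have hb : ∀ p q : ℕ, ∀ S : Finset (Fin N), (∀ i ∈ S, i.val < p ∧ q ≤ i.val) →
          (S.card : ℝ) ≤ max 0 ((p : ℝ) - q) := fun p q S hS => by
        have h : S.card ≤ p - q := by
          refine (card_le_card_of_injOn (t := Finset.Ico q p) (fun i => i.val) (fun i hi => ?_)
            Fin.val_injective.injOn).trans (le_of_eq (Nat.card_Ico q p))
          simp [(hS i hi).1, (hS i hi).2]
        rcases le_total q p with hqp | hqp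
        · exact (Nat.cast_le.2 h).trans (by rw [Nat.cast_sub hqp]; exact le_max_right _ _)
        · rw [Nat.sub_eq_zero_of_le hqp, Nat.le_zero] at h; simp [h]
      have c1 := hb (count (lam N) (tp e)) (cut A N e)
        (univ.filter fun i : Fin N => i.val < count (lam N) (tp e) ∧ cut A N e ≤ i.val)
        fun i hi => (mem_filter.1 hi).2
      have c2 := hb (cut' A N e) (count (lam N) (tm e))
        (univ.filter fun i : Fin N => count (lam N) (tm e) ≤ i.val ∧ i.val < cut' A N e)
        fun i hi => ⟨(mem_filter.1 hi).2.2, (mem_filter.1 hi).2.1⟩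
      have a1 := Nat.le_ceil ((N : ℝ) * A.wGt e)
      have a4 := Nat.ceil_lt_add_one (mul_nonneg hNr.le ((A.wGt_nonneg e).trans
        (by rw [A.wGe_eq]; linarith [A.w_pos e] : A.wGt e ≤ A.wGe e)))
      have e1 : θ₁ / (2 * ((d : ℝ) + 1)) * N = 2 * (θ₁ / (4 * (d + 1)) * N) := by field_simp; ring
      have hpos : 0 ≤ θ₁ / (4 * ((d : ℝ) + 1)) * N := by positivity
      refine le_trans (Nat.cast_le.2 (card_union_le _ _)) ?_
      rw [Nat.cast_add]
      refine (add_le_add (c1.trans (max_le hpos ?_)) (c2.trans (max_le (add_nonneg hpos zero_le_one) ?_))).trans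
        (le_of_eq (by rw [e1]; ring))
      · simp only [cut]; linarith
      · simp only [cut']; linarith
    refine (Nat.cast_le.2 ((card_le_card hsub).trans_eq (card_map _) |>.trans card_biUnion_le)).trans ?_
    rw [Nat.cast_sum]
    refine (sum_le_sum fun e _ => hG e).trans ?_
    rw [sum_const, card_univ, Fintype.card_fin, nsmul_eq_mul]
    have e2 : ((d + 1 : ℕ) : ℝ) * (θ₁ / (2 * (d + 1)) * N + 1) = θ₁ * N / 2 + ((d : ℝ) + 1) := by
      push_cast; field_simp
    linarith
  -- the two comparisons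
  set u : ℝ → Fin N → ℝ := fun s i => A.a (c i) + s
  set vp : Fin N → ℝ := fun i => max (lam N i) (A.a (c i) + 3 * δ)
  set vm : Fin N → ℝ := fun i => min (lam N i) (A.a (c i) + -(3 * δ))
  have htop' : ∀ i, A.a (c i) ≤ A.top := fun i => A.mono.monotone (Fin.le_last _)
  have htb := abs_le.1 htp
  set T := univ.filter fun i => c i = Fin.last d
  have hT : W / 2 * N ≤ (T.card : ℝ) - Bad.card := by
    have h1 := abs_le.1 (hcard (Fin.last d))
    have h2 := mul_le_mul_of_nonneg_right
      ((min_le_right θ _).trans (min_le_left (W / 4) (δ * W / (8 * (D * (d + 1)))))) hNr.le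
    simp only [W, T] at *
    linarith
  have hTc : ∀ i ∈ T, A.a (c i) = A.top := fun i hi => by rw [(mem_filter.1 hi).2]; rfl
  have hmass : ∀ (v : Fin N → ℝ) (K : Finset (Fin N)), W / 2 * N ≤ K.card →
      (∀ i, ∀ j ∈ K, v i ≤ v j) → ∀ i, mass β m v i ≤ 2 / W := fun v K hK hKv i => by
    have h := mass_le_top hm hβ v K hKv i
    rw [le_div_iff₀ hW]
    nlinarith [mass_nonneg (β := β) (m := m) v i]
  have hTN : W / 2 * N ≤ (T.card : ℝ) := by linarith [Nat.cast_nonneg (α := ℝ) Bad.card]
  have hmu : ∀ s i, mass β m (u s) i ≤ 2 / W := fun s => hmass _ T hTN fun i j hj => by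
    simp only [u, hTc j hj]
    linarith [htop' i]
  have hmp : ∀ i, mass β m vp i ≤ 2 / W := hmass _ T hTN fun i j hj => by
    simp only [vp, hTc j hj]
    refine max_le ?_ ((by linarith [htop' i] : A.a (c i) + 3 * δ ≤ A.top + 3 * δ).trans (le_max_right _ _))
    exact le_max_of_le_right (by linarith [hNb i])
  have hmm : ∀ i, mass β m vm i ≤ 2 / W := by
    refine hmass _ (T \ Bad) ?_ fun i j hj => ?_
    · have := le_card_sdiff Bad T
      have h2 : (T.card : ℝ) ≤ ((T \ Bad).card : ℝ) + Bad.card := by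
        exact_mod_cast Nat.sub_le_iff_le_add.1 this
      linarith
    · obtain ⟨hjT, hjB⟩ := mem_sdiff.1 hj
      simp only [Bad, mem_filter, mem_univ, true_and, not_lt] at hjB
      have h3 := abs_le.1 hjB
      simp only [vm]
      rw [min_eq_right (a := lam N j) (by linarith), hTc j hjT]
      exact (min_le_right _ _).trans (by linarith [htop' i])
  -- pressures
  set P : (Fin N → ℝ) → ℝ := fun v => ∫ U, press β v U ∂m
  have hI : ∀ v, Integrable (fun U => press β v U) m := fun v => integrable_press hm hβ hN0.ne' v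
  have hdiff : ∀ v w : Fin N → ℝ, |P v - P w| ≤ β / (2 * N) * ∑ i, |v i - w i| * (mass β m v i + mass β m w i) :=
    fun v w => by
      simp only [P]
      rw [← integral_sub (hI v) (hI w)]
      exact abs_integral_le_integral_abs.trans (integral_abs_press_sub_le hm hβ hN0.ne' v w)
  have hmono : ∀ v w : Fin N → ℝ, (∀ i, v i ≤ w i) → P v ≤ P w := fun v w h => by
    refine integral_mono (hI v) (hI w) fun U => ?_
    have := press_tangent (β := β) v w U
    have h0 : 0 ≤ β / (2 * (N : ℝ)) * ∑ i, (w i - v i) * weight β v U i :=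
      mul_nonneg (by positivity) (sum_nonneg fun i _ => mul_nonneg (sub_nonneg.2 (h i)) (weight_nonneg v U i))
    linarith
  have hshift : ∀ s, |P (u s) - P (u 0)| ≤ β * |s| := fun s => by
    refine (hdiff _ _).trans (le_of_eq ?_)
    simp only [u, add_sub_add_left_eq_sub, sub_zero, ← mul_sum, sum_add_distrib, sum_mass hm]
    field_simp
    ring
  have hclip : ∀ v w : Fin N → ℝ, (∀ i, mass β m v i ≤ 2 / W) → (∀ i, mass β m w i ≤ 2 / W) →
      (∀ i, i ∉ Bad → v i = w i) → (∀ i, |v i - w i| ≤ 2 * D) → |P v - P w| ≤ β * δ := by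
    intro v w hv hw he hb
    refine (hdiff v w).trans ?_
    have h1 : ∑ i, |v i - w i| * (mass β m v i + mass β m w i) ≤ Bad.card * (2 * D * (4 / W)) := by
      rw [← sum_subset (subset_univ Bad) fun i _ hi => by rw [he i hi, sub_self, abs_zero, zero_mul]]
      refine (sum_le_card_nsmul Bad _ (2 * D * (4 / W)) fun i _ => ?_).trans_eq (nsmul_eq_mul _ _)
      refine mul_le_mul (hb i) ?_ (add_nonneg (mass_nonneg _ i) (mass_nonneg _ i)) (by positivity)
      have e3 : 4 / W = 2 / W + 2 / W := by ring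
      rw [e3]
      exact add_le_add (hv i) (hw i)
    refine (mul_le_mul_of_nonneg_left (h1.trans (mul_le_mul_of_nonneg_right hbad (by positivity)))
      (by positivity)).trans ?_
    have h2 : θ₁ ≤ δ * W / (8 * (D * (d + 1))) := (min_le_right θ _).trans (min_le_right _ _)
    rw [le_div_iff₀ (by positivity)] at h2
    have e4 : β / (2 * (N : ℝ)) * (θ₁ * N * (2 * D * (4 / W))) = β * ((4 * (θ₁ * D)) / W) := by
      field_simp
    rw [e4]
    refine mul_le_mul_of_nonneg_left ?_ hβ
    rw [div_le_iff₀ hW]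
    nlinarith [mul_nonneg (mul_nonneg hθ₁.le hD.le) (Nat.cast_nonneg (α := ℝ) d)]
  have hlow : ∀ i, A.a 0 ≤ A.a (c i) := fun i => A.mono.monotone (Fin.zero_le _)
  have hBound : ∀ i, |lam N i - A.a (c i)| ≤ 2 * D - 3 * δ := fun i => by
    have := hNb i; have := hNa i; have := htop' i; have := hlow i
    rw [abs_le]
    constructor <;> linarith [le_abs_self b, neg_abs_le a₁, le_abs_self A.top, neg_abs_le (A.a 0),
      abs_nonneg b, abs_nonneg a₁, abs_nonneg A.top, abs_nonneg (A.a 0)]
  have hp : |P vp - P (u (3 * δ))| ≤ β * δ := by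
    refine hclip _ _ hmp (hmu _) (fun i hi => ?_) fun i => ?_
    · simp only [Bad, mem_filter, mem_univ, true_and, not_lt] at hi
      exact max_eq_right (by linarith [(abs_le.1 hi).2])
    · have := abs_le.1 (hBound i)
      have h1 : A.a (c i) + 3 * δ ≤ vp i := le_max_right _ _
      have h2 : vp i ≤ A.a (c i) + 3 * δ + (2 * D) := max_le (by linarith) (by linarith)
      simp only [u]
      rw [abs_le]; constructor <;> linarith
  have hm' : |P vm - P (u (-(3 * δ)))| ≤ β * δ := by
    refine hclip _ _ hmm (hmu _) (fun i hi => ?_) fun i => ?_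
    · simp only [Bad, mem_filter, mem_univ, true_and, not_lt] at hi
      exact min_eq_right (by linarith [(abs_le.1 hi).1])
    · have := abs_le.1 (hBound i)
      have h1 : vm i ≤ A.a (c i) + -(3 * δ) := min_le_right _ _
      have h2 : A.a (c i) + -(3 * δ) - 2 * D ≤ vm i := le_min (by linarith) (by linarith)
      simp only [u]
      rw [abs_le]; constructor <;> linarith
  have hu0 : meanP m β A.a c = P (u 0) := by simp [meanP, P, u]
  have s1 := hmono (lam N) vp fun i => le_max_left _ _
  have s2 := hmono vm (lam N) fun i => min_le_left _ _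
  have s3 := abs_le.1 (hshift (3 * δ))
  have s4 := abs_le.1 (hshift (-(3 * δ)))
  rw [abs_neg, abs_of_pos (by positivity : 0 < 3 * δ)] at s4
  rw [abs_of_pos (by positivity : 0 < 3 * δ)] at s3
  have hβδ : 4 * (β * δ) ≤ β * ε := by rw [hδd]; nlinarith
  rw [hu0, abs_le]
  constructor <;> linarith [(abs_le.1 hp).1, (abs_le.1 hp).2, (abs_le.1 hm').1, (abs_le.1 hm').2]

end Vale.Agent.P166.Rsb
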