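import Vale.Agent.P166.Rsb.Formula

/-!
# P166: the kernels of the blocks along a path

`A.kap β e v` is the kernel `1 / (β (z - a e))` of the block `e` where the spins have kernel `v`.
The image of a top kernel under the swap relation gives all of them, and the energy derivative is
linear in their `comb`s.
-/

open Real Finset
open Vale.Agent.P157.Rsb (lev vOf IsPath tail)

namespace Vale.Agent.P166.Rsb

namespace Atoms

variable {d k : ℕ} (A : Atoms d) {β : ℝ}

/-- The kernel of block `e` where the spins have kernel `v`. -/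
noncomputable def kap (β : ℝ) (e : Fin (d + 1)) (v : ℝ) : ℝ := kA A.a A.w e (β * v) / β

/-- The kernel of block `e` obtained from the kernel `u` of the top block. -/
noncomputable def swapK (β : ℝ) (e : Fin (d + 1)) (u : ℝ) : ℝ :=
  u / (1 + β * (A.top - A.a e) * u)

/-- The spin kernel obtained from the kernel `u` of the top block. -/
noncomputable def swapV (β u : ℝ) : ℝ := ∑ e, A.w e * A.swapK β e u

theorem gap_nonneg (e : Fin (d + 1)) : 0 ≤ A.top - A.a e :=
  sub_nonneg.2 (A.mono.monotone (Fin.le_last e))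

theorem kap_nonneg (hβ : 0 < β) (e : Fin (d + 1)) (v : ℝ) : 0 ≤ A.kap β e v :=
  div_nonneg (A.isSpec.kA_nonneg e _) hβ.le

theorem kap_zero (e : Fin (d + 1)) : A.kap β e 0 = 0 := by
  simp [kap, IsSpec.kA_of_nonpos]

theorem kap_mono (hβ : 0 < β) (e : Fin (d + 1)) : Monotone (A.kap β e) := fun _ _ h =>
  div_le_div_of_nonneg_right (A.isSpec.kA_mono e (mul_le_mul_of_nonneg_left h hβ.le)) hβ.le

theorem kap_dist_le (hβ : 0 < β) (e : Fin (d + 1)) (u v : ℝ) :
    |A.kap β e v - A.kap β e u| ≤ |v - u| / A.w e := by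
  rw [kap, kap, ← sub_div, abs_div, abs_of_pos hβ, div_le_iff₀ hβ]
  refine (A.isSpec.kA_dist_le e _ _).trans (le_of_eq ?_)
  rw [← mul_sub, abs_mul, abs_of_pos hβ]
  ring

theorem sum_kap (hβ : 0 < β) {v : ℝ} (hv : 0 ≤ v) : ∑ e, A.w e * A.kap β e v = v := by
  simp only [kap, mul_div, ← sum_div, A.isSpec.sum_kA (mul_nonneg hβ.le hv)]
  rw [mul_div_cancel_left₀ _ hβ.ne']

theorem kap_eq (hβ : 0 < β) (e : Fin (d + 1)) {v : ℝ} (hv : 0 < v) :
    A.kap β e v = 1 / (β * (A.zOf (β * v) - A.a e)) := by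
  rw [kap, kA, if_pos (mul_pos hβ hv), A.zOf_eq (mul_pos hβ hv), div_div, mul_comm]

theorem kap_swap (hβ : 0 < β) (e f : Fin (d + 1)) (v : ℝ) :
    A.kap β f v * (1 + β * (A.a e - A.a f) * A.kap β e v) = A.kap β e v := by
  have h := A.isSpec.kA_swap (a := A.a) e f (β * v)
  simp only [kap]
  field_simp
  linear_combination h

theorem denom_pos (hβ : 0 < β) (e : Fin (d + 1)) {u : ℝ} (hu : 0 ≤ u) :
    0 < 1 + β * (A.top - A.a e) * u := by
  have := mul_nonneg (mul_nonneg hβ.le (A.gap_nonneg e)) hu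
  linarith

theorem swapK_kap_top (hβ : 0 < β) (e : Fin (d + 1)) (v : ℝ) :
    A.swapK β e (A.kap β (Fin.last d) v) = A.kap β e v := by
  rw [swapK, div_eq_iff (A.denom_pos hβ e (A.kap_nonneg hβ _ v)).ne', top]
  exact (A.kap_swap hβ (Fin.last d) e v).symm

theorem swapK_nonneg (hβ : 0 < β) (e : Fin (d + 1)) {u : ℝ} (hu : 0 ≤ u) : 0 ≤ A.swapK β e u :=
  div_nonneg hu (A.denom_pos hβ e hu).le

theorem swapK_le (hβ : 0 < β) (e : Fin (d + 1)) {u : ℝ} (hu : 0 ≤ u) : A.swapK β e u ≤ u :=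
  div_le_self hu (le_add_of_nonneg_right (mul_nonneg (mul_nonneg hβ.le (A.gap_nonneg e)) hu))

theorem swapK_sub_le (hβ : 0 < β) (e : Fin (d + 1)) {u u' : ℝ} (hu : 0 ≤ u) (h : u ≤ u') :
    0 ≤ A.swapK β e u' - A.swapK β e u ∧ A.swapK β e u' - A.swapK β e u ≤ u' - u := by
  have p1 := A.denom_pos hβ e hu
  have p2 := A.denom_pos hβ e (hu.trans h)
  have hc := mul_nonneg hβ.le (A.gap_nonneg e)
  have he : A.swapK β e u' - A.swapK β e u =
      (u' - u) / ((1 + β * (A.top - A.a e) * u') * (1 + β * (A.top - A.a e) * u)) := by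
    rw [swapK, swapK, div_sub_div _ _ p2.ne' p1.ne']
    ring
  rw [he]
  refine ⟨div_nonneg (sub_nonneg.2 h) (by positivity), div_le_self (sub_nonneg.2 h) ?_⟩
  exact one_le_mul_of_one_le_of_one_le (le_add_of_nonneg_right (mul_nonneg hc (hu.trans h)))
    (le_add_of_nonneg_right (mul_nonneg hc hu))

theorem swapV_nonneg (hβ : 0 < β) {u : ℝ} (hu : 0 ≤ u) : 0 ≤ A.swapV β u :=
  sum_nonneg fun e _ => mul_nonneg (A.w_pos e).le (A.swapK_nonneg hβ e hu)

/-- The images of a top kernel are the kernels at the induced spin kernel. -/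
theorem kap_swapV (hβ : 0 < β) (e : Fin (d + 1)) {u : ℝ} (hu : 0 ≤ u) :
    A.kap β e (A.swapV β u) = A.swapK β e u := by
  have h := A.isSpec.kA_unique (a := A.a) (K := fun f => β * A.swapK β f u) (x := β * A.swapV β u)
    (fun f => mul_nonneg hβ.le (A.swapK_nonneg hβ f hu)) (fun f g => ?_)
    (by rw [swapV, mul_sum]; exact sum_congr rfl fun f _ => by ring) e
  · rw [kap, ← h, mul_div_cancel_left₀ _ hβ.ne']
  · have p1 := (A.denom_pos hβ f hu).ne'
    have p2 := (A.denom_pos hβ g hu).ne'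
    simp only [swapK]
    have e1 : 1 + (A.a f - A.a g) * (β * (u / (1 + β * (A.top - A.a f) * u))) =
        (1 + β * (A.top - A.a g) * u) / (1 + β * (A.top - A.a f) * u) := by
      rw [eq_div_iff p1]
      linear_combination (A.a f - A.a g) * β * div_mul_cancel₀ u p1
    rw [e1, mul_assoc, div_mul_div_cancel₀ p2]

theorem eAt_eq_sum (hβ : 0 < β) (k : ℕ) (q : ℕ → ℝ) :
    A.eAt β k q = (∑ e, A.a e * (A.w e * comb k q (A.kap β e))) / 2 := by
  have hs : ∀ (f : Fin (d + 1) → ℝ → ℝ), comb k q (fun v => ∑ e, f e v) = ∑ e, comb k q (f e) := by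
    intro f
    simp only [comb, sum_add_distrib, ← sum_sub_distrib, sum_div]
    rw [sum_comm]
  have h : (fun v => hA A.a A.w (β * v)) = fun v => ∑ e, (β * A.a e * A.w e) * A.kap β e v :=
    funext fun v => sum_congr rfl fun e _ => by simp only [kap]; field_simp
  rw [A.eAt_eq, h, hs]
  simp only [comb_const_mul]
  rw [sum_div, sum_div]
  exact sum_congr rfl fun e _ => by field_simp

theorem sum_comb_kap (hβ : 0 < β) {q : ℕ → ℝ} (hq : IsPath k q) :
    ∑ e, A.w e * comb k q (A.kap β e) = 1 := by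
  have h : ∀ i, ∑ e, A.w e * A.kap β e (vOf k q i) = vOf k q i := fun i =>
    A.sum_kap hβ (vOf_nonneg hq i)
  rw [← comb_id hq.1]
  simp only [comb, mul_add, mul_sum, sum_add_distrib, h]
  rw [sum_comm]
  refine congrArg _ (sum_congr rfl fun i _ => ?_)
  simp only [mul_div, ← sum_div, mul_sub, sum_sub_distrib, h]

/-- The energy derivative is Lipschitz in the mass-weighted distance of paths. -/
theorem exists_eAt_lip (B : ℝ) (hB : 0 < B) :
    ∃ C : ℝ, 0 ≤ C ∧ ∀ (k : ℕ) (β : ℝ) (q q' : ℕ → ℝ), 0 < β → β ≤ B → IsPath k q → IsPath k q' →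
      |A.eAt β k q' - A.eAt β k q| ≤ C * (P157.Rsb.mass k * ∑ l ∈ Icc 1 k, |q' l - q l|) := by
  obtain ⟨C, hC0, hC⟩ := (formulaStmt d A).2.1 B hB
  refine ⟨C, hC0, fun k β q q' hβ hβB hq hq' => ?_⟩
  set e := P157.Rsb.mass k * ∑ l ∈ Icc 1 k, |q' l - q l| with he
  have hm : 0 ≤ P157.Rsb.mass k := by unfold P157.Rsb.mass; positivity
  have he0 : 0 ≤ e := mul_nonneg hm (sum_nonneg fun _ _ => abs_nonneg _)
  have ht : ∀ j ∈ Icc 1 k, |tail k q' j - tail k q j| ≤ e := fun j hj => by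
    rw [P157.Rsb.tail, P157.Rsb.tail, ← mul_sub, abs_mul, abs_of_nonneg hm, ← sum_sub_distrib]
    refine mul_le_mul_of_nonneg_left ((abs_sum_le_sum_abs _ _).trans ?_) hm
    exact sum_le_sum_of_subset_of_nonneg (Icc_subset_Icc_left (mem_Icc.1 hj).1)
      fun _ _ _ => abs_nonneg _
  have h1 := (hC k β q q' hβ hβB hq hq').1 e he0 fun j hj => by linarith [(abs_le.1 (ht j hj)).1]
  have h2 := (hC k β q' q hβ hβB hq' hq).1 e he0 fun j hj => by linarith [(abs_le.1 (ht j hj)).2]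
  rw [abs_le]; constructor <;> linarith

end Atoms

end Vale.Agent.P166.Rsb
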