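import Mathlib

/-!
# P166: the secular equation of one added direction

For increasing values `a` and positive weights `ω` of sum one, the vectors
`√ω / (ν r - a)`, `ν r` the zeros of `∑ ω / (z - a)`, together with `√ω` form an orthonormal basis
in which `diag a` is an arrowhead matrix.
-/

open Real Finset Matrix

namespace Vale.Agent.P166.Rsb

variable {d : ℕ}

/-- A spectrum with weights, for one added direction. -/
structure Secular (d : ℕ) where
  /-- the values -/
  a : Fin (d + 1) → ℝ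
  /-- the weights -/
  ω : Fin (d + 1) → ℝ
  mono : StrictMono a
  pos : ∀ e, 0 < ω e
  sum : ∑ e, ω e = 1

namespace Secular

variable (S : Secular d)

/-- The secular function. -/
noncomputable def g (z : ℝ) : ℝ := ∑ e, S.ω e / (z - S.a e)

theorem exists_root (r : Fin d) : ∃ ν ∈ Set.Ioo (S.a r.castSucc) (S.a r.succ), S.g ν = 0 := by
  have hlt : S.a r.castSucc < S.a r.succ := S.mono Fin.castSucc_lt_succ
  set lo := S.a r.castSucc
  set hi := S.a r.succ
  have hout : ∀ x ∈ Set.Ioo lo hi, ∀ e, x - S.a e ≠ 0 := fun x hx e h => by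
    rcases le_or_gt e r.castSucc with he | he
    · have := S.mono.monotone he; linarith [hx.1, sub_eq_zero.1 h]
    · have := S.mono.monotone (Fin.castSucc_lt_iff_succ_le.1 he); linarith [hx.2, sub_eq_zero.1 h]
  -- clear the denominators of the two neighbours
  set p : ℝ → ℝ := fun x => S.ω r.castSucc * (hi - x) - S.ω r.succ * (x - lo)
    + (x - lo) * (hi - x) * ∑ e ∈ (univ.erase r.castSucc).erase r.succ, S.ω e / (x - S.a e) with hp
  have hc : ContinuousOn p (Set.Icc lo hi) := by
    refine ContinuousOn.add (by fun_prop) (ContinuousOn.mul (by fun_prop) ?_)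
    refine continuousOn_finsetSum _ fun e he => ContinuousOn.div (by fun_prop) (by fun_prop) ?_
    intro x hx h
    obtain ⟨he1, he2⟩ := by simpa using he
    rcases lt_or_gt_of_ne he2 with he' | he'
    · have := S.mono he'; linarith [hx.1, sub_eq_zero.1 h]
    · have h' : r.succ < e := lt_of_le_of_ne (Fin.castSucc_lt_iff_succ_le.1 he') (Ne.symm he1)
      have := S.mono h'; linarith [hx.2, sub_eq_zero.1 h]
  have hl : 0 < p lo := by
    simp only [hp, sub_self, mul_zero, zero_mul, sub_zero, add_zero]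
    exact mul_pos (S.pos _) (sub_pos.2 hlt)
  have hh : p hi < 0 := by
    simp only [hp, sub_self, mul_zero, zero_mul, zero_sub, add_zero]
    exact neg_lt_zero.2 (mul_pos (S.pos _) (sub_pos.2 hlt))
  obtain ⟨x, hx, hx0⟩ := intermediate_value_Ioo' hlt.le hc ⟨hh, hl⟩
  refine ⟨x, hx, ?_⟩
  have h1 : (x - lo) ≠ 0 := (sub_pos.2 hx.1).ne'
  have h2 : (x - hi) ≠ 0 := (sub_neg.2 hx.2).ne
  have hne : r.succ ≠ r.castSucc := Fin.castSucc_lt_succ.ne'
  have hsplit : S.g x = S.ω r.castSucc / (x - lo) + (S.ω r.succ / (x - hi)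
      + ∑ e ∈ (univ.erase r.castSucc).erase r.succ, S.ω e / (x - S.a e)) := by
    rw [g, ← add_sum_erase univ _ (mem_univ r.castSucc),
      ← add_sum_erase (univ.erase r.castSucc) _ (mem_erase.2 ⟨hne, mem_univ _⟩)]
  rw [hsplit]
  simp only [hp] at hx0
  field_simp
  linear_combination (-1 : ℝ) * hx0

/-- The zeros of the secular function between consecutive values. -/
noncomputable def ν (r : Fin d) : ℝ := (S.exists_root r).choose

theorem ν_mem (r : Fin d) : S.a r.castSucc < S.ν r ∧ S.ν r < S.a r.succ :=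
  ((S.exists_root r).choose_spec.1)

theorem g_ν (r : Fin d) : S.g (S.ν r) = 0 := (S.exists_root r).choose_spec.2

theorem ν_sub_ne (r : Fin d) (e : Fin (d + 1)) : S.ν r - S.a e ≠ 0 := fun h => by
  rcases le_or_gt e r.castSucc with he | he
  · have := S.mono.monotone he; linarith [(S.ν_mem r).1, sub_eq_zero.1 h]
  · have := S.mono.monotone (Fin.castSucc_lt_iff_succ_le.1 he)
    linarith [(S.ν_mem r).2, sub_eq_zero.1 h]

theorem ν_strictMono : StrictMono S.ν := fun r s h => by
  have h' : r.succ ≤ s.castSucc := Fin.castSucc_lt_iff_succ_le.1 (Fin.castSucc_lt_castSucc_iff.2 h)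
  linarith [(S.ν_mem r).2, (S.ν_mem s).1, S.mono.monotone h']

theorem ν_lt_top (r : Fin d) : S.ν r < S.a (Fin.last d) :=
  (S.ν_mem r).2.trans_le (S.mono.monotone (Fin.le_last _))

/-- The squared norm of the unnormalised eigenvector. -/
noncomputable def nrm (r : Fin d) : ℝ := ∑ e, S.ω e / (S.ν r - S.a e) ^ 2

theorem nrm_pos (r : Fin d) : 0 < S.nrm r :=
  sum_pos (fun e _ => div_pos (S.pos e) (sq_pos_of_ne_zero (S.ν_sub_ne r e))) univ_nonempty

/-- The new eigenvectors. -/
noncomputable def vec (r : Fin d) (e : Fin (d + 1)) : ℝ :=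
  √(S.ω e) / ((S.ν r - S.a e) * √(S.nrm r))

/-- The coupling of the added direction to a new eigenvector. -/
noncomputable def cpl (r : Fin d) : ℝ := -1 / √(S.nrm r)

/-- The mean of the values. -/
noncomputable def mean : ℝ := ∑ e, S.ω e * S.a e

/-- The basis `√ω`, `vec r` as a matrix. -/
noncomputable def basis : Matrix (Fin (d + 1)) (Fin (d + 1)) ℝ :=
  of fun e i => Fin.cases (√(S.ω e)) (fun r => S.vec r e) i

theorem sqrt_mul_vec (r : Fin d) : ∑ e, √(S.ω e) * S.vec r e = 0 := by
  have h : ∀ e, √(S.ω e) * S.vec r e = (S.ω e / (S.ν r - S.a e)) / √(S.nrm r) := fun e => by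
    rw [vec, ← mul_div_assoc, mul_self_sqrt (S.pos e).le, div_div]
  simp_rw [h, ← sum_div]
  rw [show ∑ e, S.ω e / (S.ν r - S.a e) = 0 from S.g_ν r, zero_div]

theorem vec_mul_sqrt (r : Fin d) : ∑ e, S.vec r e * √(S.ω e) = 0 := by
  simp_rw [mul_comm (S.vec r _), S.sqrt_mul_vec]

theorem vec_mul_vec (r s : Fin d) : ∑ e, S.vec r e * S.vec s e = if r = s then 1 else 0 := by
  have h : ∀ e, S.vec r e * S.vec s e
      = S.ω e / ((S.ν r - S.a e) * (S.ν s - S.a e)) / (√(S.nrm r) * √(S.nrm s)) := fun e => by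
    rw [vec, vec, div_mul_div_comm, mul_self_sqrt (S.pos e).le, div_div]
    ring
  simp_rw [h, ← sum_div]
  split_ifs with hrs
  · subst hrs
    simp_rw [← sq]
    rw [show ∑ e, S.ω e / (S.ν r - S.a e) ^ 2 = S.nrm r from rfl, sq_sqrt (S.nrm_pos r).le, div_self (S.nrm_pos r).ne']
  · have hne : S.ν s - S.ν r ≠ 0 := sub_ne_zero.2 fun h => hrs (S.ν_strictMono.injective h).symm
    have h0 : ∀ e, S.ω e / ((S.ν r - S.a e) * (S.ν s - S.a e))
        = (S.ω e / (S.ν r - S.a e) - S.ω e / (S.ν s - S.a e)) / (S.ν s - S.ν r) := fun e => by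
      have h1 := S.ν_sub_ne r e; have h2 := S.ν_sub_ne s e
      field_simp
      ring
    simp_rw [h0, ← sum_div, sum_sub_distrib]
    rw [show ∑ e, S.ω e / (S.ν r - S.a e) = 0 from S.g_ν r,
      show ∑ e, S.ω e / (S.ν s - S.a e) = 0 from S.g_ν s]
    simp

theorem basis_orth : S.basisᵀ * S.basis = 1 := by
  ext i j
  simp only [Matrix.mul_apply, transpose_apply, basis, of_apply, Matrix.one_apply]
  induction i using Fin.cases with
  | zero =>
    induction j using Fin.cases with
    | zero => simp [mul_self_sqrt (S.pos _).le, S.sum]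
    | succ s => simp [S.sqrt_mul_vec, (Fin.succ_ne_zero s).symm]
  | succ r =>
    induction j using Fin.cases with
    | zero => simp [S.vec_mul_sqrt, Fin.succ_ne_zero]
    | succ s => simp [S.vec_mul_vec]

/-- The coordinates of `y` in the basis recover it. -/
theorem expand (y : Fin (d + 1) → ℝ) (e : Fin (d + 1)) :
    y e = √(S.ω e) * ∑ f, √(S.ω f) * y f + ∑ r, S.vec r e * ∑ f, S.vec r f * y f := by
  have hB : S.basis * S.basisᵀ = 1 := mul_eq_one_comm.1 S.basis_orth
  have h := congrFun (congrArg (fun M => M *ᵥ y) hB) e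
  rw [one_mulVec] at h
  rw [← h, ← mulVec_mulVec]
  simp only [mulVec, dotProduct]
  rw [Fin.sum_univ_succ]
  simp [basis]

theorem diag_mul_vec (r : Fin d) (e : Fin (d + 1)) :
    S.a e * S.vec r e = S.ν r * S.vec r e + S.cpl r * √(S.ω e) := by
  have h1 := S.ν_sub_ne r e
  have h2 := (sqrt_pos.2 (S.nrm_pos r)).ne'
  rw [vec, cpl]
  field_simp
  ring

/-- The form of `diag a` on two eigenvectors. -/
theorem vec_diag_vec (r s : Fin d) :
    ∑ e, S.vec r e * (S.a e * S.vec s e) = if r = s then S.ν r else 0 := by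
  simp_rw [S.diag_mul_vec s, mul_add, sum_add_distrib, mul_left_comm _ (S.ν s),
    mul_left_comm _ (S.cpl s), ← mul_sum, S.vec_mul_vec, mul_comm (S.vec r _), S.sqrt_mul_vec]
  split_ifs with h <;> simp [h]

/-- The coupling is the form of `diag a` on `√ω` and an eigenvector. -/
theorem sqrt_diag_vec (r : Fin d) : ∑ e, √(S.ω e) * (S.a e * S.vec r e) = S.cpl r := by
  simp_rw [S.diag_mul_vec r, mul_add, sum_add_distrib, mul_left_comm _ (S.ν r),
    mul_left_comm _ (S.cpl r), ← mul_sum, S.sqrt_mul_vec, mul_self_sqrt (S.pos _).le, S.sum]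
  simp

/-- The energy of the added direction and the new ones: an arrowhead form. -/
theorem quad (s : ℝ) (ξ : Fin d → ℝ) :
    ∑ e, S.a e * (s * √(S.ω e) + ∑ r, S.vec r e * ξ r) ^ 2
      = s ^ 2 * S.mean + 2 * s * ∑ r, S.cpl r * ξ r + ∑ r, S.ν r * ξ r ^ 2 := by
  have h : ∀ e, S.a e * (s * √(S.ω e) + ∑ r, S.vec r e * ξ r) ^ 2
      = s ^ 2 * (S.ω e * S.a e) + 2 * s * ∑ r, √(S.ω e) * (S.a e * S.vec r e) * ξ r
        + ∑ r, ∑ t, S.vec r e * (S.a e * S.vec t e) * (ξ r * ξ t) := fun e => by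
    have hw := mul_self_sqrt (S.pos e).le
    have hsum : (∑ r, S.vec r e * ξ r) ^ 2 * S.a e
        = ∑ r, ∑ t, S.vec r e * (S.a e * S.vec t e) * (ξ r * ξ t) := by
      rw [sq, sum_mul_sum, sum_mul]
      exact sum_congr rfl fun r _ => by rw [sum_mul]; exact sum_congr rfl fun t _ => by ring
    have hlin : ∑ r, √(S.ω e) * (S.a e * S.vec r e) * ξ r
        = √(S.ω e) * S.a e * ∑ r, S.vec r e * ξ r := by
      rw [mul_sum]; exact sum_congr rfl fun r _ => by ring
    rw [← hsum, hlin]
    linear_combination (S.a e * s ^ 2) * hw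
  simp_rw [h, sum_add_distrib, ← mul_sum]
  rw [← mean.eq_def, sum_comm (γ := Fin (d + 1)), sum_comm (γ := Fin (d + 1))]
  congr 1
  · simp_rw [← sum_mul, S.sqrt_diag_vec]
  · refine sum_congr rfl fun r _ => ?_
    rw [sum_comm]
    simp_rw [← sum_mul, S.vec_diag_vec, ite_mul, zero_mul, sum_ite_eq, mem_univ, if_true, sq]

/-- The basis is an isometry. -/
theorem norm_quad (s : ℝ) (ξ : Fin d → ℝ) :
    ∑ e, (s * √(S.ω e) + ∑ r, S.vec r e * ξ r) ^ 2 = s ^ 2 + ∑ r, ξ r ^ 2 := by
  set u : Fin (d + 1) → ℝ := Fin.cons s ξ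
  have h : ∀ e, s * √(S.ω e) + ∑ r, S.vec r e * ξ r = (S.basis *ᵥ u) e := fun e => by
    simp [mulVec, dotProduct, basis, Fin.sum_univ_succ, u, mul_comm]
  simp_rw [h, sq]
  have h2 : (S.basis *ᵥ u) ⬝ᵥ (S.basis *ᵥ u) = u ⬝ᵥ u := by
    rw [dotProduct_mulVec, vecMul_mulVec, S.basis_orth, vecMul_one]
  simpa [dotProduct, Fin.sum_univ_succ, u] using h2

theorem g_pos {z : ℝ} (hz : S.a (Fin.last d) < z) : 0 < S.g z :=
  sum_pos (fun e _ => div_pos (S.pos e) (by linarith [S.mono.monotone (Fin.le_last e)])) univ_nonempty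

/-- The Schur complement of the new block. -/
theorem schur {z : ℝ} (hz : S.a (Fin.last d) < z) :
    z - S.mean - 1 / S.g z = ∑ r, S.cpl r ^ 2 / (z - S.ν r) := by
  have hza : ∀ e, z - S.a e ≠ 0 := fun e => by
    have := S.mono.monotone (Fin.le_last e); linarith
  have hg := (S.g_pos hz).ne'
  set y : Fin (d + 1) → ℝ := fun e => √(S.ω e) / (z - S.a e)
  have hy : ∀ e, √(S.ω e) * y e = S.ω e / (z - S.a e) := fun e => by
    rw [← mul_div_assoc, mul_self_sqrt (S.pos e).le]
  have hc : ∀ r, ∑ f, S.vec r f * y f = S.cpl r * S.g z / (z - S.ν r) := fun r => by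
    have hzν : z - S.ν r ≠ 0 := (sub_pos.2 ((S.ν_lt_top r).trans hz)).ne'
    rw [eq_div_iff hzν, sum_mul]
    have h : ∀ f, S.vec r f * y f * (z - S.ν r)
        = S.vec r f * √(S.ω f) + S.cpl r * (S.ω f / (z - S.a f)) := fun f => by
      have h1 := hza f; have h2 := S.diag_mul_vec r f
      simp only [y]
      field_simp
      linear_combination (√(S.ω f)) * h2 + S.cpl r * mul_self_sqrt (S.pos f).le
    simp_rw [h, sum_add_distrib, mul_comm (S.vec r _), S.sqrt_mul_vec, ← mul_sum]
    rw [zero_add, g]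
  have e1 : (∑ e, √(S.ω e) * ((z - S.a e) * y e)) = 1 := by
    rw [← S.sum]
    exact sum_congr rfl fun e _ => by
      simp only [y]; rw [mul_div_cancel₀ _ (hza e), mul_self_sqrt (S.pos e).le]
  have e2 : ∀ e, √(S.ω e) * ((z - S.a e) * y e)
      = S.g z * (S.ω e * (z - S.a e))
        + ∑ r, (√(S.ω e) * (z * S.vec r e) - √(S.ω e) * (S.a e * S.vec r e))
            * (S.cpl r * S.g z / (z - S.ν r)) := fun e => by
    conv_lhs => rw [S.expand y e]
    simp_rw [hy, hc, ← g.eq_def]
    rw [mul_add, mul_add, mul_sum, mul_sum]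
    congr 1
    · linear_combination (S.g z * (z - S.a e)) * mul_self_sqrt (S.pos e).le
    · exact sum_congr rfl fun r _ => by ring
  simp_rw [e2, sum_add_distrib] at e1
  rw [sum_comm] at e1
  simp_rw [← sum_mul, sum_sub_distrib, mul_left_comm _ z, ← mul_sum, S.sqrt_mul_vec,
    S.sqrt_diag_vec, mul_sub, sum_sub_distrib, ← sum_mul, S.sum, ← mean.eq_def] at e1
  have e3 : ∀ r, (z * 0 - S.cpl r) * (S.cpl r * S.g z / (z - S.ν r))
      = -(S.g z) * (S.cpl r ^ 2 / (z - S.ν r)) := fun r => by ring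
  simp_rw [e3, ← mul_sum] at e1
  field_simp
  linarith

/-- The determinant identity. -/
theorem det_eq {z : ℝ} (hz : S.a (Fin.last d) < z) :
    (∏ r, (z - S.ν r)) = S.g z * ∏ e, (z - S.a e) := by
  classical
  set D : Matrix (Fin d) (Fin d) ℝ := diagonal fun r => z - S.ν r
  set T : Fin (d + 1) ≃ Unit ⊕ Fin d :=
    (finSuccEquiv d).trans ((Equiv.optionEquivSumPUnit _).trans (Equiv.sumComm _ _))
  have hD : ∀ r, z - S.ν r ≠ 0 := fun r => (sub_pos.2 ((S.ν_lt_top r).trans hz)).ne'
  have hM : (S.basisᵀ * diagonal (fun e => z - S.a e) * S.basis).submatrix T.symm T.symm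
      = fromBlocks (of fun _ _ => z - S.mean) (of fun _ r => -S.cpl r) (of fun r _ => -S.cpl r) D := by
    have hT0 : T.symm (Sum.inl ()) = 0 := by simp [T]
    have hTs : ∀ r, T.symm (Sum.inr r) = r.succ := fun r => by simp [T]
    ext i j
    simp only [submatrix_apply, Matrix.mul_apply, diagonal_apply, mul_ite, mul_zero, sum_ite_eq',
      mem_univ, if_true, transpose_apply, basis, of_apply]
    rcases i with ⟨⟩ | r <;> rcases j with ⟨⟩ | s <;>
      simp only [hT0, hTs, Fin.cases_zero, Fin.cases_succ, fromBlocks_apply₁₁, fromBlocks_apply₁₂,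
        fromBlocks_apply₂₁, fromBlocks_apply₂₂, of_apply, D, diagonal_apply]
    · rw [mean, show z = z * ∑ e, S.ω e by rw [S.sum, mul_one], mul_sum, ← sum_sub_distrib,
        ← mul_sum, S.sum, mul_one]
      exact sum_congr rfl fun e _ => by
        linear_combination (z - S.a e) * mul_self_sqrt (S.pos e).le
    · simp_rw [mul_sub, sub_mul, sum_sub_distrib, mul_comm _ z, mul_assoc z, ← mul_sum,
        S.sqrt_mul_vec, mul_zero, zero_sub, mul_assoc, S.sqrt_diag_vec]
    · simp_rw [mul_sub, sub_mul, sum_sub_distrib, mul_comm _ z, mul_assoc z, ← mul_sum,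
        mul_comm (S.vec r _), S.sqrt_mul_vec, mul_zero, zero_sub]
      rw [← S.sqrt_diag_vec r]
      exact congrArg Neg.neg (sum_congr rfl fun e _ => by ring)
    · simp_rw [mul_sub, sub_mul, sum_sub_distrib, mul_comm _ z, mul_assoc z, ← mul_sum,
        S.vec_mul_vec, mul_assoc, S.vec_diag_vec]
      split_ifs <;> simp
  have h1 := congrArg det hM
  rw [det_submatrix_equiv_self, det_mul, det_mul, det_transpose, mul_right_comm, ← sq] at h1
  have hb : S.basis.det ^ 2 = 1 := by
    have := congrArg det S.basis_orth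
    rwa [det_mul, det_transpose, det_one, ← sq] at this
  let _ : Invertible D := by
    refine invertibleOfIsUnitDet D (isUnit_iff_ne_zero.2 ?_)
    simp [D, det_diagonal, prod_ne_zero_iff, hD]
  rw [hb, one_mul, det_diagonal, det_fromBlocks₂₂] at h1
  have hinv : ⅟ D = diagonal fun r => (z - S.ν r)⁻¹ := invOf_eq_right_inv (by
    simp [D, diagonal_mul_diagonal, hD])
  rw [hinv, det_diagonal, det_unique] at h1
  simp only [Matrix.sub_apply, Matrix.mul_apply, of_apply, diagonal_apply, mul_ite, mul_zero,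
    sum_ite_eq', mem_univ, if_true] at h1
  rw [h1, show (∑ r, -S.cpl r * (z - S.ν r)⁻¹ * -S.cpl r) = z - S.mean - 1 / S.g z by
    rw [S.schur hz]; exact sum_congr rfl fun r _ => by ring]
  have hg := (S.g_pos hz).ne'
  field_simp
  ring

end Secular

end Vale.Agent.P166.Rsb
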