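import Vale.Agent.P166.Rsb.FormulaEng
import Vale.Agent.P166.Rsb.Secular
import Vale.Agent.P157.Cube2.Intf

/-!
# P166: the algebra of the cavity increment

For the secular data of an atomic law the determinant and the Schur complement are expressed by the
spin kernel `v`; the sum of the tilts is the energy functional minus `β` times its derivative, and the
latter is the pairing of the path with the increments of the field kernel.
-/

open Real Finset
open Vale.Agent.P157.Rsb (lev vOf IsPath tail)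

namespace Vale.Agent.P166.Rsb

variable {k : ℕ} {q : ℕ → ℝ}

/-- The increments of a decreasing kernel along a path. -/
noncomputable def kerInc (k : ℕ) (q : ℕ → ℝ) (φ : ℝ → ℝ) (j : ℕ) : ℝ :=
  (φ (vOf k q (j - 1)) - φ (vOf k q j)) / lev k j

/-- `v φ v` summed over the levels is the top kernel plus all increments, minus the pairing. -/
theorem comb_mul (h0 : q 0 = 0) (φ : ℝ → ℝ) :
    comb k q (fun v => v * φ v) = φ (vOf k q k) + ∑ j ∈ Icc 1 k, kerInc k q φ j
      - ∑ j ∈ Icc 1 k, tail k q j * kerInc k q φ j := by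
  have e : ∀ i ∈ range k,
      (vOf k q i * φ (vOf k q i) - vOf k q (i + 1) * φ (vOf k q (i + 1))) / lev k (i + 1) =
      kerInc k q φ (i + 1) - tail k q (i + 1) * kerInc k q φ (i + 1)
        + (φ (vOf k q (i + 1)) * q (i + 1) - φ (vOf k q i) * q i) := fun i hi => by
    have hi := mem_range.1 hi
    have hl := (lev_pos' k i).ne'
    have hk : kerInc k q φ (i + 1) = (φ (vOf k q i) - φ (vOf k q (i + 1))) / lev k (i + 1) := rfl
    have s1 : vOf k q (i + 1) = vOf k q i - lev k (i + 1) * (q (i + 1) - q i) := by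
      rw [vOf_step (q := q) hi]; ring
    have hv := vOf_eq_tail (q := q) hi.le
    rw [hk]
    generalize φ (vOf k q i) = P
    generalize φ (vOf k q (i + 1)) = R
    rw [s1, hv]
    field_simp
    ring
  rw [P157.Rsb.sum_Icc_one, P157.Rsb.sum_Icc_one, comb, sum_congr rfl e, sum_add_distrib,
    sum_sub_distrib, sum_range_sub fun i => φ (vOf k q i) * q i, h0]
  rw [vOf_top]
  ring

namespace Atoms

variable {d : ℕ} (A : Atoms d) {β : ℝ}

/-- The secular data of the law. -/
def secular : Secular d := ⟨A.a, A.w, A.mono, A.w_pos, A.w_sum⟩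

theorem secular_g_zOf {x : ℝ} (hx : 0 < x) :
    A.top < A.zOf x ∧ A.secular.g (A.zOf x) = x := by
  rw [A.zOf_eq hx, ← A.topA_eq]
  exact A.isSpec.zA_spec hx

/-- The Schur complement at the kernel `v` is the R-transform less the mean. -/
theorem schur_zOf {x : ℝ} (hx : 0 < x) :
    ∑ r, A.secular.cpl r ^ 2 / (A.zOf x - A.secular.ν r) = rA A.a A.w x - A.secular.mean := by
  obtain ⟨h1, h2⟩ := A.secular_g_zOf hx
  have h := A.secular.schur (z := A.zOf x) h1
  rw [h2] at h
  rw [rA, if_pos hx, ← A.zOf_eq hx, ← h]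
  ring

/-- The determinant at the kernel `v`. -/
theorem det_zOf {x : ℝ} (hx : 0 < x) :
    ∑ r, log (A.zOf x - A.secular.ν r) = log x + ∑ e, log (A.zOf x - A.a e) := by
  obtain ⟨h1, h2⟩ := A.secular_g_zOf hx
  have hν : ∀ r ∈ (univ : Finset (Fin d)), A.zOf x - A.secular.ν r ≠ 0 := fun r _ =>
    (sub_pos.2 ((A.secular.ν_lt_top r).trans h1)).ne'
  have ha : ∀ e ∈ (univ : Finset (Fin (d + 1))), A.zOf x - A.a e ≠ 0 := fun e _ =>
    (sub_pos.2 (lt_of_le_of_lt (A.mono.monotone (Fin.le_last e)) h1)).ne'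
  rw [← log_prod hν, A.secular.det_eq h1, h2]
  show log (x * ∏ e, (A.zOf x - A.a e)) = _
  rw [log_mul hx.ne' (prod_ne_zero_iff.2 ha), log_prod ha]

/-- The weighted sum of the log tilts at one kernel. -/
theorem sum_tilt {x : ℝ} (hx : 0 < x) :
    ∑ c, A.w c * (∑ r, log (A.zOf x - A.secular.ν r) + log (A.zOf x - A.a c)
        - ∑ e, log (A.zOf x - A.a e))
      = hA A.a A.w x - 2 * gA A.a A.w x := by
  rw [A.det_zOf hx]
  simp only [add_comm (log x), add_assoc, add_sub_cancel_left, mul_add, sum_add_distrib, ← sum_mul,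
    A.w_sum, one_mul]
  rw [A.isSpec.hA_eq hx, gA, if_pos hx, A.zOf_eq hx]
  ring

/-- The increments of the field kernel are nonnegative. -/
theorem kerInc_rA_nonneg (hβ : 0 ≤ β) (hq : IsPath k q) {j : ℕ} (hj : j ∈ Icc 1 k) :
    0 ≤ kerInc k q (fun v => β * rA A.a A.w (β * v)) j := by
  obtain ⟨h1, h2⟩ := mem_Icc.1 hj
  refine div_nonneg (sub_nonneg.2 (mul_le_mul_of_nonneg_left (A.isSpec.rA_mono
    (mul_le_mul_of_nonneg_left ?_ hβ)) hβ)) (by unfold P157.Rsb.lev; positivity)
  have h := vOf_anti hq (i := j - 1) (by omega)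
  rwa [show j - 1 + 1 = j by omega] at h

/-- `β eAt` is half the top field kernel plus the increments, minus the pairing. -/
theorem two_mul_eAt (hβ : 0 < β) (hq : IsPath k q) :
    2 * (β * A.eAt β k q) = β * rA A.a A.w (β * vOf k q k)
      + ∑ j ∈ Icc 1 k, kerInc k q (fun v => β * rA A.a A.w (β * v)) j
      - ∑ j ∈ Icc 1 k, tail k q j * kerInc k q (fun v => β * rA A.a A.w (β * v)) j := by
  have e : ∀ i, hA A.a A.w (β * vOf k q i) = vOf k q i * (β * rA A.a A.w (β * vOf k q i)) :=
    fun i => by rw [A.isSpec.hA_eq_mul_rA (mul_nonneg hβ.le (vOf_nonneg hq i))]; ring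
  rw [← comb_mul hq.1 (fun v => β * rA A.a A.w (β * v)), A.eAt_eq]
  simp only [comb, e]
  field_simp

/-- The tilts of the cavity, summed over the levels and the atoms. -/
theorem comb_tilt (hβ : 0 < β) (hq : IsPath k q) (hq1 : q k < 1) :
    comb k q (fun v => ∑ c, A.w c * (∑ r, log (A.zOf (β * v) - A.secular.ν r)
        + log (A.zOf (β * v) - A.a c) - ∑ e, log (A.zOf (β * v) - A.a e)))
      = 2 * (β * A.eAt β k q) - 2 * eng A.law A.top β k q := by
  have hv : ∀ i, 0 < vOf k q i := fun i =>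
    lt_of_lt_of_le (sub_pos.2 hq1) (le_add_of_nonneg_right (sum_nonneg fun l hl =>
      mul_nonneg (lev_pos' k l).le (sub_nonneg.2 (hq.2.1 l (mem_Ico.1 hl).2))))
  have e : ∀ i, ∑ c, A.w c * (∑ r, log (A.zOf (β * vOf k q i) - A.secular.ν r)
        + log (A.zOf (β * vOf k q i) - A.a c) - ∑ e, log (A.zOf (β * vOf k q i) - A.a e))
      = hA A.a A.w (β * vOf k q i) - 2 * gA A.a A.w (β * vOf k q i) :=
    fun i => A.sum_tilt (mul_pos hβ (hv i))
  have h2 : 2 * (β * A.eAt β k q) = comb k q (fun v => hA A.a A.w (β * v)) := by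
    rw [A.eAt_eq]; field_simp
  rw [h2, A.eng_eq, ← comb_const_mul, ← comb_sub]
  simp only [comb, e]

/-- The one-spin value with its diagonal, plus the tilts, is the functional of the formula. -/
theorem increment_eq (hβ : 0 < β) (hq : IsPath k q) (hq1 : q k < 1) (S : ℝ) :
    S + β * rA A.a A.w (β * vOf k q k) / 2
        - comb k q (fun v => ∑ c, A.w c * (∑ r, log (A.zOf (β * v) - A.secular.ν r)
          + log (A.zOf (β * v) - A.a c) - ∑ e, log (A.zOf (β * v) - A.a e))) / 2
      = S - (∑ j ∈ Icc 1 k, kerInc k q (fun v => β * rA A.a A.w (β * v)) j) / 2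
        + (∑ j ∈ Icc 1 k, tail k q j * kerInc k q (fun v => β * rA A.a A.w (β * v)) j) / 2
        + eng A.law A.top β k q := by
  rw [A.comb_tilt hβ hq hq1, A.two_mul_eAt hβ hq]
  ring

end Atoms

/-- The pairing of tails with increments is the pairing of the path with the cumulative increments. -/
theorem sum_tail_mul (k : ℕ) (q D : ℕ → ℝ) :
    ∑ j ∈ Icc 1 k, tail k q j * D j
      = P157.Rsb.mass k * ∑ l ∈ Icc 1 k, q l * ∑ i ∈ Icc 1 l, D i := by
  simp only [P157.Rsb.tail, mul_assoc, sum_mul, mul_sum]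
  rw [sum_comm' (t' := Icc 1 k) (s' := fun l => Icc 1 l)]
  intro i l
  simp only [mem_Icc]
  omega

/-- The cavity increment: one spin in the cumulative field `r` with its diagonal, and the tilts. -/
theorem increment_spinObj {d : ℕ} (A : Atoms d) {β : ℝ} (hβ : 0 < β) (hq : IsPath k q) (hq1 : q k < 1)
    (r : ℕ → ℝ)
    (hr : ∀ l ≤ k, r l = ∑ j ∈ Icc 1 l, kerInc k q (fun v => β * rA A.a A.w (β * v)) j) :
    P157.Cube2.spinG k r + r k / 2 + β * rA A.a A.w (β * vOf k q k) / 2
        - comb k q (fun v => ∑ c, A.w c * (∑ r, log (A.zOf (β * v) - A.secular.ν r)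
          + log (A.zOf (β * v) - A.a c) - ∑ e, log (A.zOf (β * v) - A.a e))) / 2
      = P157.Cube2.spinObj k q r + eng A.law A.top β k q := by
  have h := A.increment_eq hβ hq hq1 (P157.Cube2.spinG k r + r k / 2)
  have hp : ∑ j ∈ Icc 1 k, tail k q j * kerInc k q (fun v => β * rA A.a A.w (β * v)) j
      = P157.Rsb.mass k * ∑ l ∈ Icc 1 k, q l * r l := by
    rw [sum_tail_mul]
    exact congrArg _ (sum_congr rfl fun l hl => by rw [hr l (mem_Icc.1 hl).2])
  rw [hp, ← hr k le_rfl] at h
  rw [h, P157.Cube2.spinObj]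
  ring

end Vale.Agent.P166.Rsb
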