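import Vale.Agent.P166.Rsb.HaarGroup

/-!
# P166: variance of a function of a Haar rotation

The variance is at most the sum over the columns of the squared change under a random reflection
of that column, and the direction of such a reflection has the moments of a uniform one.
-/

open MeasureTheory Matrix Real

namespace Vale.Agent.P166.Rsb

variable {N : ℕ}

theorem sq_integral_le {α : Type*} [MeasurableSpace α] {μ : Measure α} [IsProbabilityMeasure μ]
    {f : α → ℝ} (hf : Measurable f) {C : ℝ} (hC : ∀ x, |f x| ≤ C) (a : ℝ) :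
    ∫ x, f x ^ 2 ∂μ - (∫ x, f x ∂μ) ^ 2 ≤ ∫ x, (f x - a) ^ 2 ∂μ ∧
      0 ≤ ∫ x, f x ^ 2 ∂μ - (∫ x, f x ∂μ) ^ 2 := by
  have i1 := integrable_of_abs_le (μ := μ) hf hC
  have i2 : Integrable (fun x => f x ^ 2) μ := integrable_of_abs_le (hf.pow_const 2) (C := C ^ 2) fun x => by
    rw [abs_pow]; exact pow_le_pow_left₀ (abs_nonneg _) (hC x) 2
  have key : ∀ b, ∫ x, (f x - b) ^ 2 ∂μ = ∫ x, f x ^ 2 ∂μ - 2 * b * ∫ x, f x ∂μ + b ^ 2 := fun b => by
    have e : ∀ x, (f x - b) ^ 2 = f x ^ 2 - 2 * b * f x + b ^ 2 := fun x => by ring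
    simp only [e]
    have i3 : Integrable (fun x => f x ^ 2 - 2 * b * f x) μ := i2.sub (i1.const_mul _)
    rw [integral_add i3 (integrable_const _), integral_sub i2 (i1.const_mul _), integral_const_mul]
    simp
  have h0 : 0 ≤ ∫ x, (f x - ∫ x, f x ∂μ) ^ 2 ∂μ := integral_nonneg fun x => sq_nonneg _
  rw [key] at h0
  refine ⟨?_, by linarith⟩
  rw [key]
  nlinarith [sq_nonneg (a - ∫ x, f x ∂μ)]

/-- The squared change under a reflection of the column `j`. -/
noncomputable def moveSq (m : Measure (Fin N → Fin N → ℝ)) (F : (Fin N → Fin N → ℝ) → ℝ) (j : Fin N)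
    (A : Fin N → Fin N → ℝ) : ℝ :=
  ∫ U, (F (mul U (refl j A)) - F U) ^ 2 ∂m

theorem refl_mul {j : Fin N} {k : Fin N → Fin N → ℝ} (hk : InK (j.val + 1) k) (A : Fin N → Fin N → ℝ) :
    refl j (mul k A) = mul k (mul (refl j A) (tr k)) := by
  rw [refl, app_mul, hh_conj hk, refl]

theorem measurable_moveSq (m : Measure (Fin N → Fin N → ℝ)) [SFinite m] {F : (Fin N → Fin N → ℝ) → ℝ}
    (hF : Measurable F) (j : Fin N) : Measurable (moveSq m F j) := by
  have h : Measurable fun p : (Fin N → Fin N → ℝ) × (Fin N → Fin N → ℝ) =>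
      (F (mul p.2 (refl j p.1)) - F p.2) ^ 2 :=
    ((hF.comp (measurable_mul₂.comp (measurable_snd.prodMk ((measurable_refl j).comp measurable_fst)))).sub
      (hF.comp measurable_snd)).pow_const 2
  exact (h.stronglyMeasurable.integral_prod_right' (ν := m)).measurable

/-- The variance is at most the sum of the squared changes under random reflections of the columns. -/
theorem var_le {m : Measure (Fin N → Fin N → ℝ)} (hm : IsHaarOrth m) {F : (Fin N → Fin N → ℝ) → ℝ}
    (hF : Measurable F) {C : ℝ} (hC : ∀ U, |F U| ≤ C) :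
    ∫ U, (F U - ∫ V, F V ∂m) ^ 2 ∂m ≤ ∑ j : Fin N, ∫ A, moveSq m F j A ∂stage m j := by
  have hst := isInv_stage hm
  have hm0 : IsInv 0 m := isInv_zero hm
  have := hm.1
  set G : ℕ → (Fin N → Fin N → ℝ) → ℝ := fun j U => ∫ k, F (mul U k) ∂stage m j with hG
  have hGm : ∀ j, j ≤ N → Measurable (G j) := fun j hj => by
    have := (hst j hj).prob
    exact ((hF.comp measurable_mul₂).stronglyMeasurable.integral_prod_right' (ν := stage m j)).measurable
  have hC0 : 0 ≤ C := (abs_nonneg _).trans (hC fun _ _ => 0)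
  have hGC : ∀ j, j ≤ N → ∀ U, |G j U| ≤ C := fun j hj U => by
    have := (hst j hj).prob
    have h := norm_integral_le_of_norm_le_const (μ := stage m j) (f := fun k => F (mul U k))
      (ae_of_all _ fun k => (norm_eq_abs _).trans_le (hC _))
    simpa [hG] using h
  set a : ℕ → ℝ := fun j => ∫ U, G j U ^ 2 ∂m with ha
  have h0 : a 0 = (∫ V, F V ∂m) ^ 2 := by
    have e : ∀ᵐ U ∂m, G 0 U ^ 2 = (∫ V, F V ∂m) ^ 2 := hm.2.1.mono fun U hU => by
      simp only [hG, stage]
      rw [hm0.integral_left (inK_zero.2 hU) hF]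
    simp only [ha]
    rw [integral_congr_ae e]
    simp
  have hN : a N = ∫ U, F U ^ 2 ∂m := by
    refine integral_congr_ae (ae_of_all _ fun U => ?_)
    have := (hst N le_rfl).prob
    have e : ∀ᵐ k ∂stage m N, F (mul U k) = F U := (hst N le_rfl).ae.mono fun k hk => by
      rw [inK_top hk]
      congr 1
      funext i l
      simp [P166.mul]
    simp only [hG]
    rw [integral_congr_ae e]
    simp
  have hvar : ∫ U, (F U - ∫ V, F V ∂m) ^ 2 ∂m = ∑ j : Fin N, (a (j.val + 1) - a j.val) := by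
    rw [Fin.sum_univ_eq_sum_range (fun j => a (j + 1) - a j) N, Finset.sum_range_sub, hN, h0]
    have i2 : Integrable (fun U => F U ^ 2) m := integrable_of_abs_le (hF.pow_const 2) (C := C ^ 2)
      fun U => by rw [abs_pow]; exact pow_le_pow_left₀ (abs_nonneg _) (hC U) 2
    have e : ∀ U, (F U - ∫ V, F V ∂m) ^ 2
        = F U ^ 2 - 2 * (∫ V, F V ∂m) * F U + (∫ V, F V ∂m) ^ 2 := fun U => by ring
    simp only [e]
    have i3 : Integrable (fun U => F U ^ 2 - 2 * (∫ V, F V ∂m) * F U) m :=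
      i2.sub ((integrable_of_abs_le hF hC).const_mul _)
    rw [integral_add i3 (integrable_const _), integral_sub i2 ((integrable_of_abs_le hF hC).const_mul _),
      integral_const_mul]
    simp
    ring
  rw [hvar]
  refine Finset.sum_le_sum fun j _ => ?_
  set μ := stage m j.val
  set ν := stage m (j.val + 1)
  have hμ : IsInv j.val μ := hst _ j.2.le
  have hν : IsInv (j.val + 1) ν := hst _ j.2
  have := hμ.prob
  have := hν.prob
  set g := G (j.val + 1)
  have hgm : Measurable g := hGm _ j.2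
  have hgC : ∀ U, |g U| ≤ C := hGC _ j.2
  have hPg : ∀ U, G j.val U = ∫ A, g (mul U (refl j A)) ∂μ := fun U => by
    simp only [hG, g]
    rw [integral_stage_succ hm j (f := fun k => F (mul U k)) (hF.comp (P166.continuous_mul U).measurable)
      fun k => hC _]
    simp only [mul_assoc_arr]
    rfl
  have hmUA : Measurable fun p : (Fin N → Fin N → ℝ) × (Fin N → Fin N → ℝ) => g (mul p.1 (refl j p.2)) :=
    hgm.comp (measurable_mul₂.comp (measurable_fst.prodMk ((measurable_refl j).comp measurable_snd)))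
  have hsq : ∀ x : ℝ, |x| ≤ C → |x ^ 2| ≤ C ^ 2 := fun x hx => by
    rw [abs_pow]; exact pow_le_pow_left₀ (abs_nonneg _) hx 2
  -- `g` may be turned by a reflection
  have hturn : a (j.val + 1) = ∫ U, ∫ A, g (mul U (refl j A)) ^ 2 ∂μ ∂m := by
    rw [integral_integral_swap (f := fun U A => g (mul U (refl j A)) ^ 2)
      (integrable_of_abs_le (hmUA.pow_const 2) fun p => hsq _ (hgC _))]
    rw [integral_congr_ae (hμ.ae.mono fun A hA => hm0.integral_right (inK_zero.2 (inK_refl hA).1)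
      (f := fun U => g U ^ 2) (hgm.pow_const 2) fun U => hsq _ (hgC U))]
    simp [ha, g]
  have hmd : Measurable fun p : (Fin N → Fin N → ℝ) × (Fin N → Fin N → ℝ) =>
      (g (mul p.1 (refl j p.2)) - g p.1) ^ 2 := (hmUA.sub (hgm.comp measurable_fst)).pow_const 2
  have hdC : ∀ x y : ℝ, |x| ≤ C → |y| ≤ C → |(x - y) ^ 2| ≤ (2 * C) ^ 2 := fun x y hx hy => by
    rw [abs_pow]
    exact pow_le_pow_left₀ (abs_nonneg _) ((abs_sub _ _).trans (by linarith)) 2
  have hstep : a (j.val + 1) - a j.val ≤ ∫ U, ∫ A, (g (mul U (refl j A)) - g U) ^ 2 ∂μ ∂m := by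
    have i1 : Integrable (fun U => ∫ A, g (mul U (refl j A)) ^ 2 ∂μ) m :=
      (integrable_of_abs_le (μ := m.prod μ) (hmUA.pow_const 2) fun p => hsq _ (hgC _)).integral_prod_left
    have i2 : Integrable (fun U => G j.val U ^ 2) m :=
      integrable_of_abs_le ((hGm _ j.2.le).pow_const 2) fun U => hsq _ (hGC _ j.2.le U)
    have i3 : Integrable (fun U => ∫ A, (g (mul U (refl j A)) - g U) ^ 2 ∂μ) m :=
      (integrable_of_abs_le (μ := m.prod μ) hmd fun p => hdC _ _ (hgC _) (hgC _)).integral_prod_left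
    rw [hturn]
    simp only [ha]
    rw [← integral_sub i1 i2]
    refine integral_mono (i1.sub i2) i3 fun U => ?_
    rw [hPg]
    exact (sq_integral_le (hmUA.comp measurable_prodMk_left) (fun A => hgC _) (g U)).1
  refine hstep.trans ?_
  -- the difference is an average over the stabiliser
  set h : (Fin N → Fin N → ℝ) → (Fin N → Fin N → ℝ) → (Fin N → Fin N → ℝ) → ℝ := fun U A k =>
    F (mul U (mul (refl j A) k)) - F (mul U k)
  have hh3 : Measurable fun p : ((Fin N → Fin N → ℝ) × (Fin N → Fin N → ℝ)) × (Fin N → Fin N → ℝ) =>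
      h p.1.1 p.1.2 p.2 := by
    refine (hF.comp (measurable_mul₂.comp ((measurable_fst.comp measurable_fst).prodMk
      (measurable_mul₂.comp (((measurable_refl j).comp (measurable_snd.comp measurable_fst)).prodMk
        measurable_snd))))).sub (hF.comp (measurable_mul₂.comp ((measurable_fst.comp measurable_fst).prodMk
      measurable_snd)))
  have hhC : ∀ U A k, |h U A k| ≤ 2 * C := fun U A k =>
    (abs_sub _ _).trans (by linarith [hC (mul U (mul (refl j A) k)), hC (mul U k)])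
  have hh2C : ∀ U A k, |h U A k ^ 2| ≤ (2 * C) ^ 2 := fun U A k => hdC _ _ (hC _) (hC _)
  have hj : ∀ U A, (g (mul U (refl j A)) - g U) ^ 2 ≤ ∫ k, h U A k ^ 2 ∂ν := fun U A => by
    have e : g (mul U (refl j A)) - g U = ∫ k, h U A k ∂ν := by
      simp only [g, hG, h, mul_assoc_arr]
      rw [integral_sub]
      · exact integrable_of_abs_le (hF.comp ((P166.continuous_mul U).measurable.comp
          (P166.continuous_mul _).measurable)) fun k => hC _
      · exact integrable_of_abs_le (hF.comp (P166.continuous_mul U).measurable) fun k => hC _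
    rw [e]
    have := (sq_integral_le (μ := ν) (f := h U A) (hh3.comp (f := fun k => ((U, A), k)) (by fun_prop))
      (hhC U A) 0).2
    linarith
  have iq : Integrable (fun p : (Fin N → Fin N → ℝ) × (Fin N → Fin N → ℝ) =>
      ∫ k, h p.1 p.2 k ^ 2 ∂ν) (m.prod μ) :=
    (integrable_of_abs_le (μ := (m.prod μ).prod ν) (hh3.pow_const 2)
      fun p => hh2C _ _ _).integral_prod_left
  calc ∫ U, ∫ A, (g (mul U (refl j A)) - g U) ^ 2 ∂μ ∂m
      = ∫ p, (g (mul p.1 (refl j p.2)) - g p.1) ^ 2 ∂m.prod μ :=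
        (integral_prod _ (integrable_of_abs_le hmd fun p => hdC _ _ (hgC _) (hgC _))).symm
    _ ≤ ∫ p, ∫ k, h p.1 p.2 k ^ 2 ∂ν ∂m.prod μ :=
        integral_mono (integrable_of_abs_le hmd fun p => hdC _ _ (hgC _) (hgC _)) iq fun p => hj _ _
    _ = ∫ k, ∫ p, h p.1 p.2 k ^ 2 ∂m.prod μ ∂ν :=
        integral_integral_swap (f := fun (p : (Fin N → Fin N → ℝ) × (Fin N → Fin N → ℝ)) k => h p.1 p.2 k ^ 2)
          (integrable_of_abs_le (hh3.pow_const 2) fun p => hh2C _ _ _)
    _ = ∫ _k, ∫ A, moveSq m F j A ∂μ ∂ν := by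
        refine integral_congr_ae (hν.ae.mono fun k hk => ?_)
        dsimp only
        have hik : Integrable (fun p : (Fin N → Fin N → ℝ) × (Fin N → Fin N → ℝ) => h p.1 p.2 k ^ 2)
            (m.prod μ) :=
          integrable_of_abs_le ((hh3.comp (f := fun p : (Fin N → Fin N → ℝ) × (Fin N → Fin N → ℝ) => (p, k))
            (by fun_prop)).pow_const 2) fun p => hh2C _ _ _
        rw [integral_prod_symm _ hik]
        have e : ∀ A, InK j.val A → ∫ U, h U A k ^ 2 ∂m = moveSq m F j (mul (tr k) A) := fun A hA => by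
          have hA' : InK 0 (refl j (mul (tr k) A)) := inK_zero.2
            (inK_refl ((hk.tr.mono (Nat.le_succ _)).mul hA)).1
          have e1 : ∀ U, h U A k = F (mul (mul U k) (refl j (mul (tr k) A))) - F (mul U k) := fun U => by
            simp only [h]
            rw [refl_mul hk.tr, tr_tr, mul_assoc_arr, mul_tr_self hk.1]
          simp only [e1]
          exact hm0.integral_right (inK_zero.2 hk.1)
            (f := fun V => (F (mul V (refl j (mul (tr k) A))) - F V) ^ 2)
            (((hF.comp (continuous_mul_right _).measurable).sub hF).pow_const 2) fun V => hdC _ _ (hC _) (hC _)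
        rw [integral_congr_ae (hμ.ae.mono e)]
        exact hμ.integral_left (hk.tr.mono (Nat.le_succ _)) (measurable_moveSq m hF j)
    _ = _ := by simp [μ]

/-- The direction of the reflection `hh j ξ` away from `e_j`. -/
noncomputable def qdir (j : Fin N) (ξ : Fin N → ℝ) : Fin N → ℝ := (√(1 - ξ j ^ 2))⁻¹ • (ξ - ξ j • bas j)

theorem perp_sq {j : Fin N} {ξ : Fin N → ℝ} (hξ : ξ ⬝ᵥ ξ = 1) :
    (ξ - ξ j • bas j) ⬝ᵥ (ξ - ξ j • bas j) = 1 - ξ j ^ 2 := by
  have h1 : bas j ⬝ᵥ ξ = ξ j := by rw [dotProduct_comm, dot_bas]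
  have h2 : bas j ⬝ᵥ bas j = 1 := by rw [dot_bas]; simp [bas]
  simp only [sub_dotProduct, dotProduct_sub, smul_dotProduct, dotProduct_smul, dot_bas ξ, h1, h2, hξ,
    smul_eq_mul]
  ring

theorem one_sub_sq_nonneg {j : Fin N} {ξ : Fin N → ℝ} (hξ : ξ ⬝ᵥ ξ = 1) : 0 ≤ 1 - ξ j ^ 2 := by
  rw [← perp_sq hξ]; exact Finset.sum_nonneg fun i _ => mul_self_nonneg _

theorem qdir_norm {j : Fin N} {ξ : Fin N → ℝ} (hξ : ξ ⬝ᵥ ξ = 1) : qdir j ξ ⬝ᵥ qdir j ξ ≤ 1 := by
  simp only [qdir, smul_dotProduct, dotProduct_smul, perp_sq hξ, smul_eq_mul]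
  rw [← mul_assoc, ← mul_inv, mul_self_sqrt (one_sub_sq_nonneg hξ)]
  rcases eq_or_ne (1 - ξ j ^ 2) 0 with h | h
  · simp [h]
  · rw [inv_mul_cancel₀ h]

theorem qdir_zero {j : Fin N} {ξ : Fin N → ℝ} (h : ∀ i : Fin N, i < j → ξ i = 0) {i : Fin N} (hi : i ≤ j) :
    qdir j ξ i = 0 := by
  rcases eq_or_lt_of_le hi with e | e
  · subst e; simp [qdir, bas]
  · simp [qdir, bas, e.ne, h i e]

theorem perp_eq {j : Fin N} {ξ : Fin N → ℝ} (hξ : ξ ⬝ᵥ ξ = 1) :
    √(1 - ξ j ^ 2) • qdir j ξ = ξ - ξ j • bas j := by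
  rcases eq_or_ne (√(1 - ξ j ^ 2)) 0 with h | h
  · have h0 : 1 - ξ j ^ 2 = 0 := (sqrt_eq_zero (one_sub_sq_nonneg hξ)).1 h
    rw [h, zero_smul]
    exact (dotProduct_self_eq_zero.1 (by rw [perp_sq hξ, h0])).symm
  · rw [qdir, smul_inv_smul₀ h]

theorem qdir_app {j : Fin N} {k : Fin N → Fin N → ℝ} (hk : InK (j.val + 1) k) (ξ : Fin N → ℝ) :
    qdir j (app k ξ) = app k (qdir j ξ) := by
  have hej : app k (bas j) = bas j := hk.2 j (Nat.lt_succ_self _)
  have hc : app k ξ j = ξ j := by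
    rw [← dot_bas (app k ξ) j, ← dot_bas ξ j]
    conv_lhs => rw [← hej]
    exact app_dot hk.1 _ _
  rw [qdir, qdir, hc]
  simp only [app, mulVec_smul, mulVec_sub]
  simp only [← app.eq_def, hej]

/-- The displacement by a reflection, in the plane of `e_j` and the direction. -/
theorem hh_move {j : Fin N} {ξ : Fin N → ℝ} (hξ : ξ ⬝ᵥ ξ = 1) (x : Fin N → ℝ) :
    ∃ α γ : ℝ, app (hh j ξ) x - x = α • bas j + γ • qdir j ξ ∧
      |α| ≤ 2 * (|x j| + |qdir j ξ ⬝ᵥ x|) ∧ |γ| ≤ 2 * (|x j| + |qdir j ξ ⬝ᵥ x|) := by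
  set q := qdir j ξ with hq
  set c := ξ j with hc
  set s := √(1 - c ^ 2) with hs
  have h0 : 0 ≤ 1 - c ^ 2 := one_sub_sq_nonneg hξ
  have hs2 : s ^ 2 = 1 - c ^ 2 := sq_sqrt h0
  have hs1 : |s| ≤ 1 := by
    rw [abs_of_nonneg (sqrt_nonneg _)]
    exact sqrt_le_one.2 (by nlinarith [sq_nonneg c])
  have hc1 : |c| ≤ 1 := (sq_le_one_iff_abs_le_one _).1 (by linarith)
  have hv : dv j ξ = (1 - c) • bas j - s • q := by
    rw [hq, hs, hc, perp_eq hξ, dv, sub_smul, one_smul]
    abel
  refine ⟨-((1 - c) * x j - s * (q ⬝ᵥ x)), s * x j - (1 + c) * (q ⬝ᵥ x), ?_, ?_, ?_⟩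
  · have hd : dv j ξ ⬝ᵥ x = (1 - c) * x j - s * (q ⬝ᵥ x) := by
      rw [hv, sub_dotProduct, smul_dotProduct, smul_dotProduct, dotProduct_comm (bas j), dot_bas,
        smul_eq_mul, smul_eq_mul]
    rw [app_hh, hd, ← hc, sub_sub_cancel_left, hv]
    rcases eq_or_ne (1 - c) 0 with hD | hD
    · have hs0 : s = 0 := by rw [hs, show 1 - c ^ 2 = (1 - c) * (1 + c) by ring, hD, zero_mul, sqrt_zero]
      have hq0 : q = 0 := by rw [hq, qdir, ← hc, ← hs, hs0, _root_.inv_zero, zero_smul]
      simp [hD, hs0, hq0]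
    · funext i
      simp only [Pi.neg_apply, Pi.smul_apply, Pi.sub_apply, Pi.add_apply, smul_eq_mul]
      field_simp
      linear_combination (-(q ⬝ᵥ x) * q i) * hs2
  · rw [abs_neg]
    refine (abs_sub _ _).trans ?_
    rw [abs_mul, abs_mul]
    have : |1 - c| ≤ 2 := by rw [abs_le] at hc1 ⊢; constructor <;> linarith [hc1.1, hc1.2]
    nlinarith [abs_nonneg (x j), abs_nonneg (q ⬝ᵥ x), mul_le_mul_of_nonneg_right this (abs_nonneg (x j)),
      mul_le_mul_of_nonneg_right hs1 (abs_nonneg (q ⬝ᵥ x))]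
  · refine (abs_sub _ _).trans ?_
    rw [abs_mul, abs_mul]
    have : |1 + c| ≤ 2 := by rw [abs_le] at hc1 ⊢; constructor <;> linarith [hc1.1, hc1.2]
    nlinarith [abs_nonneg (x j), abs_nonneg (q ⬝ᵥ x), mul_le_mul_of_nonneg_right this (abs_nonneg (q ⬝ᵥ x)),
      mul_le_mul_of_nonneg_right hs1 (abs_nonneg (x j))]

/-- The direction of the column `j`. -/
noncomputable def qcol (j : Fin N) (A : Fin N → Fin N → ℝ) : Fin N → ℝ := qdir j (app A (bas j))

theorem measurable_qcol (j : Fin N) : Measurable (qcol j) := by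
  refine measurable_pi_lambda _ fun i => ?_
  simp only [qcol, qdir, Pi.smul_apply, Pi.sub_apply, smul_eq_mul, app_bas]
  fun_prop

/-- The indices after `j`. -/
noncomputable def after (j : Fin N) : Finset (Fin N) := Finset.univ.filter fun i => j < i

theorem qcol_dot {j : Fin N} {A : Fin N → Fin N → ℝ} (hA : InK j.val A) (y : Fin N → ℝ) :
    qcol j A ⬝ᵥ y = ∑ i ∈ after j, qcol j A i * y i := by
  rw [after, Finset.sum_filter]
  refine Finset.sum_congr rfl fun i _ => ?_
  by_cases hi : j < i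
  · rw [if_pos hi]
  · rw [if_neg hi, qcol, qdir_zero (fun a ha => hA.col_zero le_rfl ha) (not_lt.1 hi), zero_mul]

theorem qcol_mem (j : Fin N) {A : Fin N → Fin N → ℝ} (hA : InK j.val A) :
    qcol j A ⬝ᵥ qcol j A ≤ 1 := qdir_norm (col_unit hA.1 j)

theorem integrable_qcol {j : Fin N} {μ : Measure (Fin N → Fin N → ℝ)} [IsProbabilityMeasure μ]
    (hμ : ∀ᵐ A ∂μ, InK j.val A) (y : Fin N → ℝ) (n : ℕ) :
    Integrable (fun A => (qcol j A ⬝ᵥ y) ^ n) μ := by
  have hm : Measurable fun A => qcol j A ⬝ᵥ y := by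
    simp only [dotProduct]
    exact Finset.measurable_sum _ fun i _ =>
      ((measurable_pi_apply i).comp (measurable_qcol j)).mul_const _
  refine Integrable.of_bound (hm.pow_const n).aestronglyMeasurable ((∑ i, |y i|) ^ n)
    (hμ.mono fun A hA => ?_)
  rw [norm_pow, norm_eq_abs]
  refine pow_le_pow_left₀ (abs_nonneg _) ((Finset.abs_sum_le_sum_abs _ _).trans
    (Finset.sum_le_sum fun i _ => ?_)) n
  rw [abs_mul]
  refine mul_le_of_le_one_left (abs_nonneg _) ((sq_le_one_iff_abs_le_one _).1 ?_)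
  rw [sq]
  exact le_trans (Finset.single_le_sum (f := fun l => qcol j A l * qcol j A l)
    (fun l _ => mul_self_nonneg _) (Finset.mem_univ i)) (qcol_mem j hA)

/-- The fourth moment of the direction, along a vector. -/
theorem qcol_fourth {m : Measure (Fin N → Fin N → ℝ)} (hm : IsHaarOrth m) (j : Fin N) (y : Fin N → ℝ) :
    ∫ A, (qcol j A ⬝ᵥ y) ^ 4 ∂stage m j.val
      ≤ 3 * (∑ i ∈ after j, y i ^ 2) ^ 2 / (after j).card ^ 2 := by
  set μ := stage m j.val
  have hμ : IsInv j.val μ := isInv_stage hm _ j.2.le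
  have := hμ.prob
  set S := after j with hS
  set P := ∑ i ∈ S, y i ^ 2 with hP
  have hP0 : 0 ≤ P := Finset.sum_nonneg fun i _ => sq_nonneg _
  rcases eq_or_lt_of_le hP0 with h0 | h0
  · have e : ∀ᵐ A ∂μ, (qcol j A ⬝ᵥ y) ^ 4 = 0 := hμ.ae.mono fun A hA => by
      have hy : ∀ i ∈ S, y i = 0 := fun i hi => by
        have := (Finset.sum_eq_zero_iff_of_nonneg fun i _ => sq_nonneg (y i)).1 h0.symm i hi
        simpa using this
      rw [qcol_dot hA, Finset.sum_eq_zero fun i hi => by rw [hy i hi, mul_zero]]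
      ring
    rw [integral_congr_ae e, integral_zero]
    positivity
  -- all unit directions after `j` have the same fourth moment
  have hdir : ∀ (u : Fin N → ℝ), u ⬝ᵥ u = 1 → (∀ i, i ∉ S → u i = 0) → ∀ b ∈ S,
      ∫ A, (qcol j A ⬝ᵥ u) ^ 4 ∂μ = ∫ A, qcol j A b ^ 4 ∂μ := by
    intro u hu hu0 b hb
    have hjb : j < b := by simpa [hS, after] using hb
    have hk : InK (j.val + 1) (hh b u) := inK_hh hu (Fin.lt_def.1 hjb) fun i hi => hu0 i (by
      simp only [hS, after, Finset.mem_filter, Finset.mem_univ, true_and, Fin.lt_def]; omega)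
    have hm4 : Measurable fun A => qcol j A b ^ 4 :=
      ((measurable_pi_apply b).comp (measurable_qcol j)).pow_const 4
    rw [← hμ.integral_left (hk.mono (Nat.le_succ _)) hm4]
    refine integral_congr_ae (ae_of_all _ fun A => ?_)
    dsimp only
    have h2 : qcol j (mul (hh b u) A) b = qcol j A ⬝ᵥ u := by
      rw [qcol, qcol, app_mul, qdir_app hk]
      generalize qdir j (app A (bas j)) = q
      rw [← dot_bas (app (hh b u) q) b]
      conv_lhs => arg 2; rw [← app_hh_self (j := b) hu]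
      exact app_dot hk.1 _ _
    rw [h2]
  have hne : S.Nonempty := Finset.nonempty_iff_ne_empty.2 fun e => by simp [hP, e] at h0
  obtain ⟨b, hb⟩ := hne
  set M := ∫ A, qcol j A b ^ 4 ∂μ
  have hM : ∀ a ∈ S, ∫ A, qcol j A a ^ 4 ∂μ = M := fun a ha => by
    have h := hdir (bas a) (by rw [dot_bas]; simp [bas]) (fun i hi => by
      have : i ≠ a := fun e => hi (e ▸ ha)
      simp [bas, this]) b hb
    simpa [dot_bas] using h
  have ic : ∀ a c : Fin N, Integrable (fun A => qcol j A a ^ 2 * qcol j A c ^ 2) μ := fun a c => by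
    refine (((integrable_qcol hμ.ae (bas a) 4).add (integrable_qcol hμ.ae (bas c) 4))).mono'
      ((((measurable_pi_apply a).comp (measurable_qcol j)).pow_const 2).mul
        (((measurable_pi_apply c).comp (measurable_qcol j)).pow_const 2)).aestronglyMeasurable
      (ae_of_all _ fun A => ?_)
    rw [norm_eq_abs, abs_of_nonneg (by positivity)]
    simp only [Pi.add_apply, dot_bas]
    nlinarith [sq_nonneg (qcol j A a ^ 2 - qcol j A c ^ 2), sq_nonneg (qcol j A a), sq_nonneg (qcol j A c)]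
  have hX : ∀ a ∈ S, ∀ c ∈ S, M / 3 ≤ ∫ A, qcol j A a ^ 2 * qcol j A c ^ 2 ∂μ := fun a ha c hc => by
    rcases eq_or_ne a c with e | e
    · subst e
      have e2 : ∀ A, qcol j A a ^ 2 * qcol j A a ^ 2 = qcol j A a ^ 4 := fun A => by ring
      simp only [e2, hM a ha]
      have : 0 ≤ M := integral_nonneg fun A => by positivity
      linarith
    · set r := (√2)⁻¹ with hr
      have hr2 : r * r = 1 / 2 := by rw [hr, ← mul_inv, mul_self_sqrt zero_le_two]; norm_num
      have hu : ∀ t : ℝ, t * t = 1 → ∫ A, (r * (qcol j A a + t * qcol j A c)) ^ 4 ∂μ = M := fun t ht => by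
        have h := hdir (r • (bas a + t • bas c)) (by
            simp only [smul_dotProduct, dotProduct_smul, add_dotProduct, dotProduct_add, dot_bas,
              smul_eq_mul]
            simp only [bas, Pi.single_eq_same, Pi.single_eq_of_ne e, Pi.single_eq_of_ne (Ne.symm e)]
            linear_combination (r * r) * ht + 2 * hr2)
          (fun i hi => by
            have h1 : i ≠ a := fun e => hi (e ▸ ha)
            have h2 : i ≠ c := fun e => hi (e ▸ hc)
            simp [bas, h1, h2]) b hb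
        simpa [dot_bas, mul_add] using h
      have e3 : ∀ A, (r * (qcol j A a + 1 * qcol j A c)) ^ 4 + (r * (qcol j A a + (-1) * qcol j A c)) ^ 4
          = (qcol j A a ^ 4 + qcol j A c ^ 4) / 2 + 3 * (qcol j A a ^ 2 * qcol j A c ^ 2) := fun A => by
        linear_combination (r * r + 1 / 2) * (2 * qcol j A a ^ 4 + 12 * qcol j A a ^ 2 * qcol j A c ^ 2
          + 2 * qcol j A c ^ 4) * hr2
      have iu : ∀ t : ℝ, Integrable (fun A => (r * (qcol j A a + t * qcol j A c)) ^ 4) μ := fun t => by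
        refine (integrable_qcol hμ.ae (r • (bas a + t • bas c)) 4).congr (ae_of_all _ fun A => ?_)
        simp [dot_bas, mul_add]
      have i4 : ∀ a, Integrable (fun A => qcol j A a ^ 4) μ := fun a =>
        (integrable_qcol hμ.ae (bas a) 4).congr (ae_of_all _ fun A => by simp [dot_bas])
      have h := integral_congr_ae (μ := μ) (ae_of_all _ e3)
      rw [integral_add (iu 1) (iu (-1)), hu 1 (by norm_num), hu (-1) (by norm_num),
        integral_add (((i4 a).fun_add (i4 c)).div_const 2) ((ic a c).const_mul 3), integral_div,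
        integral_add (i4 a) (i4 c), hM a ha, hM c hc, integral_const_mul] at h
      linarith
  have hsum : (S.card : ℝ) ^ 2 * (M / 3) ≤ 1 := by
    have h1 : ∫ A, (∑ a ∈ S, ∑ c ∈ S, qcol j A a ^ 2 * qcol j A c ^ 2) ∂μ ≤ 1 := by
      refine (integral_mono_ae (integrable_finsetSum _ fun a _ => integrable_finsetSum _ fun c _ => ic a c)
        (integrable_const (1 : ℝ)) (hμ.ae.mono fun A hA => ?_)).trans (le_of_eq (by simp))
      simp only [← Finset.sum_mul_sum]
      have h2 : ∑ a ∈ S, qcol j A a ^ 2 ≤ 1 := by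
        refine (Finset.sum_le_univ_sum_of_nonneg fun a => sq_nonneg _).trans ?_
        simpa [dotProduct, sq] using qcol_mem j hA
      exact mul_le_one₀ h2 (Finset.sum_nonneg fun a _ => sq_nonneg _) h2
    rw [integral_finsetSum _ fun a _ => integrable_finsetSum _ fun c _ => ic a c] at h1
    simp only [fun a => integral_finsetSum S fun c _ => ic a c] at h1
    refine le_trans ?_ h1
    refine le_trans (le_of_eq (b := ∑ _a ∈ S, ∑ _c ∈ S, M / 3) ?_)
      (Finset.sum_le_sum fun a ha => Finset.sum_le_sum fun c hc => hX a ha c hc)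
    simp [sq, mul_assoc]
  -- the vector `y`
  set u : Fin N → ℝ := fun i => if i ∈ S then y i / √P else 0 with hudef
  have hsP : √P * √P = P := mul_self_sqrt hP0
  have hu : u ⬝ᵥ u = 1 := by
    simp only [dotProduct, hudef, mul_ite, ite_mul, mul_zero, zero_mul, ite_self]
    rw [Finset.sum_ite_mem, Finset.univ_inter, Finset.sum_congr rfl fun i hi => if_pos hi]
    simp only [← sq, div_pow, sq_sqrt hP0, ← Finset.sum_div]
    exact div_self h0.ne'
  have e : ∀ᵐ A ∂μ, (qcol j A ⬝ᵥ y) ^ 4 = P ^ 2 * (qcol j A ⬝ᵥ u) ^ 4 := hμ.ae.mono fun A hA => by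
    have e1 : qcol j A ⬝ᵥ u = (qcol j A ⬝ᵥ y) / √P := by
      rw [qcol_dot hA, qcol_dot hA, Finset.sum_div]
      refine Finset.sum_congr rfl fun i hi => ?_
      simp only [hudef]
      rw [if_pos hi, mul_div_assoc]
    rw [e1, div_pow, show √P ^ 4 = P ^ 2 by linear_combination (√P * √P + P) * hsP]
    field_simp
  rw [integral_congr_ae e, integral_const_mul, hdir u hu (fun i hi => if_neg hi) b hb]
  have hr : (0 : ℝ) < (S.card : ℝ) ^ 2 := by
    have : 0 < S.card := Finset.card_pos.2 ⟨b, hb⟩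
    positivity
  rw [le_div_iff₀ hr]
  nlinarith [mul_le_mul_of_nonneg_left hsum (sq_nonneg P)]

theorem card_after (j : Fin N) : (after j).card = N - 1 - j.val := by
  rw [show after j = Finset.Ioi j by ext i; simp [after], Fin.card_Ioi]

/-- The mixed second moments against a vector with small entries. -/
theorem qcol_mixed {m : Measure (Fin N → Fin N → ℝ)} (hm : IsHaarOrth m) (j : Fin N) (y x : Fin N → ℝ)
    (hx : ∀ i, x i ^ 2 ≤ 1) :
    ∫ A, (qcol j A ⬝ᵥ y) ^ 2 * (1 + (qcol j A ⬝ᵥ x) ^ 2) ∂stage m j.val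
        ≤ 5 * (y ⬝ᵥ y) / (after j).card ∧
      ∫ A, (qcol j A ⬝ᵥ x) ^ 4 ∂stage m j.val ≤ 3 := by
  set μ := stage m j.val
  have hμ : IsInv j.val μ := isInv_stage hm _ j.2.le
  have := hμ.prob
  set r : ℝ := ((after j).card : ℝ) with hr
  have hr0 : 0 ≤ r := Nat.cast_nonneg _
  have hx2 : ∑ i ∈ after j, x i ^ 2 ≤ r := by
    refine (Finset.sum_le_sum fun i _ => hx i).trans (le_of_eq ?_)
    simp [hr]
  have h4x : ∫ A, (qcol j A ⬝ᵥ x) ^ 4 ∂μ ≤ 3 := by
    refine (qcol_fourth hm j x).trans ?_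
    rcases eq_or_lt_of_le hr0 with h | h
    · rw [← hr, ← h]; norm_num
    · rw [div_le_iff₀ (by positivity)]
      nlinarith [mul_le_mul hx2 hx2 (Finset.sum_nonneg fun i _ => sq_nonneg (x i)) hr0]
  refine ⟨?_, h4x⟩
  set P := y ⬝ᵥ y with hP
  have hP0 : 0 ≤ P := Finset.sum_nonneg fun i _ => mul_self_nonneg _
  rcases eq_or_lt_of_le hP0 with h | h
  · have : y = 0 := dotProduct_self_eq_zero.1 h.symm
    subst this
    simp [hP]
  rcases eq_or_lt_of_le hr0 with h' | h'
  · have e : ∀ᵐ A ∂μ, (qcol j A ⬝ᵥ y) ^ 2 * (1 + (qcol j A ⬝ᵥ x) ^ 2) = 0 := hμ.ae.mono fun A hA => by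
      have : after j = ∅ := Finset.card_eq_zero.1 (Nat.cast_injective (R := ℝ) (by rw [← hr, ← h', Nat.cast_zero]))
      rw [qcol_dot hA y, this]
      simp
    rw [integral_congr_ae e, integral_zero, ← h', div_zero]
  have hy2 : ∑ i ∈ after j, y i ^ 2 ≤ P := by
    refine (Finset.sum_le_univ_sum_of_nonneg fun i => sq_nonneg _).trans (le_of_eq ?_)
    simp [hP, dotProduct, sq]
  set t := r / P with ht
  have ht0 : 0 < t := div_pos h' h
  have i4 := fun v => integrable_qcol hμ.ae v 4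
  have hpt : ∀ A, (qcol j A ⬝ᵥ y) ^ 2 * (1 + (qcol j A ⬝ᵥ x) ^ 2)
      ≤ t * (qcol j A ⬝ᵥ y) ^ 4 + (1 + (qcol j A ⬝ᵥ x) ^ 4) / (2 * t) := fun A => by
    set a := (qcol j A ⬝ᵥ y) ^ 2
    set b := (qcol j A ⬝ᵥ x) ^ 2
    have e1 : (qcol j A ⬝ᵥ y) ^ 4 = a ^ 2 := by ring
    have e2 : (qcol j A ⬝ᵥ x) ^ 4 = b ^ 2 := by ring
    rw [e1, e2, ← sub_nonneg]
    have e3 : t * a ^ 2 + (1 + b ^ 2) / (2 * t) - a * (1 + b)
        = ((t * a - 1) ^ 2 + (t * a - b) ^ 2) / (2 * t) := by
      field_simp; ring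
    rw [e3]
    positivity
  refine (integral_mono_of_nonneg (ae_of_all _ fun A => by positivity)
    (((i4 y).const_mul t).add (((integrable_const (1 : ℝ)).fun_add (i4 x)).div_const _))
    (ae_of_all _ hpt)).trans ?_
  simp only [Pi.add_apply]
  rw [integral_add ((i4 y).const_mul t) (((integrable_const (1 : ℝ)).fun_add (i4 x)).div_const _),
    integral_const_mul, integral_div, integral_add (integrable_const _) (i4 x), integral_const,
    probReal_univ, one_smul]
  have hy4 : ∫ A, (qcol j A ⬝ᵥ y) ^ 4 ∂μ ≤ 3 * P ^ 2 / r ^ 2 :=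
    (qcol_fourth hm j y).trans (div_le_div_of_nonneg_right (mul_le_mul_of_nonneg_left
      (pow_le_pow_left₀ (Finset.sum_nonneg fun i _ => sq_nonneg _) hy2 2) (by norm_num)) (sq_nonneg _))
  refine (add_le_add (mul_le_mul_of_nonneg_left hy4 ht0.le)
    (div_le_div_of_nonneg_right (add_le_add le_rfl h4x) (by positivity))).trans (le_of_eq ?_)
  rw [ht]
  field_simp
  ring

/-- The inverse sizes of the sets after each index add up to a logarithm. -/
theorem sum_inv_card :
    ∑ j : Fin N, (1 / ((after j).card : ℝ)) ≤ 1 + log N := by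
  simp only [card_after]
  rw [Fin.sum_univ_eq_sum_range (fun j => 1 / ((N - 1 - j : ℕ) : ℝ)) N,
    Finset.sum_range_reflect (fun r => 1 / (r : ℝ)) N]
  refine le_trans ?_ (harmonic_le_one_add_log N)
  rw [harmonic, Rat.cast_sum]
  rcases N with - | n
  · simp
  rw [Finset.sum_range_succ' (fun r => 1 / (r : ℝ)) n, Finset.sum_range_succ _ n]
  simp only [Nat.cast_zero, div_zero, add_zero, one_div]
  push_cast
  refine le_add_of_le_of_nonneg le_rfl ?_
  positivity

end Vale.Agent.P166.Rsb
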