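import Vale.Agent.P157.Rsb.Defs

/-!
# P166: atomic spectral laws and the functionals of the variational formula
-/

open MeasureTheory Real
open Vale.Agent.P157.Rsb (lev vOf)

namespace Vale.Agent.P166.Rsb

/-- An atomic law: increasing values with positive weights of sum one. -/
structure Atoms (d : ℕ) where
  /-- the values -/
  a : Fin (d + 1) → ℝ
  /-- the weights -/
  w : Fin (d + 1) → ℝ
  mono : StrictMono a
  w_pos : ∀ e, 0 < w e
  w_sum : ∑ e, w e = 1

/-- The largest atom. -/
def Atoms.top {d : ℕ} (A : Atoms d) : ℝ := A.a (Fin.last d)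

/-- The law as a measure. -/
noncomputable def Atoms.law {d : ℕ} (A : Atoms d) : Measure ℝ :=
  ∑ e, ENNReal.ofReal (A.w e) • Measure.dirac (A.a e)

/-- The limiting spherical integral `½ inf_{z > b} (z x - 1 - log x - ∫ log (z - t) dμ t)`; zero for `x ≤ 0`. -/
noncomputable def gSph (μ : Measure ℝ) (b x : ℝ) : ℝ :=
  if x ≤ 0 then 0
  else sInf ((fun z => (z * x - 1 - log x - ∫ t, log (z - t) ∂μ) / 2) '' Set.Ioi b)

/-- The energy functional of a step path: `g (v k) + ∑ (g (v (j-1)) - g (v j)) / m j`. -/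
noncomputable def comb (k : ℕ) (q : ℕ → ℝ) (g : ℝ → ℝ) : ℝ :=
  g (vOf k q k) + ∑ i ∈ Finset.range k, (g (vOf k q i) - g (vOf k q (i + 1))) / lev k (i + 1)

/-- The energy part of the variational formula. -/
noncomputable def eng (μ : Measure ℝ) (b β : ℝ) (k : ℕ) (q : ℕ → ℝ) : ℝ :=
  comb k q fun v => gSph μ b (β * v)

/-- The Stieltjes transform of an atomic law. -/
noncomputable def Atoms.stj {d : ℕ} (A : Atoms d) (z : ℝ) : ℝ := ∑ e, A.w e / (z - A.a e)

/-- The inverse of the Stieltjes transform above the top atom. -/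
noncomputable def Atoms.zOf {d : ℕ} (A : Atoms d) (x : ℝ) : ℝ := sSup {z | A.top < z ∧ x ≤ A.stj z}

/-- `x R(x)`; zero for `x ≤ 0`. -/
noncomputable def Atoms.hOf {d : ℕ} (A : Atoms d) (x : ℝ) : ℝ := if x ≤ 0 then 0 else x * A.zOf x - 1

/-- The derivative of the energy functional in the inverse temperature. -/
noncomputable def Atoms.eAt {d : ℕ} (A : Atoms d) (β : ℝ) (k : ℕ) (q : ℕ → ℝ) : ℝ :=
  comb k q (fun v => A.hOf (β * v)) / (2 * β)

end Vale.Agent.P166.Rsb
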