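import Vale.Agent.P157.Cube
import Vale.Agent.P157.Rsb.Intf
import Vale.Agent.P166.Gibbs

/-!
# P166: the perturbed systems

Blocks are given by a map `c` from coordinates to atoms; coordinate `i` has eigenvalue `a (c i)`.
Two channels of cascade fields: amplitudes `σ` on the spins, amplitudes `τ` inside the last block.
Amplitudes act on single spins, so no factor `√N` occurs.
-/

open MeasureTheory ProbabilityTheory Real
open Vale.Agent.P157 (cubeLaw)
open Vale.Agent.P157.Rsb (stdG val cnd pairCnd boxAvg)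

namespace Vale.Agent.P166.Rsb

/-- One level of fields: the spin channel and the channel of the last block. -/
abbrev Fld (N : ℕ) := Fin N ⊕ Fin N

variable {d N k : ℕ}

/-- The mask of the last block. -/
noncomputable def topMask (c : Fin N → Fin (d + 1)) (i : Fin N) : ℝ := if c i = Fin.last d then 1 else 0

/-- The last value raised by `h`. -/
noncomputable def raise (a : Fin (d + 1) → ℝ) (h : ℝ) (e : Fin (d + 1)) : ℝ :=
  a e + if e = Fin.last d then h else 0

/-- The squared length inside the last block. -/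
noncomputable def topSq (c : Fin N → Fin (d + 1)) (U : Fin N → Fin N → ℝ) (s : Fin N → Bool) : ℝ :=
  ∑ i, topMask c i * rotate U s i ^ 2

/-- The Hamiltonian at a fixed rotation. -/
noncomputable def hamU (β : ℝ) (a : Fin (d + 1) → ℝ) (c : Fin N → Fin (d + 1)) (σ τ : ℕ → ℝ)
    (U : Fin N → Fin N → ℝ) (z : Fin k → Fld N → ℝ) (s : Fin N → Bool) : ℝ :=
  β / 2 * ∑ i, a (c i) * rotate U s i ^ 2
    + ∑ l : Fin k, (σ (l + 1) * ∑ i, z l (.inl i) * spin (s i)
        + τ (l + 1) * ∑ i, topMask c i * z l (.inr i) * rotate U s i)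
    - (∑ l : Fin k, σ (l + 1) ^ 2) / 2 * N - (∑ l : Fin k, τ (l + 1) ^ 2) / 2 * topSq c U s

/-- The value at the root at a fixed rotation. -/
noncomputable def rootU (k : ℕ) (β : ℝ) (a : Fin (d + 1) → ℝ) (c : Fin N → Fin (d + 1)) (σ τ : ℕ → ℝ)
    (U : Fin N → Fin N → ℝ) : ℝ :=
  val (stdG (Fld N)) (cubeLaw N) (hamU (k := k) β a c σ τ U) 0 fun _ _ => 0

/-- The mean value at the root, per spin. -/
noncomputable def freeU (m : Measure (Fin N → Fin N → ℝ)) (k : ℕ) (β : ℝ) (a : Fin (d + 1) → ℝ)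
    (c : Fin N → Fin (d + 1)) (σ τ : ℕ → ℝ) : ℝ :=
  (∫ U, rootU k β a c σ τ U ∂m) / N

/-- The mean of an observable of one configuration. -/
noncomputable def gibU (m : Measure (Fin N → Fin N → ℝ)) (k : ℕ) (β : ℝ) (a : Fin (d + 1) → ℝ)
    (c : Fin N → Fin (d + 1)) (σ τ : ℕ → ℝ)
    (φ : (Fin N → Fin N → ℝ) → (Fin N → Bool) → ℝ) : ℝ :=
  ∫ U, cnd (stdG (Fld N)) (cubeLaw N) (hamU (k := k) β a c σ τ U) (fun _ s => φ U s) 0 (fun _ _ => 0) ∂m

/-- The mean of an observable of two configurations branching after level `j`. -/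
noncomputable def pairU (m : Measure (Fin N → Fin N → ℝ)) (k : ℕ) (β : ℝ) (a : Fin (d + 1) → ℝ)
    (c : Fin N → Fin (d + 1)) (σ τ : ℕ → ℝ) (j : ℕ)
    (ψ : (Fin N → Fin N → ℝ) → (Fin N → Bool) → (Fin N → Bool) → ℝ) : ℝ :=
  ∫ U, cnd (stdG (Fld N)) (cubeLaw N) (hamU (k := k) β a c σ τ U) (fun z _ =>
    pairCnd (stdG (Fld N)) (cubeLaw N) (hamU (k := k) β a c σ τ U) (fun _ x _ y => ψ U x y) j z)
      0 (fun _ _ => 0) ∂m

/-- The overlap of two configurations. -/
noncomputable def spinOv (x y : Fin N → Bool) : ℝ := (∑ i, spin (x i) * spin (y i)) / N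

/-- The overlap inside the last block. -/
noncomputable def topOv (c : Fin N → Fin (d + 1)) (U : Fin N → Fin N → ℝ) (x y : Fin N → Bool) : ℝ :=
  (∑ i, topMask c i * rotate U x i * rotate U y i) / N

/-- The path of spin overlaps; level `0` is put equal to zero. -/
noncomputable def qSpin (m : Measure (Fin N → Fin N → ℝ)) (k : ℕ) (β : ℝ) (a : Fin (d + 1) → ℝ)
    (c : Fin N → Fin (d + 1)) (σ τ : ℕ → ℝ) (j : ℕ) : ℝ :=
  if j = 0 then 0 else pairU m k β a c σ τ j fun _ x y => spinOv x y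

/-- The path of overlaps inside the last block; level `0` is put equal to zero. -/
noncomputable def qTop (m : Measure (Fin N → Fin N → ℝ)) (k : ℕ) (β : ℝ) (a : Fin (d + 1) → ℝ)
    (c : Fin N → Fin (d + 1)) (σ τ : ℕ → ℝ) (j : ℕ) : ℝ :=
  if j = 0 then 0 else pairU m k β a c σ τ j fun U x y => topOv c U x y

/-- The mean mass of the last block. -/
noncomputable def pTop (m : Measure (Fin N → Fin N → ℝ)) (k : ℕ) (β : ℝ) (a : Fin (d + 1) → ℝ)
    (c : Fin N → Fin (d + 1)) (σ τ : ℕ → ℝ) : ℝ :=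
  gibU m k β a c σ τ fun U s => topSq c U s / N

/-- The mean energy per spin; the derivative of `freeU` in `β`. -/
noncomputable def enU (m : Measure (Fin N → Fin N → ℝ)) (k : ℕ) (β : ℝ) (a : Fin (d + 1) → ℝ)
    (c : Fin N → Fin (d + 1)) (σ τ : ℕ → ℝ) : ℝ :=
  gibU m k β a c σ τ fun U s => (∑ i, a (c i) * rotate U s i ^ 2) / (2 * N)

/-- How far overlaps and mass inside the last block are from their means. -/
noncomputable def topErr (m : Measure (Fin N → Fin N → ℝ)) (k : ℕ) (β : ℝ) (a : Fin (d + 1) → ℝ)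
    (c : Fin N → Fin (d + 1)) (σ τ : ℕ → ℝ) : ℝ :=
  P157.Rsb.mass k * (∑ j ∈ Finset.Icc 0 k,
      pairU m k β a c σ τ j fun U x y => |topOv c U x y - qTop m k β a c σ τ j|)
    + gibU m k β a c σ τ fun U s => |topSq c U s / N - pTop m k β a c σ τ|

/-- The average over small perturbations: block amplitudes in `[η, η + δ]`, a shift in `[0, δ']`. -/
noncomputable def pertAvg (k : ℕ) (η δ δ' : ℝ) (Ψ : (ℕ → ℝ) → ℝ → ℝ) : ℝ :=
  ⨍ h in Set.Icc 0 δ', boxAvg k (fun _ => η) δ fun τ => Ψ τ h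

end Vale.Agent.P166.Rsb
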