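import Vale.Agent.P157.Cube2.Intf
import Vale.Agent.P166.Rsb.FormulaDefs
import Vale.Agent.P166.Rsb.Sys

/-!
# P166: interfaces of the variational formula

Each `...Stmt` is proved in a module of its own; the assembly takes them as arguments.
-/

open MeasureTheory ProbabilityTheory Real Filter Topology Finset
open Vale.Agent.P157.Rsb (IsPath tail lev)
open Vale.Agent.P157.Cube2 (spinG spinSup cum)

namespace Vale.Agent.P166.Rsb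

/-- The multiplicities follow the weights up to `θ N`. -/
def Fits {d N : ℕ} (A : Atoms d) (c : Fin N → Fin (d + 1)) (θ : ℝ) : Prop :=
  ∀ e, |((univ.filter fun i => c i = e).card : ℝ) - A.w e * N| ≤ θ * N

/-- The mean pressure of a block spectrum. -/
noncomputable def meanP {d N : ℕ} (m : Measure (Fin N → Fin N → ℝ)) (β : ℝ) (a : Fin (d + 1) → ℝ)
    (c : Fin N → Fin (d + 1)) : ℝ :=
  ∫ U, press β (fun i => a (c i)) U ∂m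

/-- Module A: monotonicity of the energy derivative and its integral. -/
def FormulaStmt : Prop :=
  ∀ (d : ℕ) (A : Atoms d),
    (∀ (k : ℕ) (β : ℝ) (q q' : ℕ → ℝ), 0 < β → IsPath k q → IsPath k q' →
      (∀ j ∈ Icc 1 k, tail k q j ≤ tail k q' j) → A.eAt β k q' ≤ A.eAt β k q) ∧
    (∀ B : ℝ, 0 < B → ∃ C : ℝ, 0 ≤ C ∧ ∀ (k : ℕ) (β : ℝ) (q q' : ℕ → ℝ), 0 < β → β ≤ B →
      IsPath k q → IsPath k q' →
      (∀ e : ℝ, 0 ≤ e → (∀ j ∈ Icc 1 k, tail k q j ≤ tail k q' j + e) →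
        A.eAt β k q' ≤ A.eAt β k q + C * e) ∧ |A.eAt β k q| ≤ C) ∧
    (∀ (k : ℕ) (β : ℝ) (q : ℕ → ℝ), 0 < β → IsPath k q →
      HasDerivAt (fun t => eng A.law A.top t k q) (A.eAt β k q) β ∧
        ContinuousAt (fun t => A.eAt t k q) β) ∧
    ∀ (k : ℕ) (q : ℕ → ℝ), IsPath k q →
      eng A.law A.top 0 k q = 0 ∧ ContinuousOn (fun t => eng A.law A.top t k q) (Set.Ici 0)

/-- Module C: regularity of the perturbed systems. -/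
def CalcStmt : Prop :=
  ∀ (d N : ℕ) (a : Fin (d + 1) → ℝ) (c : Fin N → Fin (d + 1)) (m : Measure (Fin N → Fin N → ℝ))
    (k : ℕ), 1 ≤ N → IsHaarOrth m →
    (∀ (β β' h h' : ℝ) (σ σ' τ : ℕ → ℝ),
      freeU m k β (raise a h) c σ τ + (β' - β) * enU m k β (raise a h) c σ τ
          + β' / 2 * (h' - h) * pTop m k β (raise a h) c σ τ
          + ∑ j ∈ Icc 1 k, ((σ' j - σ j) * (-σ j * tail k (qSpin m k β (raise a h) c σ τ) j)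
              - (σ' j - σ j) ^ 2 / 2)
        ≤ freeU m k β' (raise a h') c σ' τ) ∧
    (∀ (β h : ℝ) (σ τ : ℕ → ℝ), IsPath k (qSpin m k β (raise a h) c σ τ) ∧
      IsPath k (qTop m k β (raise a h) c σ τ) ∧ |enU m k β (raise a h) c σ τ| ≤ ∑ e, |raise a h e| ∧
      |freeU m k β (raise a h) c σ τ - freeU m k β (raise a 0) c σ (fun _ => 0)|
        ≤ (∑ j ∈ Icc 1 k, τ j ^ 2) / 2 + |β * h| / 2) ∧
    (∀ σ : ℕ → ℝ, freeU m k 0 a c σ (fun _ => 0) = spinG k (cum σ)) ∧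
    (∀ β : ℝ, freeU m k β a c (fun _ => 0) (fun _ => 0) = meanP m β a c) ∧
    ∀ β : ℝ, Continuous (fun p : (Fin k → ℝ) × (Fin k → ℝ) × ℝ =>
        freeU m k β (raise a p.2.2) c (P157.Rsb.lift p.1) (P157.Rsb.lift p.2.1)) ∧
      Continuous (fun p : (Fin k → ℝ) × (Fin k → ℝ) × ℝ =>
        enU m k β (raise a p.2.2) c (P157.Rsb.lift p.1) (P157.Rsb.lift p.2.1)) ∧
      ∀ j, Continuous (fun p : (Fin k → ℝ) × (Fin k → ℝ) × ℝ =>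
        qSpin m k β (raise a p.2.2) c (P157.Rsb.lift p.1) (P157.Rsb.lift p.2.1) j)

/-- Module B: the value at the root is asymptotically independent of the rotation. -/
def ConcStmt : Prop :=
  ∀ (d : ℕ) (A : Atoms d) (k : ℕ) (B ε : ℝ), 0 < ε → ∃ θ : ℝ, 0 < θ ∧ ∃ N₀ : ℕ, ∀ (N : ℕ), N₀ ≤ N →
    ∀ (c : Fin N → Fin (d + 1)), Fits A c θ → ∀ (m : Measure (Fin N → Fin N → ℝ)), IsHaarOrth m →
      ∀ β h : ℝ, |β| ≤ B → 0 ≤ h → h ≤ B → ∀ σ τ : ℕ → ℝ, (∀ l, |σ l| ≤ B) → (∀ l, |τ l| ≤ B) →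
        ∫ U, |rootU k β (raise A.a h) c σ τ U - N * freeU m k β (raise A.a h) c σ τ| ∂m ≤ ε * N

/-- Module D: overlaps and mass inside the last block are deterministic on average. -/
def SyncStmt : Prop :=
  ∃ C : ℝ, 0 ≤ C ∧ ∀ (d : ℕ) (A : Atoms d) (k : ℕ) (η δ δ' β₀ B ε : ℝ), 0 < η → 0 < δ → 0 < δ' →
    0 < β₀ → 0 < ε → ∃ θ : ℝ, 0 < θ ∧ ∃ N₀ : ℕ, ∀ (N : ℕ), N₀ ≤ N → ∀ (c : Fin N → Fin (d + 1)),
      Fits A c θ → ∀ (m : Measure (Fin N → Fin N → ℝ)), IsHaarOrth m →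
        ∀ β : ℝ, β₀ ≤ β → β ≤ B → ∀ σ : ℕ → ℝ, (∀ l, |σ l| ≤ B) →
          pertAvg k η δ δ' (fun τ h => topErr m k β (raise A.a h) c σ τ) ≤ C / √(k + 1) + ε

/-- Module F: the derivative in the inverse temperature depends on the spin overlaps only, up to an
arbitrarily small perturbation inside the last block. -/
def EnergyStmt : Prop :=
  ∀ (d : ℕ) (A : Atoms d) (β₀ B ε : ℝ), 0 < β₀ → 0 < ε → ∃ K : ℕ, ∀ k : ℕ, K ≤ k → ∀ R ρ : ℝ, 0 < ρ →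
    ∃ θ : ℝ, 0 < θ ∧ ∃ N₀ : ℕ, ∀ N : ℕ, N₀ ≤ N → ∀ (c : Fin N → Fin (d + 1)), Fits A c θ →
      ∀ (m : Measure (Fin N → Fin N → ℝ)), IsHaarOrth m → ∀ β : ℝ, β₀ ≤ β → β ≤ B →
        ∀ σ : ℕ → ℝ, (∀ l, |σ l| ≤ R) → ∃ (τ : ℕ → ℝ) (h : ℝ), (∀ l, |τ l| ≤ ρ) ∧ 0 ≤ h ∧ h ≤ ρ ∧
          |enU m k β (raise A.a h) c σ τ - A.eAt β k (qSpin m k β (raise A.a h) c σ τ)| ≤ ε

/-- Module G: the upper bound, for atomic laws. -/
def UpperStmt : Prop :=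
  ∀ (d : ℕ) (A : Atoms d) (β ε : ℝ), 0 < β → 0 < ε → ∃ K : ℕ, ∀ k : ℕ, K ≤ k →
    ∀ q : ℕ → ℝ, IsPath k q → ∃ θ : ℝ, 0 < θ ∧ ∃ N₀ : ℕ, ∀ N : ℕ, N₀ ≤ N →
      ∀ (c : Fin N → Fin (d + 1)), Fits A c θ → ∀ (m : Measure (Fin N → Fin N → ℝ)), IsHaarOrth m →
        meanP m β A.a c ≤ spinSup k q + eng A.law A.top β k q + ε

/-- Module H: the lower bound, for atomic laws. -/
def LowerStmt : Prop :=
  ∀ (d : ℕ) (A : Atoms d) (β ε : ℝ), 0 < β → 0 < ε → ∃ K : ℕ, ∀ k : ℕ, K ≤ k →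
    ∃ θ : ℝ, 0 < θ ∧ ∃ N₀ : ℕ, ∀ N : ℕ, N₀ ≤ N →
      ∀ (c : Fin N → Fin (d + 1)), Fits A c θ → ∀ (m : Measure (Fin N → Fin N → ℝ)), IsHaarOrth m →
        ∃ q : ℕ → ℝ, IsPath k q ∧ spinSup k q + eng A.law A.top β k q - ε ≤ meanP m β A.a c

/-- Module I: atomic approximation of a law with top edge `b`. -/
def ApproxStmt : Prop :=
  ∀ (μ : Measure ℝ) (b : ℝ), IsProbabilityMeasure μ → IsTopEdge μ b → (∃ lo, μ (Set.Iio lo) = 0) →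
    ∀ ε : ℝ, 0 < ε → ∃ (d : ℕ) (A : Atoms d),
      (∀ (β : ℝ) (k : ℕ) (q : ℕ → ℝ), 0 ≤ β → IsPath k q →
        |eng μ b β k q - eng A.law A.top β k q| ≤ β * ε) ∧
      ∀ lam : ∀ N, Fin N → ℝ, Admissible μ b lam → ∀ θ : ℝ, 0 < θ →
        ∀ᶠ N in atTop, ∃ c : Fin N → Fin (d + 1), Fits A c θ ∧
          ∀ (β : ℝ) (m : Measure (Fin N → Fin N → ℝ)), 0 ≤ β → IsHaarOrth m →
            |∫ U, press β (lam N) U ∂m - meanP m β A.a c| ≤ β * ε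

end Vale.Agent.P166.Rsb
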