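import Vale.Agent.P166.Rsb.CalcBounds
import Vale.Agent.P166.Rsb.Pins
import Vale.Agent.P157.Cube2.Product

/-!
# P166: regularity of the perturbed systems (module C)
-/

open MeasureTheory ProbabilityTheory Real Finset Filter Topology
open Vale.Agent.P157 (cubeLaw)
open Vale.Agent.P157.Rsb (stdG val IsPath tail)
open Vale.Agent.P157.Cube2 (spinG cum)

namespace Vale.Agent.P166.Rsb

variable {d N k : ℕ} {m : Measure (Fin N → Fin N → ℝ)} (β : ℝ) (a : Fin (d + 1) → ℝ)
  (c : Fin N → Fin (d + 1))

theorem sum_fin_succ (n : ℕ) (F : ℕ → ℝ) : ∑ l : Fin n, F ((l : ℕ) + 1) = ∑ j ∈ Icc 1 n, F j := by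
  induction n with
  | zero => simp
  | succ n ih =>
    rw [Fin.sum_univ_castSucc, sum_Icc_succ_top (Nat.le_add_left 1 n)]
    simp only [Fin.val_castSucc, Fin.val_last, ih]

theorem path_nonneg {q : ℕ → ℝ} (h : IsPath k q) {l : ℕ} (hl : l ≤ k) : 0 ≤ q l := by
  induction l with
  | zero => exact h.1.symm.le
  | succ l ih => exact (ih (Nat.le_of_succ_le hl)).trans (h.2.1 l hl)

theorem integral_affine {Ω : Type*} [MeasurableSpace Ω] {ν : Measure Ω} [IsProbabilityMeasure ν]
    {f g : Ω → ℝ} (hf : Integrable f ν) (hg : Integrable g ν) {A B C D E F : ℝ} :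
    ∫ x, (A * (B * f x) - C + (D * (E * g x) - F)) ∂ν
      = A * (B * ∫ x, f x ∂ν) - C + (D * (E * ∫ x, g x ∂ν) - F) := by
  have h : (fun x => A * (B * f x) - C + (D * (E * g x) - F))
      = fun x => A * B * f x + D * E * g x + (-C - F) := funext fun x => by ring
  have h1 : Integrable (fun x => A * B * f x + D * E * g x) ν :=
    (hf.const_mul _).add (hg.const_mul _)
  rw [h, integral_add h1 (integrable_const _), integral_add (hf.const_mul _) (hg.const_mul _),
    integral_const_mul, integral_const_mul, integral_const, probReal_univ, one_smul]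
  ring

theorem gibU_eq (σ τ : ℕ → ℝ) (φ : (Fin N → Fin N → ℝ) → (Fin N → Bool) → ℝ) :
    gibU m k β a c σ τ φ = ∫ U, gibR β a c U k σ τ (φ U) ∂m := rfl

theorem pairU_eq (σ τ : ℕ → ℝ) (j : ℕ)
    (ψ : (Fin N → Fin N → ℝ) → (Fin N → Bool) → (Fin N → Bool) → ℝ) :
    pairU m k β a c σ τ j ψ = ∫ U, pairR β a c U k σ τ j (ψ U) ∂m := rfl

variable (hm : IsHaarOrth m)
include hm

theorem integrable_of_ae {F : (Fin N → Fin N → ℝ) → ℝ} (hF : Measurable F) {C : ℝ}
    (h : ∀ U, IsOrth U → |F U| ≤ C) : Integrable F m := by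
  have := hm.1
  exact Integrable.of_bound hF.aestronglyMeasurable C (hm.2.1.mono fun U hU => h U hU)

theorem rootU_integrable (σ τ : ℕ → ℝ) : Integrable (fun U => rootU k β a c σ τ U) m := by
  refine integrable_of_ae hm (rootU_meas β a c σ τ)
    (C := |β| / 2 * ((∑ e, |a e|) * N)
      + (∑ l : Fin k, (σ ((l : ℕ) + 1) ^ 2 + τ ((l : ℕ) + 1) ^ 2)) / 2 * N) fun U hU => ?_
  have h1 := abs_rootU_amp_le (k := k) β a c hU σ τ
  have h2 := abs_rootU_zero_le (k := k) (β := β) a c hU
  rw [abs_le] at h1 h2 ⊢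
  constructor <;> linarith

theorem abs_freeU_le (σ τ : ℕ → ℝ) (hN : 1 ≤ N) :
    |freeU m k β a c σ τ| ≤ |β| / 2 * (∑ e, |a e|)
      + (∑ l : Fin k, (σ ((l : ℕ) + 1) ^ 2 + τ ((l : ℕ) + 1) ^ 2)) / 2 := by
  have := hm.1
  have hN' : (0 : ℝ) < N := by exact_mod_cast hN
  rw [freeU, abs_div, Nat.abs_cast, div_le_iff₀ hN', ← Real.norm_eq_abs]
  refine (norm_integral_le_of_norm_le_const (hm.2.1.mono fun U hU => ?_)).trans
    (by rw [probReal_univ, mul_one])
  rw [Real.norm_eq_abs]
  have h1 := abs_rootU_amp_le (k := k) β a c hU σ τ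
  have h2 := abs_rootU_zero_le (k := k) (β := β) a c hU
  rw [abs_le] at h1 h2 ⊢
  constructor <;> linarith

theorem qSpin_tail (σ τ : ℕ → ℝ) {j : ℕ} (hj : 1 ≤ j) :
    ∫ U, spinTailR β a c U k σ τ j ∂m = N * tail k (qSpin m k β a c σ τ) j := by
  have hi : ∀ l, Integrable (fun U => pairR β a c U k σ τ l spinOv) m := fun l =>
    integrable_of_ae hm (pairR_meas β a c σ τ l fun _ _ => measurable_const)
      fun U _ => abs_pairR_le β a c U σ τ l abs_spinOv_le
  simp only [spinTailR_pair]
  rw [integral_const_mul, integral_const_mul, integral_finsetSum _ fun l _ => hi l, tail]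
  congr 2
  refine sum_congr rfl fun l hl => ?_
  rw [qSpin, if_neg (by have := (mem_Icc.1 hl).1; omega), pairU_eq]

theorem qTop_tail (σ τ : ℕ → ℝ) {j : ℕ} (hj : 1 ≤ j) :
    ∫ U, topTailR β a c U k σ τ j ∂m = N * tail k (qTop m k β a c σ τ) j := by
  have hi : ∀ l, Integrable (fun U => pairR β a c U k σ τ l (topOv c U)) m := fun l =>
    integrable_of_ae hm (pairR_meas β a c σ τ l fun x y => by unfold topOv rotate; fun_prop)
      fun U hU => abs_pairR_le β a c U σ τ l (abs_topOv_le c U hU)
  have e : ∀ U, topTailR β a c U k σ τ j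
      = N * (P157.Rsb.mass k * ∑ l ∈ Icc j k, pairR β a c U k σ τ l (topOv c U)) := fun U => by
    rw [mul_left_comm, mul_sum (a := (N : ℝ)), topTailR]
    refine congrArg (_ * ·) (sum_congr rfl fun l _ => ?_)
    rw [← pairR_mul]
    refine congrArg (pairR β a c U k σ τ l) (funext₂ fun x y => ?_)
    rcases Nat.eq_zero_or_pos N with rfl | hN
    · simp
    · rw [topOv, mul_div_cancel₀ _ (by positivity : (N : ℝ) ≠ 0)]
  simp only [e]
  rw [integral_const_mul, integral_const_mul, integral_finsetSum _ fun l _ => hi l, tail]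
  congr 2
  refine sum_congr rfl fun l hl => ?_
  rw [qTop, if_neg (by have := (mem_Icc.1 hl).1; omega), pairU_eq]

/-- A joint supporting paraboloid of the pressure. -/
theorem freeU_support (hN : 1 ≤ N) (β' : ℝ) (a' : Fin (d + 1) → ℝ) (σ τ σ' τ' : ℕ → ℝ) :
    freeU m k β a c σ τ
      + gibU m k β a c σ τ (fun U s => (β' / 2 * enV a' c U s - β / 2 * enV a c U s) / N)
      + ∑ j ∈ Icc 1 k, ((σ' j - σ j) * (-σ j * tail k (qSpin m k β a c σ τ) j) - (σ' j - σ j) ^ 2 / 2
          + ((τ' j - τ j) * (-τ j * tail k (qTop m k β a c σ τ) j) - (τ' j - τ j) ^ 2 / 2))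
      ≤ freeU m k β' a' c σ' τ' := by
  have := hm.1
  have hN' : (0 : ℝ) < N := by exact_mod_cast hN
  set φ := fun (U : Fin N → Fin N → ℝ) s => β' / 2 * enV a' c U s - β / 2 * enV a c U s
  have hφm : ∀ s, Measurable fun U => φ U s := fun s =>
    (((continuous_enV a' c s).const_mul _).sub ((continuous_enV a c s).const_mul _)).measurable
  have hgi : Integrable (fun U => gibR β a c U k σ τ (φ U)) m :=
    integrable_of_ae hm (gibR_meas β a c σ τ hφm) (C := |β' / 2| * ((∑ e, |a' e|) * N)
      + |β / 2| * ((∑ e, |a e|) * N)) fun U hU => abs_gibR_le β a c U σ τ fun s =>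
      (abs_sub _ _).trans (add_le_add
        ((abs_mul _ _).le.trans (mul_le_mul_of_nonneg_left (abs_enV_le a' c hU s) (abs_nonneg _)))
        ((abs_mul _ _).le.trans (mul_le_mul_of_nonneg_left (abs_enV_le a c hU s) (abs_nonneg _))))
  have hps : ∀ l, Integrable (fun U => pairR β a c U k σ τ l spinOv) m := fun l =>
    integrable_of_ae hm (pairR_meas β a c σ τ l fun _ _ => measurable_const)
      fun U _ => abs_pairR_le β a c U σ τ l abs_spinOv_le
  have hsi : ∀ j, Integrable (fun U => spinTailR β a c U k σ τ j) m := fun j => by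
    simp only [spinTailR_pair]
    exact ((integrable_finsetSum _ fun l _ => hps l).const_mul _).const_mul _
  have hti : ∀ j, Integrable (fun U => topTailR β a c U k σ τ j) m := fun j => by
    simp only [topTailR]
    refine (integrable_finsetSum _ fun l _ => ?_).const_mul _
    exact integrable_of_ae hm
      (pairR_meas β a c σ τ l (ψ := fun U x y => ∑ i, topMask c i * rotate U x i * rotate U y i)
        fun x y => by unfold rotate; fun_prop) (C := (N : ℝ))
      fun U hU => abs_pairR_le β a c U σ τ l fun x y => by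
        have h := abs_topOv_le c U hU x y
        rw [topOv, abs_div, Nat.abs_cast, div_le_one hN'] at h
        exact h
  set G := fun (U : Fin N → Fin N → ℝ) (l : Fin k) =>
    (σ' ((l : ℕ) + 1) - σ ((l : ℕ) + 1)) *
          (-σ ((l : ℕ) + 1) * spinTailR β a c U k σ τ ((l : ℕ) + 1))
        - (σ' ((l : ℕ) + 1) - σ ((l : ℕ) + 1)) ^ 2 / 2 * N
      + ((τ' ((l : ℕ) + 1) - τ ((l : ℕ) + 1)) *
          (-τ ((l : ℕ) + 1) * topTailR β a c U k σ τ ((l : ℕ) + 1))
        - (τ' ((l : ℕ) + 1) - τ ((l : ℕ) + 1)) ^ 2 / 2 * N)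
  have hGi : ∀ l, Integrable (fun U => G U l) m := fun l =>
    ((((hsi _).const_mul _).const_mul _).sub (integrable_const _)).add
      ((((hti _).const_mul _).const_mul _).sub (integrable_const _))
  have hr := rootU_integrable (k := k) β a c hm σ τ
  have h : ∫ U, (rootU k β a c σ τ U + gibR β a c U k σ τ (φ U) + ∑ l, G U l) ∂m
      ≤ ∫ U, rootU k β' a' c σ' τ' U ∂m :=
    integral_mono_ae ((hr.add hgi).add (integrable_finsetSum _ fun l _ => hGi l))
      (rootU_integrable β' a' c hm σ' τ')
      (hm.2.1.mono fun U hU => rootU_support β a c U hU β' a' σ τ σ' τ')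
  have hrg : Integrable (fun U => rootU k β a c σ τ U + gibR β a c U k σ τ (φ U)) m := hr.add hgi
  rw [integral_add hrg (integrable_finsetSum _ fun l _ => hGi l), integral_add hr hgi,
    integral_finsetSum _ fun l _ => hGi l] at h
  have hG : ∀ l : Fin k, ∫ U, G U l ∂m = N *
      ((σ' ((l : ℕ) + 1) - σ ((l : ℕ) + 1)) * (-σ ((l : ℕ) + 1) *
          tail k (qSpin m k β a c σ τ) ((l : ℕ) + 1))
        - (σ' ((l : ℕ) + 1) - σ ((l : ℕ) + 1)) ^ 2 / 2
      + ((τ' ((l : ℕ) + 1) - τ ((l : ℕ) + 1)) * (-τ ((l : ℕ) + 1) *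
          tail k (qTop m k β a c σ τ) ((l : ℕ) + 1))
        - (τ' ((l : ℕ) + 1) - τ ((l : ℕ) + 1)) ^ 2 / 2)) := fun l => by
    simp only [G]
    rw [integral_affine (hsi _) (hti _), qSpin_tail β a c hm σ τ (by omega : 1 ≤ (l : ℕ) + 1),
      qTop_tail β a c hm σ τ (by omega : 1 ≤ (l : ℕ) + 1)]
    ring
  simp only [hG] at h
  have hg : gibU m k β a c σ τ (fun U s => φ U s / N)
      = (∫ U, gibR β a c U k σ τ (φ U) ∂m) / N := by
    rw [gibU_eq, ← integral_div]
    refine integral_congr_ae (ae_of_all _ fun U => ?_)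
    simp only [div_eq_inv_mul, gibR_mul]
  rw [hg, freeU, freeU]
  rw [← sum_fin_succ k]
  refine le_trans (le_of_eq ?_) (div_le_div_of_nonneg_right h hN'.le)
  rw [← mul_sum, add_div, add_div, mul_div_cancel_left₀ _ hN'.ne']

theorem isPath_qSpin (hN : 1 ≤ N) (σ τ : ℕ → ℝ) : IsPath k (qSpin m k β a c σ τ) := by
  have := hm.1
  have hi : ∀ l, Integrable (fun U => pairR β a c U k σ τ l spinOv) m := fun l =>
    integrable_of_ae hm (pairR_meas β a c σ τ l fun _ _ => measurable_const)
      fun U _ => abs_pairR_le β a c U σ τ l abs_spinOv_le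
  refine ⟨by simp [qSpin], fun j hj => ?_, ?_⟩
  · simp only [qSpin, pairU_eq, if_neg (Nat.succ_ne_zero j)]
    rcases Nat.eq_zero_or_pos j with rfl | h0
    · rw [if_pos rfl]
      refine integral_nonneg fun U => ?_
      simp only [pairR_spinOv]
      exact mul_nonneg (by positivity) (sum_nonneg fun i _ => gq_nonneg _ _ _ _ _)
    · rw [if_neg (by omega : j ≠ 0)]
      refine integral_mono (hi j) (hi (j + 1)) fun U => ?_
      simp only [pairR_spinOv]
      exact mul_le_mul_of_nonneg_left (sum_le_sum fun i _ => gq_mono _ _ _ _ (Nat.le_succ j))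
        (by positivity)
  · simp only [qSpin, pairU_eq]
    split_ifs
    · exact zero_le_one
    · exact (le_abs_self _).trans ((abs_integral_le_integral_abs).trans
        ((integral_mono ((hi k).abs) (integrable_const (1 : ℝ)) fun U =>
          abs_pairR_le β a c U σ τ k abs_spinOv_le).trans (le_of_eq (by simp))))

theorem isPath_qTop (hN : 1 ≤ N) (σ τ : ℕ → ℝ) : IsPath k (qTop m k β a c σ τ) := by
  have := hm.1
  have hi : ∀ l, Integrable (fun U => pairR β a c U k σ τ l (topOv c U)) m := fun l =>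
    integrable_of_ae hm (pairR_meas β a c σ τ l fun x y => by unfold topOv rotate; fun_prop)
      fun U hU => abs_pairR_le β a c U σ τ l (abs_topOv_le c U hU)
  refine ⟨by simp [qTop], fun j hj => ?_, ?_⟩
  · simp only [qTop, pairU_eq, if_neg (Nat.succ_ne_zero j)]
    rcases Nat.eq_zero_or_pos j with rfl | h0
    · rw [if_pos rfl]
      refine integral_nonneg fun U => ?_
      simp only [pairR_topOv]
      exact mul_nonneg (by positivity) (sum_nonneg fun i _ => gq_nonneg _ _ _ _ _)
    · rw [if_neg (by omega : j ≠ 0)]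
      refine integral_mono (hi j) (hi (j + 1)) fun U => ?_
      simp only [pairR_topOv]
      exact mul_le_mul_of_nonneg_left (sum_le_sum fun i _ => gq_mono _ _ _ _ (Nat.le_succ j))
        (by positivity)
  · simp only [qTop, pairU_eq]
    split_ifs
    · exact zero_le_one
    · rw [← Real.norm_of_nonneg (integral_nonneg fun U => by
        simp only [pairR_topOv]
        exact mul_nonneg (by positivity) (sum_nonneg fun i _ => gq_nonneg _ _ _ _ _))]
      refine (norm_integral_le_of_norm_le_const (C := 1) (hm.2.1.mono fun U hU => ?_)).trans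
        (by rw [probReal_univ, mul_one])
      exact abs_pairR_le β a c U σ τ k (abs_topOv_le c U hU)

theorem abs_enU_le (hN : 1 ≤ N) (σ τ : ℕ → ℝ) : |enU m k β a c σ τ| ≤ ∑ e, |a e| := by
  have := hm.1
  rw [enU, gibU_eq, ← Real.norm_eq_abs]
  refine (norm_integral_le_of_norm_le_const (hm.2.1.mono fun U hU => ?_)).trans
    (by rw [probReal_univ, mul_one])
  refine abs_gibR_le β a c U σ τ fun s => ?_
  rw [abs_div, abs_mul, abs_two, Nat.abs_cast,
    div_le_iff₀ (mul_pos two_pos (by exact_mod_cast hN : (0 : ℝ) < N))]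
  have h0 : 0 ≤ (∑ e, |a e|) * N := mul_nonneg (sum_nonneg fun _ _ => abs_nonneg _) (Nat.cast_nonneg N)
  calc |∑ i, a (c i) * rotate U s i ^ 2| ≤ (∑ e, |a e|) * N := abs_enV_le a c hU s
    _ ≤ (∑ e, |a e|) * (2 * N) := by linarith

/-- Small perturbations move the pressure little. -/
theorem abs_freeU_sub_le (hN : 1 ≤ N) (h : ℝ) (σ τ : ℕ → ℝ) :
    |freeU m k β (raise a h) c σ τ - freeU m k β (raise a 0) c σ (fun _ => 0)|
      ≤ (∑ j ∈ Icc 1 k, τ j ^ 2) / 2 + |β * h| / 2 := by
  have := hm.1
  have hN' : (0 : ℝ) < N := by exact_mod_cast hN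
  have h1 := freeU_support (k := k) β (raise a 0) c hm hN β (raise a h) σ (fun _ => 0) σ τ
  have h2 := freeU_support (k := k) β (raise a h) c hm hN β (raise a 0) σ τ σ (fun _ => 0)
  have hb : ∀ (h₁ h₂ : ℝ) (τ : ℕ → ℝ), |gibU m k β (raise a h₁) c σ τ (fun U s =>
      (β / 2 * enV (raise a h₂) c U s - β / 2 * enV (raise a h₁) c U s) / N)|
        ≤ |β * (h₂ - h₁)| / 2 := fun h₁ h₂ τ => by
    rw [gibU_eq, ← Real.norm_eq_abs]
    refine (norm_integral_le_of_norm_le_const (hm.2.1.mono fun U hU => ?_)).trans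
      (by rw [probReal_univ, mul_one])
    refine abs_gibR_le β _ c U σ τ fun s => ?_
    rw [enV_raise, enV_raise, show β / 2 * (enV a c U s + h₂ * topSq c U s)
        - β / 2 * (enV a c U s + h₁ * topSq c U s) = β * (h₂ - h₁) / 2 * topSq c U s by ring,
      abs_div, Nat.abs_cast, div_le_iff₀ hN', abs_mul, abs_div, abs_two,
      abs_of_nonneg (topSq_nonneg c U s)]
    exact mul_le_mul_of_nonneg_left (topSq_le c U hU s) (by positivity)
  have e1 : -((∑ j ∈ Icc 1 k, τ j ^ 2) / 2) ≤ ∑ j ∈ Icc 1 k, ((σ j - σ j) *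
      (-σ j * tail k (qSpin m k β (raise a 0) c σ fun _ => 0) j) - (σ j - σ j) ^ 2 / 2
      + ((τ j - 0) * (-0 * tail k (qTop m k β (raise a 0) c σ fun _ => 0) j) - (τ j - 0) ^ 2 / 2)) := by
    rw [sum_div, ← sum_neg_distrib]
    exact sum_le_sum fun j _ => le_of_eq (by ring)
  have e2 : -((∑ j ∈ Icc 1 k, τ j ^ 2) / 2) ≤ ∑ j ∈ Icc 1 k, ((σ j - σ j) *
      (-σ j * tail k (qSpin m k β (raise a h) c σ τ) j) - (σ j - σ j) ^ 2 / 2
      + ((0 - τ j) * (-τ j * tail k (qTop m k β (raise a h) c σ τ) j) - (0 - τ j) ^ 2 / 2)) := by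
    rw [sum_div, ← sum_neg_distrib]
    refine sum_le_sum fun j hj => ?_
    have ht : 0 ≤ tail k (qTop m k β (raise a h) c σ τ) j := by
      refine mul_nonneg P157.Rsb.mass_pos.le (sum_nonneg fun l hl => ?_)
      exact path_nonneg (isPath_qTop (k := k) β (raise a h) c hm hN σ τ) (mem_Icc.1 hl).2
    nlinarith [mul_nonneg (sq_nonneg (τ j)) ht]
  have b1 := abs_le.1 (hb 0 h fun _ => 0)
  have b2 := abs_le.1 (hb h 0 τ)
  rw [sub_zero] at b1
  rw [zero_sub, mul_neg, abs_neg] at b2
  rw [abs_le]
  constructor <;> linarith [b1.1, b2.1]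

omit hm in
/-- The system without fields is the pressure. -/
theorem freeU_zero :
    freeU m k β a c (fun _ => 0) (fun _ => 0) = meanP m β a c := by
  rw [freeU, meanP, ← integral_div]
  refine integral_congr_ae (ae_of_all _ fun U => ?_)
  simp only [rootU_zero, press, enV]

/-- At infinite temperature the spins are independent. -/
theorem freeU_beta_zero (hN : 1 ≤ N) (σ : ℕ → ℝ) :
    freeU m k 0 a c σ (fun _ => 0) = spinG k (cum σ) := by
  have := hm.1
  have hN' : (0 : ℝ) < N := by exact_mod_cast hN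
  have hlaw : P157.Cube2.SpinLaw (n := N) k (fun l (y : Fld N → ℝ) i => σ l * y (.inl i)) σ (cum σ) := by
    intro l hl _
    refine ⟨P157.Cube2.cum_step σ hl, fun F hF => ?_⟩
    have h1 := measurePreserving_sumPiEquivProdPi (fun _ : Fld N => gaussianReal 0 1)
    have h2 : MeasurePreserving (fun y : Fld N → ℝ => fun i => y (.inl i))
        (stdG (Fld N)) (stdG (Fin N)) :=
      (measurePreserving_fst (μ := Measure.pi fun _ : Fin N => gaussianReal 0 1)
        (ν := Measure.pi fun _ : Fin N => gaussianReal 0 1)).comp h1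
    have hm' : Measurable fun w : Fin N → ℝ => F fun i => σ l * w i := hF.comp (by fun_prop)
    rw [← h2.map_eq, integral_map h2.measurable.aemeasurable hm'.aestronglyMeasurable]
  have hU : ∀ U, rootU k 0 a c σ (fun _ => 0) U = N * spinG k (cum σ) := fun U => by
    have hH : hamU (k := k) 0 a c σ (fun _ => 0) U = P157.Cube2.spinsH
        (fun l (y : Fld N → ℝ) i => σ l * y (.inl i)) (-((N : ℝ) / 2 * cum σ k)) := by
      funext z s
      simp only [hamU, P157.Cube2.spinsH, zero_div, zero_mul, zero_add, add_zero, sub_zero,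
        sum_const_zero, zero_pow two_ne_zero, P157.Cube2.sum_fin_sq, mul_sum]
      rw [sum_comm, sub_eq_add_neg]
      congr 1
      · exact sum_congr rfl fun i _ => sum_congr rfl fun l _ => by
          simp only [P157.Cube2.sgn, spin]; ring
      · ring
    rw [rootU, hH, (P157.Cube2.spins_val hlaw (Nat.zero_le k) _).1]
    simp only [P157.Cube2.accV_zero, sum_const, card_univ, Fintype.card_fin, nsmul_eq_mul,
      P157.Cube2.spinG_shift]
    ring
  simp only [freeU, hU, integral_const, probReal_univ, one_smul]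
  field_simp

/-- Continuity in the amplitudes and the shift. -/
theorem freeU_continuous (hN : 1 ≤ N) :
    Continuous (fun p : Par k =>
      freeU m k β (raise a p.2.2) c (P157.Rsb.lift p.1) (P157.Rsb.lift p.2.1)) ∧
    Continuous (fun p : Par k =>
      enU m k β (raise a p.2.2) c (P157.Rsb.lift p.1) (P157.Rsb.lift p.2.1)) ∧
    ∀ j, Continuous fun p : Par k =>
      qSpin m k β (raise a p.2.2) c (P157.Rsb.lift p.1) (P157.Rsb.lift p.2.1) j := by
  have := hm.1
  have hc := fun U => root_continuous (k := k) β a c U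
  have hS : Continuous fun p : Par k => ∑ e, |raise a p.2.2 e| := by
    refine continuous_finsetSum _ fun e _ => Continuous.abs ?_
    unfold raise
    split_ifs <;> fun_prop
  have hbd : ∀ (g : Par k → ℝ), Continuous g → ∀ p₀ : Par k,
      ∀ᶠ p in 𝓝 p₀, g p ≤ g p₀ + 1 := fun g hg p₀ =>
    (hg.tendsto p₀).eventually_le_const (lt_add_one _)
  refine ⟨?_, ?_, fun j => ?_⟩
  · refine Continuous.div_const ?_ _
    refine continuous_iff_continuousAt.2 fun p₀ => ?_
    set g : Par k → ℝ := fun p => |β| / 2 * ((∑ e, |raise a p.2.2 e|) * N)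
      + (∑ l : Fin k, (p.1 l ^ 2 + p.2.1 l ^ 2)) / 2 * N
    have hg : Continuous g := by
      simp only [g]
      fun_prop
    refine continuousAt_of_dominated (bound := fun _ => g p₀ + 1)
      (Eventually.of_forall fun p => (rootU_meas β _ c _ _).aestronglyMeasurable) ?_
      (integrable_const _) (ae_of_all _ fun U => (hc U).1.continuousAt)
    filter_upwards [hbd g hg p₀] with p hp
    refine hm.2.1.mono fun U hU => (Real.norm_eq_abs _).trans_le (le_trans ?_ hp)
    have h1 := abs_rootU_amp_le (k := k) β (raise a p.2.2) c hU (P157.Rsb.lift p.1)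
      (P157.Rsb.lift p.2.1)
    have h2 := abs_rootU_zero_le (k := k) (β := β) (raise a p.2.2) c hU
    simp only [P157.Rsb.lift_succ] at h1
    rw [abs_le] at h1 h2 ⊢
    simp only [g]
    constructor <;> linarith
  · unfold enU
    simp only [gibU_eq]
    refine continuous_iff_continuousAt.2 fun p₀ => ?_
    refine continuousAt_of_dominated (bound := fun _ => (∑ e, |raise a p₀.2.2 e|) + 1)
      (Eventually.of_forall fun p => (gibR_meas β _ c _ _ fun s => by
        unfold rotate; fun_prop).aestronglyMeasurable) ?_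
      (integrable_const _) (ae_of_all _ fun U => ?_)
    · filter_upwards [hbd _ hS p₀] with p hp
      refine hm.2.1.mono fun U hU => abs_gibR_le β _ c U _ _ fun s => le_trans ?_ hp
      rw [abs_div, abs_mul, abs_two, Nat.abs_cast,
        div_le_iff₀ (mul_pos two_pos (by exact_mod_cast hN : (0 : ℝ) < N))]
      have h0 : 0 ≤ (∑ e, |raise a p.2.2 e|) * N :=
        mul_nonneg (sum_nonneg fun _ _ => abs_nonneg _) (Nat.cast_nonneg N)
      calc |∑ i, raise a p.2.2 (c i) * rotate U s i ^ 2| ≤ (∑ e, |raise a p.2.2 e|) * N :=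
            abs_enV_le (raise a p.2.2) c hU s
        _ ≤ (∑ e, |raise a p.2.2 e|) * (2 * N) := by linarith
    · exact ((hc U).2.1 (fun h s => (∑ i, raise a h (c i) * rotate U s i ^ 2) / (2 * N)) fun s => by
        refine Continuous.div_const (continuous_finsetSum _ fun i _ => Continuous.mul ?_ continuous_const) _
        unfold raise
        split_ifs <;> fun_prop).continuousAt
  · unfold qSpin
    rcases Nat.eq_zero_or_pos j with rfl | hj
    · simpa using continuous_const
    simp only [pairU_eq, if_neg (by omega : j ≠ 0)]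
    refine continuous_iff_continuousAt.2 fun p₀ => ?_
    exact continuousAt_of_dominated (bound := fun _ => (1 : ℝ))
      (Eventually.of_forall fun p => (pairR_meas β (raise a p.2.2) c (P157.Rsb.lift p.1)
        (P157.Rsb.lift p.2.1) j (ψ := fun _ => spinOv) fun _ _ => measurable_const).aestronglyMeasurable)
      (Eventually.of_forall fun p => ae_of_all _ fun U => abs_pairR_le β _ c U _ _ j abs_spinOv_le)
      (integrable_const _) (ae_of_all _ fun U => ((hc U).2.2 j).continuousAt)

omit hm in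
/-- Module C. -/
theorem calcStmt : CalcStmt := by
  intro d N a c m k hN hm
  refine ⟨fun β β' h h' σ σ' τ => ?_, fun β h σ τ => ?_, fun σ => freeU_beta_zero a c hm hN σ,
    fun β => freeU_zero β a c, fun β => freeU_continuous β a c hm hN⟩
  · have := hm.1
    have hN' : (0 : ℝ) < N := by exact_mod_cast hN
    have h1 := freeU_support (k := k) β (raise a h) c hm hN β' (raise a h') σ τ σ' τ
    refine le_trans (le_of_eq ?_) h1
    have hgi : ∀ φ : (Fin N → Fin N → ℝ) → (Fin N → Bool) → ℝ, (∀ s, Measurable fun U => φ U s) →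
        ∀ C, (∀ U, IsOrth U → ∀ s, |φ U s| ≤ C) →
        Integrable (fun U => gibR β (raise a h) c U k σ τ (φ U)) m := fun φ hφ C hC =>
      integrable_of_ae hm (gibR_meas β _ c σ τ hφ) fun U hU => abs_gibR_le β _ c U σ τ (hC U hU)
    have e : gibU m k β (raise a h) c σ τ
        (fun U s => (β' / 2 * enV (raise a h') c U s - β / 2 * enV (raise a h) c U s) / N)
        = (β' - β) * enU m k β (raise a h) c σ τ
          + β' / 2 * (h' - h) * pTop m k β (raise a h) c σ τ := by
      simp only [enU, pTop, gibU_eq, ← integral_const_mul, ← gibR_mul]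
      rw [← integral_add (hgi _ (fun s => by unfold rotate; fun_prop)
          (|β' - β| * ((∑ e, |raise a h e|) * N / (2 * N))) fun U hU s => by
            rw [abs_mul, abs_div, abs_mul (2 : ℝ), abs_two, Nat.abs_cast]
            exact mul_le_mul_of_nonneg_left (div_le_div_of_nonneg_right
              (abs_enV_le _ c hU s) (by positivity)) (abs_nonneg _))
        (hgi _ (fun s => by unfold topSq rotate; fun_prop) (|β' / 2 * (h' - h)| * 1) fun U hU s => by
            rw [abs_mul, abs_div, Nat.abs_cast, abs_of_nonneg (topSq_nonneg c U s)]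
            exact mul_le_mul_of_nonneg_left (div_le_one_of_le₀ (topSq_le c U hU s) (Nat.cast_nonneg N))
              (abs_nonneg _))]
      simp only [← gibR_add]
      refine integral_congr_ae (ae_of_all _ fun U => congrArg (gibR β (raise a h) c U k σ τ)
        (funext fun s => ?_))
      have e1 : ∑ i, raise a h (c i) * rotate U s i ^ 2 = enV (raise a h) c U s := rfl
      rw [e1, enV_raise, enV_raise]
      field_simp
      ring
    rw [e, sum_congr rfl fun j _ => show (σ' j - σ j) * (-σ j * tail k (qSpin m k β (raise a h) c σ τ) j)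
        - (σ' j - σ j) ^ 2 / 2 + ((τ j - τ j) * (-τ j * tail k (qTop m k β (raise a h) c σ τ) j)
          - (τ j - τ j) ^ 2 / 2)
      = (σ' j - σ j) * (-σ j * tail k (qSpin m k β (raise a h) c σ τ) j) - (σ' j - σ j) ^ 2 / 2 by ring]
    ring
  · exact ⟨isPath_qSpin β _ c hm hN σ τ, isPath_qTop β _ c hm hN σ τ, abs_enU_le β _ c hm hN σ τ,
      abs_freeU_sub_le β a c hm hN h σ τ⟩

end Vale.Agent.P166.Rsb
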