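import Vale.Agent.P166.Haar

/-!
# P166: subgroups of rotations fixing the first coordinates, Householder reflections

An invariant law on a group of rotations is unique and two-sided invariant.  Removing the next
column by its reflection maps the invariant law of one stabiliser onto that of the next one.
-/

open MeasureTheory Matrix Real

namespace Vale.Agent.P166.Rsb

variable {N : ℕ}

/-- The transposed array. -/
def tr (U : Fin N → Fin N → ℝ) : Fin N → Fin N → ℝ := fun i l => U l i

/-- The matrix of an array applied to a vector. -/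
noncomputable def app (U : Fin N → Fin N → ℝ) (x : Fin N → ℝ) : Fin N → ℝ := Matrix.of U *ᵥ x

/-- The unit vector of one coordinate. -/
noncomputable def bas (i : Fin N) : Fin N → ℝ := Pi.single i 1

theorem app_mul (V U : Fin N → Fin N → ℝ) (x : Fin N → ℝ) : app (mul V U) x = app V (app U x) := by
  rw [app, mul_eq_matrix, ← mulVec_mulVec]; rfl

theorem app_bas (U : Fin N → Fin N → ℝ) (i a : Fin N) : app U (bas i) a = U a i := by
  simp [app, bas, mulVec, dotProduct, Pi.single_apply]

theorem of_tr (U : Fin N → Fin N → ℝ) : Matrix.of (tr U) = (Matrix.of U)ᵀ := rfl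

theorem tr_tr (U : Fin N → Fin N → ℝ) : tr (tr U) = U := rfl

theorem isOrth_tr {U : Fin N → Fin N → ℝ} (hU : IsOrth U) : IsOrth (tr U) := ⟨hU.2, hU.1⟩

theorem tr_mul (V U : Fin N → Fin N → ℝ) : tr (mul V U) = mul (tr U) (tr V) := by
  funext i l
  simp only [tr, mul, mul_comm]

theorem mul_assoc_arr (A B C : Fin N → Fin N → ℝ) : mul (mul A B) C = mul A (mul B C) := by
  refine Matrix.of.injective ?_
  simp only [mul_eq_matrix, Matrix.mul_assoc]

theorem tr_mul_self {U : Fin N → Fin N → ℝ} (hU : IsOrth U) (V : Fin N → Fin N → ℝ) :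
    mul (tr U) (mul U V) = V := by
  refine Matrix.of.injective ?_
  rw [mul_eq_matrix, mul_eq_matrix, of_tr, ← Matrix.mul_assoc,
    mul_eq_one_comm.1 ((isOrth_iff U).1 hU), Matrix.one_mul]

theorem mul_tr_self {U : Fin N → Fin N → ℝ} (hU : IsOrth U) (V : Fin N → Fin N → ℝ) :
    mul U (mul (tr U) V) = V := by
  simpa [tr_tr] using tr_mul_self (isOrth_tr hU) V

theorem app_tr_app {U : Fin N → Fin N → ℝ} (hU : IsOrth U) (x : Fin N → ℝ) : app (tr U) (app U x) = x := by
  rw [app, app, mulVec_mulVec, of_tr, mul_eq_one_comm.1 ((isOrth_iff U).1 hU), one_mulVec]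

theorem app_dot {U : Fin N → Fin N → ℝ} (hU : IsOrth U) (x y : Fin N → ℝ) :
    app U x ⬝ᵥ app U y = x ⬝ᵥ y := by
  simp only [app]
  rw [dotProduct_mulVec, ← mulVec_transpose, mulVec_mulVec, mul_eq_one_comm.1 ((isOrth_iff U).1 hU),
    one_mulVec]

theorem app_transpose_dot (U : Fin N → Fin N → ℝ) (x y : Fin N → ℝ) :
    x ⬝ᵥ app U y = app (tr U) x ⬝ᵥ y := by
  rw [app, app, dotProduct_mulVec, of_tr, mulVec_transpose]

theorem continuous_tr : Continuous (tr : (Fin N → Fin N → ℝ) → _) := by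
  unfold tr; fun_prop

theorem continuous_mul₂ :
    Continuous fun p : (Fin N → Fin N → ℝ) × (Fin N → Fin N → ℝ) => mul p.1 p.2 := by
  unfold mul; fun_prop

theorem measurable_mul₂ :
    Measurable fun p : (Fin N → Fin N → ℝ) × (Fin N → Fin N → ℝ) => mul p.1 p.2 :=
  continuous_mul₂.measurable

theorem continuous_mul_right (W : Fin N → Fin N → ℝ) : Continuous fun U : Fin N → Fin N → ℝ => mul U W :=
  continuous_mul₂.comp (Continuous.prodMk continuous_id continuous_const)

/-- The rotations that fix the coordinates below `j`. -/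
def InK (j : ℕ) (U : Fin N → Fin N → ℝ) : Prop :=
  IsOrth U ∧ ∀ i : Fin N, i.val < j → app U (bas i) = bas i

theorem InK.tr {j : ℕ} {U : Fin N → Fin N → ℝ} (h : InK j U) : InK j (tr U) :=
  ⟨isOrth_tr h.1, fun i hi => by conv_lhs => rw [← h.2 i hi, app_tr_app h.1]⟩

theorem InK.mul {j : ℕ} {V U : Fin N → Fin N → ℝ} (hV : InK j V) (hU : InK j U) : InK j (P166.mul V U) :=
  ⟨hV.1.mul hU.1, fun i hi => by rw [app_mul, hU.2 i hi, hV.2 i hi]⟩

theorem InK.mono {j j' : ℕ} (h : j ≤ j') {U : Fin N → Fin N → ℝ} (hU : InK j' U) : InK j U :=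
  ⟨hU.1, fun i hi => hU.2 i (hi.trans_le h)⟩

theorem inK_zero {U : Fin N → Fin N → ℝ} : InK 0 U ↔ IsOrth U :=
  ⟨fun h => h.1, fun h => ⟨h, fun i hi => absurd hi (Nat.not_lt_zero _)⟩⟩

/-- A probability law on the rotations fixing the coordinates below `j`, invariant under them. -/
structure IsInv (j : ℕ) (μ : Measure (Fin N → Fin N → ℝ)) : Prop where
  prob : IsProbabilityMeasure μ
  ae : ∀ᵐ U ∂μ, InK j U
  left : ∀ V, InK j V → μ.map (mul V) = μ

theorem isInv_zero {m : Measure (Fin N → Fin N → ℝ)} (hm : IsHaarOrth m) : IsInv 0 m :=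
  ⟨hm.1, hm.2.1.mono fun _ h => inK_zero.2 h, fun V hV => hm.2.2 V hV.1⟩

theorem integrable_of_abs_le {α : Type*} [MeasurableSpace α] {μ : Measure α} [IsFiniteMeasure μ]
    {f : α → ℝ} (hf : Measurable f) {C : ℝ} (hC : ∀ x, |f x| ≤ C) : Integrable f μ :=
  Integrable.of_bound hf.aestronglyMeasurable C (ae_of_all _ fun x => by rw [norm_eq_abs]; exact hC x)

theorem IsInv.integral_left {j : ℕ} {μ : Measure (Fin N → Fin N → ℝ)} (hμ : IsInv j μ)
    {V : Fin N → Fin N → ℝ} (hV : InK j V) {f : (Fin N → Fin N → ℝ) → ℝ} (hf : Measurable f) :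
    ∫ U, f (P166.mul V U) ∂μ = ∫ U, f U ∂μ := by
  conv_rhs => rw [← hμ.left V hV]
  rw [integral_map (P166.continuous_mul V).aemeasurable hf.aestronglyMeasurable]

theorem IsInv.integral_tr {j : ℕ} {μ ν : Measure (Fin N → Fin N → ℝ)} (hμ : IsInv j μ) (hν : IsInv j ν)
    {f : (Fin N → Fin N → ℝ) → ℝ} (hf : Measurable f) {C : ℝ} (hC : ∀ U, |f U| ≤ C) :
    ∫ U, f (Rsb.tr U) ∂μ = ∫ U, f U ∂ν := by
  have := hμ.prob
  have := hν.prob
  have hm : Measurable fun p : (Fin N → Fin N → ℝ) × (Fin N → Fin N → ℝ) =>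
      f (P166.mul (Rsb.tr p.1) p.2) :=
    hf.comp (measurable_mul₂.comp ((continuous_tr.measurable.comp measurable_fst).prodMk measurable_snd))
  have hs := integral_integral_swap
    (f := fun (A B : Fin N → Fin N → ℝ) => f (P166.mul (Rsb.tr A) B)) (μ := μ) (ν := ν)
    (integrable_of_abs_le hm fun p => hC _)
  have h1 : ∫ A, ∫ B, f (P166.mul (Rsb.tr A) B) ∂ν ∂μ = ∫ U, f U ∂ν := by
    rw [integral_congr_ae (hμ.ae.mono fun A hA => hν.integral_left hA.tr hf)]
    simp
  have h2 : ∫ B, ∫ A, f (P166.mul (Rsb.tr A) B) ∂μ ∂ν = ∫ U, f (Rsb.tr U) ∂μ := by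
    have e : ∀ A B : Fin N → Fin N → ℝ, f (P166.mul (Rsb.tr A) B) = f (Rsb.tr (P166.mul (Rsb.tr B) A)) :=
      fun A B => by rw [tr_mul, tr_tr]
    simp only [e]
    rw [integral_congr_ae (hν.ae.mono fun B hB => hμ.integral_left hB.tr (f := fun U => f (Rsb.tr U)) (hf.comp continuous_tr.measurable))]
    simp
  rw [← h2, ← hs, h1]

/-- An invariant law is unique. -/
theorem IsInv.unique {j : ℕ} {μ ν : Measure (Fin N → Fin N → ℝ)} (hμ : IsInv j μ) (hν : IsInv j ν) :
    μ = ν := by
  have := hμ.prob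
  have := hν.prob
  refine Measure.ext fun s hs => (measureReal_eq_measureReal_iff).1 ?_
  have hf : Measurable (s.indicator (1 : (Fin N → Fin N → ℝ) → ℝ)) := measurable_const.indicator hs
  have hC : ∀ U, |s.indicator (1 : (Fin N → Fin N → ℝ) → ℝ) U| ≤ 1 := fun U => by
    by_cases h : U ∈ s <;> simp [h]
  have h1 := hμ.integral_tr hμ hf hC
  have h2 := hμ.integral_tr hν hf hC
  rw [h1, integral_indicator_one hs, integral_indicator_one hs] at h2
  exact h2

/-- An invariant law is invariant from the right. -/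
theorem IsInv.integral_right {j : ℕ} {μ : Measure (Fin N → Fin N → ℝ)} (hμ : IsInv j μ)
    {W : Fin N → Fin N → ℝ} (hW : InK j W) {f : (Fin N → Fin N → ℝ) → ℝ} (hf : Measurable f) {C : ℝ}
    (hC : ∀ U, |f U| ≤ C) : ∫ U, f (P166.mul U W) ∂μ = ∫ U, f U ∂μ := by
  have hm : Measurable fun U => f (P166.mul U W) := hf.comp (continuous_mul_right W).measurable
  rw [← hμ.integral_tr hμ hm fun U => hC _, ← hμ.integral_tr hμ hf hC]
  have e : ∀ U, f (P166.mul (Rsb.tr U) W) = (f ∘ Rsb.tr) (P166.mul (Rsb.tr W) U) := fun U => by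
    simp [Function.comp, tr_mul, tr_tr]
  simp only [e]
  exact hμ.integral_left hW.tr (hf.comp continuous_tr.measurable)

theorem IsInv.map_right {j : ℕ} {μ : Measure (Fin N → Fin N → ℝ)} (hμ : IsInv j μ)
    {W : Fin N → Fin N → ℝ} (hW : InK j W) : μ.map (fun U => P166.mul U W) = μ := by
  have := hμ.prob
  refine Measure.ext fun s hs => (measureReal_eq_measureReal_iff).1 ?_
  have hf : Measurable (s.indicator (1 : (Fin N → Fin N → ℝ) → ℝ)) := measurable_const.indicator hs
  have h := hμ.integral_right hW hf (C := 1) fun U => by by_cases h : U ∈ s <;> simp [h]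
  rw [← integral_indicator_one hs, ← integral_indicator_one hs,
    integral_map (continuous_mul_right W).aemeasurable hf.aestronglyMeasurable]
  exact h

/-- The direction of the reflection exchanging `e_j` and `ξ`. -/
noncomputable def dv (j : Fin N) (ξ : Fin N → ℝ) : Fin N → ℝ := bas j - ξ

/-- The reflection exchanging `e_j` and a unit vector `ξ`. -/
noncomputable def hh (j : Fin N) (ξ : Fin N → ℝ) : Fin N → Fin N → ℝ :=
  fun i l => (if i = l then 1 else 0) - dv j ξ i * dv j ξ l / (1 - ξ j)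

theorem of_hh (j : Fin N) (ξ : Fin N → ℝ) :
    Matrix.of (hh j ξ) = 1 - (1 - ξ j)⁻¹ • vecMulVec (dv j ξ) (dv j ξ) := by
  ext i l
  simp only [Matrix.of_apply, hh, Matrix.sub_apply, Matrix.one_apply, Matrix.smul_apply,
    vecMulVec_apply, smul_eq_mul]
  ring

theorem app_hh (j : Fin N) (ξ x : Fin N → ℝ) :
    app (hh j ξ) x = x - ((dv j ξ ⬝ᵥ x) / (1 - ξ j)) • dv j ξ := by
  rw [app, of_hh, sub_mulVec, one_mulVec, smul_mulVec]
  funext i
  simp only [Pi.sub_apply, Pi.smul_apply, smul_eq_mul, mulVec, dotProduct, vecMulVec_apply, mul_assoc,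
    ← Finset.mul_sum]
  ring

theorem dot_bas (x : Fin N → ℝ) (i : Fin N) : x ⬝ᵥ bas i = x i := by
  simp [bas, dotProduct, Pi.single_apply]

theorem eq_bas {j : Fin N} {ξ : Fin N → ℝ} (hξ : ξ ⬝ᵥ ξ = 1) (h : ξ j = 1) : ξ = bas j := by
  funext i
  by_cases hi : i = j
  · subst hi; simp [bas, h]
  · have h2 : ∑ a ∈ Finset.univ.erase j, ξ a * ξ a = 0 := by
      have h1 := Finset.add_sum_erase Finset.univ (fun a => ξ a * ξ a) (Finset.mem_univ j)
      rw [show ∑ a, ξ a * ξ a = 1 from hξ] at h1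
      simp only [h] at h1
      linarith
    have h3 := (Finset.sum_eq_zero_iff_of_nonneg fun a _ => mul_self_nonneg (ξ a)).1 h2 i
      (Finset.mem_erase.2 ⟨hi, Finset.mem_univ i⟩)
    simp [bas, Ne.symm, hi, mul_self_eq_zero.1 h3]

theorem app_hh_bas {j : Fin N} {ξ : Fin N → ℝ} (hξ : ξ ⬝ᵥ ξ = 1) : app (hh j ξ) (bas j) = ξ := by
  rw [app_hh, dot_bas]
  by_cases h : ξ j = 1
  · rw [h, sub_self, div_zero, zero_smul, sub_zero, eq_bas hξ h]
  · have hd : dv j ξ j = 1 - ξ j := by simp [dv, bas]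
    rw [hd, div_self (sub_ne_zero.2 (Ne.symm h)), one_smul, dv, sub_sub_cancel]

theorem isOrth_hh {j : Fin N} {ξ : Fin N → ℝ} (hξ : ξ ⬝ᵥ ξ = 1) : IsOrth (hh j ξ) := by
  set v := dv j ξ with hv
  set D := 1 - ξ j with hD
  have hvv : v ⬝ᵥ v = 2 * D := by
    have h1 : bas j ⬝ᵥ ξ = ξ j := by rw [dotProduct_comm, dot_bas]
    have h2 : bas j ⬝ᵥ bas j = 1 := by rw [dot_bas]; simp [bas]
    simp only [hv, dv, sub_dotProduct, dotProduct_sub, dot_bas ξ, h1, h2, hξ, hD]
    ring
  rw [isOrth_iff]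
  ext a b
  have e : ∀ i l, hh j ξ i l = (if i = l then (1 : ℝ) else 0) - v i * v l / D := fun i l => rfl
  simp only [Matrix.mul_apply, Matrix.transpose_apply, Matrix.of_apply, e, Matrix.one_apply]
  have e2 : ∀ l, ((if a = l then (1 : ℝ) else 0) - v a * v l / D) * ((if b = l then 1 else 0) - v b * v l / D)
      = (if a = l then (if b = l then 1 else 0) else 0) - (if a = l then v b * v l / D else 0)
        - (if b = l then v a * v l / D else 0) + v a * v b / D ^ 2 * (v l * v l) := fun l => by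
    split_ifs <;> ring
  simp only [e2, Finset.sum_add_distrib, Finset.sum_sub_distrib, Finset.sum_ite_eq, Finset.mem_univ,
    if_true, ← Finset.mul_sum]
  rw [show ∑ l, v l * v l = 2 * D from hvv]
  rcases eq_or_ne D 0 with h0 | h0
  · simp [h0, eq_comm]
  · simp only [eq_comm (a := b) (b := a)]
    field_simp
    ring

theorem tr_hh (j : Fin N) (ξ : Fin N → ℝ) : tr (hh j ξ) = hh j ξ := by
  funext i l
  simp only [tr, hh, eq_comm (a := l) (b := i)]
  ring

theorem hh_hh {j : Fin N} {ξ : Fin N → ℝ} (hξ : ξ ⬝ᵥ ξ = 1) (V : Fin N → Fin N → ℝ) :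
    mul (hh j ξ) (mul (hh j ξ) V) = V := by
  simpa [tr_hh] using tr_mul_self (isOrth_hh (j := j) hξ) V

theorem app_hh_self {j : Fin N} {ξ : Fin N → ℝ} (hξ : ξ ⬝ᵥ ξ = 1) : app (hh j ξ) ξ = bas j := by
  conv_lhs => arg 2; rw [← app_hh_bas (j := j) hξ]
  simpa [tr_hh] using app_tr_app (isOrth_hh (j := j) hξ) (bas j)

theorem inK_hh {j : Fin N} {n : ℕ} {ξ : Fin N → ℝ} (hξ : ξ ⬝ᵥ ξ = 1) (hn : n ≤ j)
    (h0 : ∀ i : Fin N, i.val < n → ξ i = 0) : InK n (hh j ξ) := by
  refine ⟨isOrth_hh hξ, fun i hi => ?_⟩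
  have hv : dv j ξ i = 0 := by
    have hne : i ≠ j := fun e => by subst e; omega
    simp [dv, bas, hne, h0 i hi]
  rw [app_hh, dot_bas, hv, zero_div, zero_smul, sub_zero]

theorem hh_conj {j : Fin N} {k : Fin N → Fin N → ℝ} (hk : InK (j.val + 1) k) (ξ : Fin N → ℝ) :
    hh j (app k ξ) = mul k (mul (hh j ξ) (tr k)) := by
  have hej : app k (bas j) = bas j := hk.2 j (Nat.lt_succ_self _)
  have hc : app k ξ j = ξ j := by
    rw [← dot_bas (app k ξ) j, ← dot_bas ξ j]
    conv_lhs => rw [← hej]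
    exact app_dot hk.1 _ _
  have hv : dv j (app k ξ) = app k (dv j ξ) := by
    rw [dv, dv]
    conv_lhs => rw [← hej]
    simp only [app, mulVec_sub]
  refine Matrix.of.injective ?_
  rw [mul_eq_matrix, mul_eq_matrix, of_tr, of_hh, of_hh, hv, hc, Matrix.sub_mul, Matrix.one_mul,
    Matrix.mul_sub, (isOrth_iff k).1 hk.1, Matrix.smul_mul, Matrix.mul_smul, vecMulVec_mul,
    mul_vecMulVec, vecMul_transpose]
  rfl

theorem measurable_hh (j : Fin N) : Measurable (hh j) := by
  refine measurable_pi_lambda _ fun i => measurable_pi_lambda _ fun l => ?_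
  unfold hh dv
  simp only [Pi.sub_apply]
  fun_prop

theorem measurable_app_bas (j : Fin N) : Measurable fun U : Fin N → Fin N → ℝ => app U (bas j) := by
  refine measurable_pi_lambda _ fun a => ?_
  simp only [app_bas]
  fun_prop

theorem col_unit {U : Fin N → Fin N → ℝ} (hU : IsOrth U) (j : Fin N) :
    app U (bas j) ⬝ᵥ app U (bas j) = 1 := by
  rw [app_dot hU, dot_bas]; simp [bas]

theorem InK.col_zero {n : ℕ} {U : Fin N → Fin N → ℝ} (hU : InK n U) {j : Fin N} (hn : n ≤ j) {i : Fin N}
    (hi : i.val < n) : app U (bas j) i = 0 := by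
  rw [← dot_bas (app U (bas j)) i, ← hU.2 i hi, app_dot hU.1, dot_bas]
  have hne : i ≠ j := fun e => by subst e; omega
  simp [bas, hne]

/-- The reflection of the column `j`. -/
noncomputable def refl (j : Fin N) (U : Fin N → Fin N → ℝ) : Fin N → Fin N → ℝ := hh j (app U (bas j))

theorem measurable_refl (j : Fin N) : Measurable (refl j) := (measurable_hh j).comp (measurable_app_bas j)

theorem inK_refl {j : Fin N} {U : Fin N → Fin N → ℝ} (hU : InK j U) : InK j (refl j U) :=
  inK_hh (col_unit hU.1 j) le_rfl fun _ hi => hU.col_zero le_rfl hi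

/-- Removing the column `j`. -/
noncomputable def strip (j : Fin N) (U : Fin N → Fin N → ℝ) : Fin N → Fin N → ℝ := mul (refl j U) U

theorem measurable_strip (j : Fin N) : Measurable (strip j) :=
  measurable_mul₂.comp ((measurable_refl j).prodMk measurable_id)

theorem inK_strip {j : Fin N} {U : Fin N → Fin N → ℝ} (hU : InK j U) : InK (j.val + 1) (strip j U) := by
  refine ⟨(inK_refl hU).1.mul hU.1, fun i hi => ?_⟩
  rcases Nat.lt_succ_iff_lt_or_eq.1 hi with h | h
  · rw [strip, app_mul, hU.2 i h, (inK_refl hU).2 i h]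
  · rw [Fin.ext h, strip, app_mul, refl, app_hh_self (col_unit hU.1 j)]

theorem strip_mul {j : Fin N} {k : Fin N → Fin N → ℝ} (hk : InK (j.val + 1) k) (U : Fin N → Fin N → ℝ) :
    strip j (mul k U) = mul k (strip j U) := by
  rw [strip, strip, refl, refl, app_mul, hh_conj hk, mul_assoc_arr, mul_assoc_arr, tr_mul_self hk.1]

/-- The invariant laws of the stabilisers. -/
noncomputable def stage (m : Measure (Fin N → Fin N → ℝ)) : ℕ → Measure (Fin N → Fin N → ℝ)
  | 0 => m
  | j + 1 => if h : j < N then (stage m j).map (strip ⟨j, h⟩) else stage m j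

theorem isInv_stage {m : Measure (Fin N → Fin N → ℝ)} (hm : IsHaarOrth m) :
    ∀ j, j ≤ N → IsInv j (stage m j)
  | 0, _ => isInv_zero hm
  | j + 1, hj => by
    have ih := isInv_stage hm j (by omega)
    have hjN : j < N := by omega
    have := ih.prob
    simp only [stage, dif_pos hjN]
    set J : Fin N := ⟨j, hjN⟩
    refine ⟨Measure.isProbabilityMeasure_map (measurable_strip J).aemeasurable, ?_, fun V hV => ?_⟩
    · refine (ae_map_iff (measurable_strip J).aemeasurable ?_).2 (ih.ae.mono fun U hU => inK_strip (j := J) hU)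
      have e : {U : Fin N → Fin N → ℝ | InK (j + 1) U} =
          {U | IsOrth U} ∩ ⋂ i : Fin N, {U | i.val < j + 1 → app U (bas i) = bas i} := by
        ext U; simp [InK]
      rw [e]
      refine (IsClosed.inter ?_ (isClosed_iInter fun i => ?_)).measurableSet
      · simp only [IsOrth, Set.ofPred_and, Set.ofPred_forall]
        exact IsClosed.inter
          (isClosed_iInter fun a => isClosed_iInter fun b => isClosed_eq (by fun_prop) continuous_const)
          (isClosed_iInter fun a => isClosed_iInter fun b => isClosed_eq (by fun_prop) continuous_const)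
      · by_cases hi : i.val < j + 1
        · simp only [hi, forall_const]
          refine isClosed_eq (continuous_pi fun a => ?_) continuous_const
          simp only [app_bas]
          fun_prop
        · simp [hi]
    · rw [Measure.map_map (P166.continuous_mul V).measurable (measurable_strip J),
        show P166.mul V ∘ strip J = strip J ∘ P166.mul V from
          funext fun U => (strip_mul (j := J) hV U).symm,
        ← Measure.map_map (measurable_strip J) (P166.continuous_mul V).measurable,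
        ih.left V (hV.mono (Nat.le_succ j))]

theorem integral_stage_succ {m : Measure (Fin N → Fin N → ℝ)} (hm : IsHaarOrth m) (j : Fin N)
    {f : (Fin N → Fin N → ℝ) → ℝ} (hf : Measurable f) {C : ℝ} (hC : ∀ U, |f U| ≤ C) :
    ∫ U, f U ∂stage m j
      = ∫ U, ∫ k, f (mul (refl j U) k) ∂stage m (j.val + 1) ∂stage m j := by
  set μ := stage m j with hμd
  set ν := stage m (j.val + 1) with hνd
  have hμ : IsInv j μ := isInv_stage hm j j.2.le
  have hν : IsInv (j.val + 1) ν := isInv_stage hm _ j.2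
  have := hμ.prob
  have := hν.prob
  have h1 : ∫ k, ∫ U, f (mul U k) ∂μ ∂ν = ∫ U, f U ∂μ := by
    rw [integral_congr_ae (hν.ae.mono fun k hk => hμ.integral_right (hk.mono (Nat.le_succ _)) hf hC)]
    simp
  rw [← h1, integral_integral_swap (integrable_of_abs_le
    (f := Function.uncurry fun (k U : Fin N → Fin N → ℝ) => f (mul U k))
    (hf.comp (measurable_mul₂.comp measurable_swap)) fun p => hC _)]
  refine integral_congr_ae (hμ.ae.mono fun U hU => ?_)
  dsimp only
  have e : ∀ k, f (mul U k) = f (mul (refl j U) (mul (strip j U) k)) := fun k => by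
    rw [← mul_assoc_arr, strip, refl, hh_hh (col_unit hU.1 j)]
  simp only [e]
  exact hν.integral_left (inK_strip hU)
    (f := fun k => f (mul (refl j U) k)) (hf.comp (P166.continuous_mul _).measurable)

theorem inK_top {U : Fin N → Fin N → ℝ} (hU : InK N U) : U = fun i l => if i = l then 1 else 0 := by
  funext i l
  rw [← app_bas U l i, hU.2 l l.2]
  simp [bas, Pi.single_apply]

end Vale.Agent.P166.Rsb
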