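import Vale.Agent.P166.Rsb.FieldDeriv
import Vale.Agent.P157.Rsb.CavLinear
import Vale.Agent.P157.Cube2.AuxField

/-!
# P166: a small amplitude on a coordinate without field

At amplitude `b` on a coordinate of modulus one the root falls by `b T b` per unit of `b`, `T` the
tail of the squared means of the coordinate; `T` is Lipschitz, so the fall is `b² T 0 / 2` up to `b³`.
-/

open MeasureTheory ProbabilityTheory Real Finset
open Vale.Agent.P157.Rsb (stdG val cnd mass mass_pos LinB Tame Family BCoef linZ lowKer KerBd gaussSize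
  cndDer cndDer_measurable hasDerivAt_cnd cnd_mono cnd_add cnd_sub cnd_const cnd_const_mul cnd_tower
  cnd_tame cnd_abs_le cnd_exp_linZ_le mass_sum_le)

namespace Vale.Agent.P166.Rsb

variable {k : ℕ} {ι X : Type} [Fintype ι] [DecidableEq ι] [MeasurableSpace X]
  {μ : Measure X} [IsProbabilityMeasure μ]

/-- The direction of one amplitude. -/
def oneDir (a : Fin k) (i₀ : ι) (l : ℕ) (i : ι) : ℝ := if l = (a : ℕ) + 1 ∧ i = i₀ then 1 else 0

theorem bmeas_zero : BMeas fun _ : X => (0 : ℝ) := ⟨measurable_const, 0, fun _ => by simp⟩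

/-- The data moved to amplitude `b`. -/
noncomputable def FData.aux (D : FData ι X) (b : ℝ) : FData ι X := D.shift _ bmeas_zero b

/-- The amplitudes moved to `b`. -/
def auxS (s : ℕ → ι → ℝ) (a : Fin k) (i₀ : ι) (b : ℝ) : ℕ → ι → ℝ := lineAmp s (oneDir a i₀) b

/-- The tail of the squared means of the coordinate at amplitude `b`. -/
noncomputable def auxT (μ : Measure X) (D : FData ι X) (s : ℕ → ι → ℝ) (a : Fin k) (i₀ : ι) (b : ℝ) : ℝ :=
  gtail μ k (D.aux b) (auxS s a i₀ b) i₀ ((a : ℕ) + 1)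

omit [MeasurableSpace X] in
theorem sum_oneDir (a : Fin k) (i₀ : ι) (F : Fin k → ι → ℝ) :
    ∑ l : Fin k, ∑ i, oneDir a i₀ ((l : ℕ) + 1) i * F l i = F a i₀ := by
  rw [sum_eq_single a (fun l _ hl => sum_eq_zero fun i _ => by
      simp [oneDir, show (l : ℕ) ≠ (a : ℕ) from fun e => hl (Fin.ext e)]) (by simp),
    sum_eq_single i₀ (fun i _ hi => by simp [oneDir, hi]) (by simp)]
  simp [oneDir]

theorem gval_aux_deriv (D : FData ι X) (s : ℕ → ι → ℝ) (a : Fin k) (i₀ : ι)
    (hs : s ((a : ℕ) + 1) i₀ = 0) (b : ℝ) :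
    HasDerivAt (fun u => val (stdG ι) μ (gham (k := k) (D.aux u) (auxS s a i₀ u)) 0 fun _ _ => 0)
      (-(b * auxT μ D s a i₀ b)) b := by
  refine (gval_line_deriv μ D s (oneDir a i₀) bmeas_zero b).congr_deriv ?_
  rw [groot, cnd_const (gham_linB _ _), zero_sub]
  simp_rw [mul_assoc, sum_oneDir]
  simp [auxT, auxS, FData.aux, lineAmp, oneDir, hs]

variable (D : FData ι X) (s : ℕ → ι → ℝ) (a : Fin k) (i₀ : ι)

/-- The universal bound on the mean size of the field of the moved amplitude. -/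
noncomputable def auxK : ℝ := 2 * exp (1 / 2 + 2) + 1

theorem auxK_nonneg : 0 ≤ auxK := by unfold auxK; positivity

variable (hs : s ((a : ℕ) + 1) i₀ = 0) (h1 : ∀ x, |D.v x i₀| = 1)
include hs h1

/-- The mean size of the field stays bounded. -/
theorem mean_abs_coord {b : ℝ} (hb : |b| ≤ 1) :
    cnd (stdG ι) μ (gham (k := k) (D.aux b) (auxS s a i₀ b)) (fun z _ => |z a i₀|) 0 (fun _ _ => 0)
      ≤ 2 * exp (1 / 2 + 2) := by
  set D' := D.aux b
  set s' := auxS s a i₀ b
  obtain ⟨B, hB0, hB⟩ := D'.bound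
  set v : Fin k → ι → X → ℝ := fun l i x => s' ((l : ℕ) + 1) i * D'.v x i
  set H0 : X → ℝ := fun x => D'.det x - ∑ l : Fin k, ∑ i, s' ((l : ℕ) + 1) i ^ 2 / 2 * D'.v x i ^ 2
  have eH : gham (k := k) D' s' = fun z x => linZ v z x + H0 x := by
    funext z x
    simp only [gham, linZ, v, H0, sum_sub_distrib]
    rw [← sum_sub_distrib]
    have : ∀ l : Fin k, ∑ i, z l i * (s' ((l : ℕ) + 1) i * D'.v x i)
        = ∑ i, s' ((l : ℕ) + 1) i * z l i * D'.v x i := fun l => sum_congr rfl fun i _ => by ring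
    simp only [this, sum_sub_distrib]
    ring
  have h0m : Measurable H0 := D'.det_meas.sub
    (Finset.measurable_sum _ fun l _ => Finset.measurable_sum _ fun i _ =>
      ((D'.v_meas i).pow_const 2).const_mul _)
  set B0 := B + ∑ l : Fin k, ∑ i : ι, s' ((l : ℕ) + 1) i ^ 2 / 2 * B ^ 2
  have hB0' : ∀ x, |H0 x| ≤ B0 := fun x => by
    refine (abs_sub _ _).trans (add_le_add (hB x).2 ?_)
    rw [abs_of_nonneg (sum_nonneg fun l _ => sum_nonneg fun i _ => by positivity)]
    refine sum_le_sum fun l _ => sum_le_sum fun i _ => mul_le_mul_of_nonneg_left ?_ (by positivity)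
    rw [← sq_abs]; exact pow_le_pow_left₀ (abs_nonneg _) ((hB x).1 i) 2
  have hbv : BCoef v := ⟨(∑ l : Fin k, ∑ i, |s' ((l : ℕ) + 1) i|) * B, by positivity, fun l i =>
    ⟨(D'.v_meas i).const_mul _, fun x => by
      rw [abs_mul]; exact mul_le_mul (le_sum_amp s' l i) ((hB x).1 i) (abs_nonneg _) (by positivity)⟩⟩
  set d : ℝ → Fin k → ι → X → ℝ := fun c a' i _ => if a' = a ∧ i = i₀ then c else 0 with hd
  have hlin : ∀ c z' x, linZ (d c) z' x = c * z' a i₀ := fun c z' x => by
    simp only [linZ, hd]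
    rw [sum_eq_single a (fun a' _ ha => sum_eq_zero fun i _ => by simp [ha]) (by simp),
      sum_eq_single i₀ (fun i _ hi => by simp [hi]) (by simp)]
    simp; ring
  have hsz : ∀ c : ℝ, |c| = 1 → ∀ x, |c * v a i₀ x| ≤ 1 := fun c hc x => by
    simp only [v, s', auxS, lineAmp, oneDir, D', FData.aux, FData.shift]
    simp [abs_mul, hc, hs, h1 x, hb]
  have hdv : ∀ c (a' : Fin k) x y, ∑ i, d c a' i x * v a' i y
      = if a' = a then c * v a i₀ y else 0 := fun c a' x y => by
    by_cases ha : a' = a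
    · subst ha
      rw [if_pos rfl, sum_eq_single i₀ (fun i _ hi => by simp [hd, hi]) (by simp)]
      simp [hd]
    · simp [hd, ha]
  have hK : ∀ c : ℝ, |c| = 1 → KerBd (d c) v 1 1 := fun c hc => by
    refine ⟨fun x => le_of_eq ?_, fun x => ?_, fun l x y => ?_⟩
    · rw [sum_eq_single a (fun a' _ ha => sum_eq_zero fun i _ => by simp [hd, ha]) (by simp),
        sum_eq_single i₀ (fun i _ hi => by simp [hd, hi]) (by simp)]
      simp [hd, ← sq_abs c, hc]
    · simp only [hdv, sum_ite_eq', mem_univ, if_true]; exact hsz c hc x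
    · simp only [lowKer, hdv]
      rw [sum_eq_single a (fun a' _ ha => by simp [ha]) (by simp)]
      split_ifs
      all_goals first
        | exact hsz c hc y
        | simp
  have hbc : ∀ c, BCoef (d c) := fun c => ⟨|c|, abs_nonneg c, fun a' i => ⟨measurable_const, fun x => by
    simp only [hd]; split_ifs <;> simp [abs_nonneg]⟩⟩
  have hH := gham_linB (k := k) D' s'
  have hexp : ∀ c : ℝ, |c| = 1 → cnd (stdG ι) μ (gham (k := k) D' s')
      (fun z _ => exp (c * z a i₀)) 0 (fun _ _ => 0) ≤ exp (1 / 2 + 2) := fun c hc => by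
    have h := cnd_exp_linZ_le (μ := μ) hbv (hbc c) h0m hB0' (hK c hc) zero_le_one (fun _ _ => 0)
    simp only [hlin, one_mul] at h
    rw [eH]
    exact h.trans (le_of_eq (by norm_num))
  have te : ∀ c : ℝ, Tame (gaussSize ι) fun (z : Fin k → ι → ℝ) (_ : X) => exp (c * z a i₀) := fun c =>
    (P157.Rsb.tame_mul_exp (hbc c) 1 (g := fun _ => 1) measurable_const (B := 1) (fun _ => by simp)).congr
      fun z x => by simp [hlin]
  have tz : Tame (gaussSize ι) fun (z : Fin k → ι → ℝ) (_ : X) => |z a i₀| := by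
    obtain ⟨hm, A, hA, h⟩ := tame_coord (X := X) a i₀
    exact ⟨continuous_abs.measurable.comp hm, A, hA, fun z x => by rw [abs_abs]; exact h z x⟩
  refine (cnd_mono hH tz ((te 1).add (te (-1))) (fun z x => ?_) 0 _).trans ?_
  · rcases abs_choice (z a i₀) with e | e <;> rw [e]
    · linarith [add_one_le_exp (1 * z a i₀), exp_pos (-1 * z a i₀)]
    · linarith [add_one_le_exp (-1 * z a i₀), exp_pos (1 * z a i₀)]
  · rw [cnd_add hH (te 1) (te (-1))]
    linarith [hexp 1 abs_one, hexp (-1) (by simp)]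

/-- `T` is Lipschitz in the amplitude. -/
theorem auxT_lip {b : ℝ} (hb0 : 0 ≤ b) (hb1 : b ≤ 1) :
    |auxT μ D s a i₀ b - auxT μ D s a i₀ 0| ≤ 6 * auxK * b := by
  set H := fun t => gham (k := k) (D.aux t) (auxS s a i₀ t) with hHdef
  set dH := fun t => gDer (k := k) (D.aux t) (auxS s a i₀ t) (oneDir a i₀) (fun _ => 0)
  set dom : (Fin k → ι → ℝ) → X → ℝ := fun z _ => |z a i₀| + 1
  have tφ : Tame (gaussSize ι) fun (_ : Fin k → ι → ℝ) x => D.v x i₀ := tame_v D i₀
  have b1 : ∀ x, |D.v x i₀| ≤ 1 := fun x => (h1 x).le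
  have tdom : Tame (gaussSize ι) dom := by
    obtain ⟨hm, A, hA, h⟩ := tame_coord (X := X) a i₀
    exact Tame.add ⟨continuous_abs.measurable.comp hm, A, hA, fun z x => by rw [abs_abs]; exact h z x⟩
      (Tame.of_bdd measurable_const (B := 1) fun _ _ => by simp)
  have t0 : Tame (gaussSize ι) fun (_ : Fin k → ι → ℝ) (_ : X) => (0 : ℝ) :=
    Tame.of_bdd measurable_const (B := 0) fun _ _ => by simp
  have tdH : ∀ t, Tame (gaussSize ι) (dH t) := fun t => tame_gDer _ _ _ bmeas_zero
  have hdom : ∀ t, |t| ≤ 1 → ∀ z x, |dH t z x| ≤ dom z x := fun t ht z x => by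
    simp only [dH, gDer, add_zero]
    rw [sum_oneDir a i₀ fun l i => z l i * (D.aux t).v x i
      - auxS s a i₀ t ((l : ℕ) + 1) i * (D.aux t).v x i ^ 2]
    simp only [auxS, lineAmp, FData.aux, FData.shift, oneDir, hs, and_self, if_true, zero_add, mul_one]
    refine (abs_sub _ _).trans (add_le_add ?_ ?_)
    · rw [abs_mul, h1 x, mul_one]
    · rw [abs_mul, abs_pow, h1 x, one_pow, mul_one]; exact ht
  have hH : ∀ t, LinB (gaussSize ι) (H t) := fun t => gham_linB _ _
  have F1 : ∀ t, Family (gaussSize ι) H (fun _ _ x => D.v x i₀) dH (fun _ _ _ => 0) t 1 := fun t =>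
    gfamily D s (oneDir a i₀) bmeas_zero tφ t
  have hdT : ∀ t ∈ Set.Icc 0 b, ∃ E, HasDerivAt (fun t => auxT μ D s a i₀ t) E t
      ∧ |E| ≤ 6 * auxK := by
    intro t ht
    have htb : |t| ≤ 1 := abs_le.2 ⟨by linarith [ht.1], ht.2.trans hb1⟩
    have hA : cnd (stdG ι) μ (H t) dom 0 (fun _ _ => 0) ≤ auxK := by
      obtain ⟨hm, A, hA, h⟩ := tame_coord (X := X) a i₀
      have tz : Tame (gaussSize ι) fun (z : Fin k → ι → ℝ) (_ : X) => |z a i₀| :=
        ⟨continuous_abs.measurable.comp hm, A, hA, fun z x => by rw [abs_abs]; exact h z x⟩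
      simp only [dom]
      rw [cnd_add (hH t) tz (Tame.of_bdd measurable_const (B := 1) fun _ _ => by simp),
        cnd_const (hH t), auxK]
      linarith [mean_abs_coord (μ := μ) D s a i₀ hs h1 htb]
    have hl : ∀ l ∈ Icc ((a : ℕ) + 1) k, ∃ E, HasDerivAt
        (fun t => gq μ k (D.aux t) (auxS s a i₀ t) i₀ l) E t ∧ |E| ≤ 6 * auxK := by
      intro l hl
      have hlk := (mem_Icc.1 hl).2
      set M : ℝ → (Fin k → ι → ℝ) → ℝ := fun t z => cnd (stdG ι) μ (H t) (fun _ x => D.v x i₀) l z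
      set dM : ℝ → (Fin k → ι → ℝ) → ℝ := fun t z =>
        cndDer (stdG ι) μ (H t) (fun _ x => D.v x i₀) (dH t) (fun _ _ => 0) l z
      set dφ : ℝ → (Fin k → ι → ℝ) → X → ℝ := fun t z _ => 2 * M t z * dM t z
      have hM1 : ∀ t z, |M t z| ≤ 1 := fun t z => cnd_abs_le (hH t) tφ.meas (fun _ x => b1 x) l z
      have hdM : ∀ t z, HasDerivAt (fun t => M t z) (dM t z) t := fun t z =>
        hasDerivAt_cnd (μ := μ) (F1 t) hlk z
      have hdMb : ∀ z, |dM t z| ≤ 2 * cnd (stdG ι) μ (H t) dom l z := fun z => by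
        have h := P157.Cube2.AuxF.abs_cndDer_le_dom (μ := μ) (hH t) tφ (tdH t) t0 tdom t0
          (fun _ x => b1 x) (hdom t htb) (fun _ _ => by simp) hlk z
        rwa [cnd_const (hH t), zero_add] at h
      have mdM : ∀ t, Measurable (dM t) := fun t => cndDer_measurable (hH t) tφ (tdH t) t0 l
      have mdφ : ∀ t, Measurable (Function.uncurry (dφ t)) := fun t =>
        (((P157.Rsb.cnd_regular (hH t) tφ l).1.const_mul 2).mul (mdM t)).comp measurable_fst
      have tM2 : ∀ t, Tame (gaussSize ι) fun z (_ : X) => M t z ^ 2 := fun t =>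
        ((cnd_tame (μ := μ) (hH t) tφ l).mul (cnd_tame (μ := μ) (hH t) tφ l)).congr
          fun _ _ => (pow_two _).symm
      obtain ⟨B, hB, hb⟩ := (F1 t).der_bound (μ := μ)
      obtain ⟨A, hA', hFb⟩ := (F1 t).bound
      have F2 : Family (gaussSize ι) H (fun t z _ => M t z ^ 2) dH dφ t 1 := by
        refine ⟨one_pos, fun t => (hH t).meas, fun t => (tdH t).meas, fun t => (tM2 t).meas, mdφ,
          ⟨A + 2 * B + 1, by positivity, fun u hu z x => ?_⟩, (F1 t).derivH, fun u _ z x => ?_⟩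
        · obtain ⟨p1, p2, -, -⟩ := hFb u hu z x
          obtain ⟨-, -, -, p4⟩ := hb u hu l hlk z
          have ht' := (gaussSize ι).tot_nonneg z
          set tt := (gaussSize ι).tot z
          set A' := A + 2 * B + 1
          have mono : ∀ {c : ℝ}, 0 ≤ c → c ≤ A' → c * exp (c * tt) ≤ A' * exp (A' * tt) := fun hc hcA =>
            mul_le_mul hcA (exp_le_exp.2 (mul_le_mul_of_nonneg_right hcA ht')) (exp_pos _).le (hc.trans hcA)
          refine ⟨p1.trans (mul_le_mul_of_nonneg_right (by simp only [A']; linarith) (by linarith)),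
            p2.trans (mono hA' (by simp only [A']; linarith)), ?_, ?_⟩
          · rw [abs_pow]
            exact (pow_le_one₀ (abs_nonneg _) (hM1 u z)).trans
              (one_le_mul_of_one_le_of_one_le (by simp only [A']; linarith) (one_le_exp (by positivity)))
          · rw [show dφ u z x = 2 * M u z * dM u z from rfl, abs_mul, abs_mul, abs_two]
            calc 2 * |M u z| * |dM u z| ≤ 2 * (B * exp (B * tt)) :=
                  mul_le_mul (mul_le_of_le_one_right two_pos.le (hM1 u z)) p4 (abs_nonneg _) two_pos.le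
              _ ≤ 2 * B * exp (2 * B * tt) := by
                  rw [← mul_assoc]; gcongr; linarith
              _ ≤ _ := mono (by positivity) (by simp only [A']; linarith)
        · exact ((hdM u z).fun_pow 2).congr_deriv (by simp [dφ])
      refine ⟨_, hasDerivAt_cnd (μ := μ) F2 (Nat.zero_le k) _, ?_⟩
      have tz' := cnd_tame (μ := μ) (hH t) tdom l
      have h := P157.Cube2.AuxF.abs_cndDer_le_dom (μ := μ) (hH t) (tM2 t) (tdH t) (F2.tames (s := t) (by simp)).2.2
        tdom (tz'.const_mul 4)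
        (fun z _ => by rw [abs_pow]; exact pow_le_one₀ (abs_nonneg _) (hM1 t z))
        (hdom t htb)
        (fun z x => by
          rw [show dφ t z x = 2 * M t z * dM t z from rfl, abs_mul, abs_mul, abs_two]
          calc 2 * |M t z| * |dM t z| ≤ 2 * (2 * cnd (stdG ι) μ (H t) dom l z) :=
                mul_le_mul (mul_le_of_le_one_right two_pos.le (hM1 t z)) (hdMb z)
                  (abs_nonneg _) two_pos.le
            _ = _ := by ring) (Nat.zero_le k) (fun _ _ => 0)
      rw [cnd_const_mul, cnd_tower (hH t) (Nat.zero_le l)] at h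
      refine h.trans ?_
      linarith
    choose! E hE using hl
    refine ⟨mass k * ∑ l ∈ Icc ((a : ℕ) + 1) k, E l,
      (HasDerivAt.fun_sum fun l hl => (hE l hl).1).const_mul _, ?_⟩
    rw [abs_mul, abs_of_pos mass_pos]
    exact (mul_le_mul_of_nonneg_left (abs_sum_le_sum_abs _ _) mass_pos.le).trans
      (mass_sum_le (fun l hl => mem_Icc.2 ⟨Nat.zero_le _, (mem_Icc.1 hl).2⟩)
        (mul_nonneg (by norm_num) auxK_nonneg) fun l hl => (hE l hl).2)
  choose! E hE using hdT
  have h := Convex.norm_image_sub_le_of_norm_hasDerivWithin_le (f := fun t => auxT μ D s a i₀ t) (f' := E)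
    (fun t ht => (hE t ht).1.hasDerivWithinAt) (fun t ht => (hE t ht).2) (convex_Icc 0 b)
    (Set.left_mem_Icc.2 hb0) (Set.right_mem_Icc.2 hb0)
  simpa [abs_of_nonneg hb0] using h

/-- The expansion of the root in the amplitude. -/
theorem gval_aux_expand {b : ℝ} (hb0 : 0 ≤ b) (hb1 : b ≤ 1) :
    |val (stdG ι) μ (gham (k := k) (D.aux b) (auxS s a i₀ b)) 0 (fun _ _ => 0)
        - val (stdG ι) μ (gham (k := k) D s) 0 (fun _ _ => 0)
        + b ^ 2 / 2 * gtail μ k D s i₀ ((a : ℕ) + 1)| ≤ 6 * auxK * b ^ 3 := by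
  have e0 : gham (k := k) (D.aux 0) (auxS s a i₀ 0) = gham D s := by
    funext z x; simp [gham, FData.aux, FData.shift, auxS, lineAmp]
  have eT : auxT μ D s a i₀ 0 = gtail μ k D s i₀ ((a : ℕ) + 1) := by
    simp only [auxT, gtail, gq, groot, gmv, e0]
    rfl
  set ψ := fun t => val (stdG ι) μ (gham (k := k) (D.aux t) (auxS s a i₀ t)) 0 (fun _ _ => 0)
    + t ^ 2 / 2 * auxT μ D s a i₀ 0
  have hd : ∀ t, HasDerivAt ψ (t * (auxT μ D s a i₀ 0 - auxT μ D s a i₀ t)) t := fun t =>
    ((gval_aux_deriv (μ := μ) D s a i₀ hs t).add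
      ((((hasDerivAt_id t).fun_pow 2).div_const 2).mul_const (auxT μ D s a i₀ 0))).congr_deriv
      (by simp; ring)
  have hK := auxK_nonneg
  have h := Convex.norm_image_sub_le_of_norm_hasDerivWithin_le (f := ψ) (C := 6 * auxK * b ^ 2)
    (fun t _ => (hd t).hasDerivWithinAt) (fun t ht => by
      rw [Real.norm_eq_abs, abs_mul, abs_of_nonneg ht.1, abs_sub_comm]
      calc t * |auxT μ D s a i₀ t - auxT μ D s a i₀ 0| ≤ b * (6 * auxK * b) :=
            mul_le_mul ht.2 ((auxT_lip (μ := μ) D s a i₀ hs h1 ht.1 (ht.2.trans hb1)).trans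
              (mul_le_mul_of_nonneg_left ht.2 (by positivity))) (abs_nonneg _) hb0
        _ = _ := by ring) (convex_Icc 0 b) (Set.left_mem_Icc.2 hb0) (Set.right_mem_Icc.2 hb0)
  simp only [ψ, sub_zero, Real.norm_eq_abs, abs_of_nonneg hb0] at h
  rw [show (0 : ℝ) ^ 2 / 2 * auxT μ D s a i₀ 0 = 0 by ring, add_zero, e0, eT] at h
  rw [show 6 * auxK * b ^ 3 = 6 * auxK * b ^ 2 * b by ring,
    sub_add_eq_add_sub]
  exact h

end Vale.Agent.P166.Rsb
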