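import Vale.Agent.P166.Rsb.FormulaConvex

/-!
# P166: the derivative of `x R(x)` is Lipschitz on `x ≥ 0`
-/

open Real Finset

namespace Vale.Agent.P166.Rsb

variable {p : ℕ} {a w : Fin p → ℝ}

/-- The derivative of `hB` on `x ≥ 0`, from the right at zero. -/
noncomputable def dh0 (a w : Fin p → ℝ) (x : ℝ) : ℝ :=
  if 0 < x then dhA a w x else meanA a w

namespace IsSpec

theorem kA_sq_le (hw : IsSpec w) (c : Fin p) (x : ℝ) :
    kA a w c x ^ 2 ≤ (∑ e, 1 / w e) * ∑ e, w e * kA a w e x ^ 2 := by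
  have h1 : w c * kA a w c x ^ 2 ≤ ∑ e, w e * kA a w e x ^ 2 :=
    single_le_sum (f := fun e => w e * kA a w e x ^ 2)
      (fun e _ => mul_nonneg (hw.1 e).le (sq_nonneg _)) (mem_univ c)
  have h2 : 1 / w c ≤ ∑ e, 1 / w e :=
    single_le_sum (f := fun e => 1 / w e) (fun e _ => (one_div_pos.2 (hw.1 e)).le) (mem_univ c)
  calc kA a w c x ^ 2 = 1 / w c * (w c * kA a w c x ^ 2) := by
        have := (hw.1 c).ne'; field_simp
    _ ≤ _ := mul_le_mul h2 h1 (mul_nonneg (hw.1 c).le (sq_nonneg _))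
        (sum_nonneg fun e _ => (one_div_pos.2 (hw.1 e)).le)

theorem mul_kA_le (hw : IsSpec w) (c d : Fin p) (x : ℝ) :
    kA a w c x * kA a w d x ≤ (∑ e, 1 / w e) * ∑ e, w e * kA a w e x ^ 2 := by
  linarith [hw.kA_sq_le (a := a) c x, hw.kA_sq_le (a := a) d x,
    two_mul_le_add_sq (kA a w c x) (kA a w d x)]

theorem wk_sq_le (hw : IsSpec w) (c : Fin p) (x : ℝ) :
    w c * kA a w c x ^ 2 ≤ ∑ e, w e * kA a w e x ^ 2 :=
  single_le_sum (f := fun e => w e * kA a w e x ^ 2)
    (fun e _ => mul_nonneg (hw.1 e).le (sq_nonneg _)) (mem_univ c)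

theorem dh0_mono (hw : IsSpec w) {x y : ℝ} (hxy : x ≤ y) : dh0 a w x ≤ dh0 a w y := by
  simp only [dh0]
  by_cases hx : 0 < x
  · rw [if_pos hx, if_pos (hx.trans_le hxy)]; exact hw.dhA_mono hx hxy
  · rw [if_neg hx]
    split_ifs with hy
    · rw [dhA, le_div_iff₀ (hw.sum_kA_sq_pos hy)]
      have := cheb (f := a) (u := w) (v := fun c => w c * kA a w c y ^ 2) fun c d => by
        refine le_of_le_of_eq (mul_nonneg (mul_pos (hw.1 c) (hw.1 d)).le
          (?_ : 0 ≤ (a c - a d) * (kA a w c y ^ 2 - kA a w d y ^ 2))) (by ring)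
        have e : (a c - a d) * (kA a w c y ^ 2 - kA a w d y ^ 2) = (a c - a d) ^ 2 *
            (kA a w c y * kA a w d y * (kA a w c y + kA a w d y)) := by
          have := hw.kA_swap (a := a) c d y
          linear_combination (-(a c - a d) * (kA a w c y + kA a w d y)) * this
        rw [e]
        exact mul_nonneg (sq_nonneg _) (mul_nonneg (mul_nonneg (hw.kA_nonneg c y) (hw.kA_nonneg d y))
          (add_nonneg (hw.kA_nonneg c y) (hw.kA_nonneg d y)))
      rw [hw.2, mul_one] at this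
      simp only [← mul_assoc, mul_comm (a _) (w _)] at this
      exact this
    · exact le_rfl

theorem abs_dh0_le (hw : IsSpec w) {A : ℝ} (hB : ∀ c, |a c| ≤ A) (x : ℝ) : |dh0 a w x| ≤ A := by
  rw [dh0]
  split_ifs with hx
  · exact hw.abs_dhA_le hB hx
  · calc |meanA a w| ≤ ∑ c, |w c * a c| := abs_sum_le_sum_abs _ _
      _ ≤ ∑ c, w c * A := sum_le_sum fun c _ => by
          rw [abs_mul, abs_of_pos (hw.1 c)]; exact mul_le_mul_of_nonneg_left (hB c) (hw.1 c).le
      _ = A := by rw [← sum_mul, hw.2, one_mul]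

theorem abs_hA_sub_le (hw : IsSpec w) {A : ℝ} (hB : ∀ c, |a c| ≤ A) {x y : ℝ} (hx : 0 ≤ x)
    (hxy : x ≤ y) : |hA a w y - hA a w x| ≤ A * (y - x) := by
  rcases hxy.eq_or_lt with rfl | hlt
  · simp
  obtain ⟨c, hc, hd⟩ := exists_hasDerivAt_eq_slope (hA a w) (dhA a w) hlt
    hw.continuous_hA.continuousOn fun z hz => hw.hasDerivAt_hA (hx.trans_lt hz.1)
  have h := hw.abs_dhA_le hB (hx.trans_lt hc.1)
  rw [hd, abs_div, abs_of_pos (sub_pos.2 hlt), div_le_iff₀ (sub_pos.2 hlt)] at h
  exact h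

theorem exists_dh0_lip (hw : IsSpec w) (a : Fin p → ℝ) :
    ∃ L, 0 ≤ L ∧ ∀ x y, 0 ≤ x → x ≤ y → dh0 a w y - dh0 a w x ≤ L * (y - x) := by
  set A := ∑ c, |a c| with hB'
  have hB : ∀ c, |a c| ≤ A := fun c => single_le_sum (f := fun c => |a c|)
    (fun _ _ => abs_nonneg _) (mem_univ c)
  have hA0 : 0 ≤ A := sum_nonneg fun _ _ => abs_nonneg _
  set S := ∑ e, 1 / w e with hS'
  have hS : 0 ≤ S := sum_nonneg fun e _ => (one_div_pos.2 (hw.1 e)).le
  have hgap : ∀ c d, (a c - a d) ^ 2 ≤ 4 * A ^ 2 := fun c d => by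
    have h := abs_le.1 (hB c); have h' := abs_le.1 (hB d)
    refine (sq_le_sq' (a := a c - a d) (b := 2 * A) (by linarith) (by linarith)).trans (le_of_eq ?_)
    ring
  have hp : ∀ T : Fin p → Fin p → ℝ, ∀ B : ℝ, (∀ c d, T c d ≤ B) →
      ∑ c, ∑ d, T c d ≤ (p : ℝ) ^ 2 * B := fun T B h => by
    refine (sum_le_sum fun c _ => sum_le_sum fun d _ => h c d).trans (le_of_eq ?_)
    simp [pow_two, mul_assoc]
  refine ⟨4 * A ^ 2 * (p : ℝ) ^ 2 * (S + 1), by positivity, fun x y hx hxy => ?_⟩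
  rcases hx.eq_or_lt with rfl | hx
  · rcases hxy.eq_or_lt with rfl | hy
    · simp
    simp only [dh0, if_neg (lt_irrefl (0 : ℝ)), if_pos hy, sub_zero]
    set D := ∑ c, w c * kA a w c y ^ 2 with hD
    have hD0 := hw.sum_kA_sq_pos (a := a) hy
    have e := cheb_eq a w (fun c => w c * kA a w c y ^ 2)
    rw [hw.2, mul_one] at e
    have hb : ∀ c d, (a c - a d) * (w c * kA a w c y ^ 2 * w d - w c * (w d * kA a w d y ^ 2)) ≤
        8 * A ^ 2 * (D * y) := fun c d => by
      have t1 : w c * kA a w c y * (w d * kA a w d y ^ 2) ≤ y * D := mul_le_mul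
        (by have := hw.kA_le (a := a) c hy.le
            rw [le_div_iff₀ (hw.1 c)] at this; linarith)
        (hw.wk_sq_le d y) (mul_nonneg (hw.1 d).le (sq_nonneg _)) hy.le
      have t2 : w d * kA a w d y * (w c * kA a w c y ^ 2) ≤ y * D := mul_le_mul
        (by have := hw.kA_le (a := a) d hy.le
            rw [le_div_iff₀ (hw.1 d)] at this; linarith)
        (hw.wk_sq_le c y) (mul_nonneg (hw.1 c).le (sq_nonneg _)) hy.le
      have e1 : (a c - a d) * (w c * kA a w c y ^ 2 * w d - w c * (w d * kA a w d y ^ 2)) =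
          (a c - a d) ^ 2 * (w c * kA a w c y * (w d * kA a w d y ^ 2)
            + w d * kA a w d y * (w c * kA a w c y ^ 2)) := by
        have := hw.kA_swap (a := a) c d y
        linear_combination (-(a c - a d) * (w c * w d) * (kA a w c y + kA a w d y)) * this
      rw [e1]
      have t0 : 0 ≤ w c * kA a w c y * (w d * kA a w d y ^ 2)
          + w d * kA a w d y * (w c * kA a w c y ^ 2) :=
        add_nonneg (mul_nonneg (mul_nonneg (hw.1 c).le (hw.kA_nonneg c y))
            (mul_nonneg (hw.1 d).le (sq_nonneg _)))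
          (mul_nonneg (mul_nonneg (hw.1 d).le (hw.kA_nonneg d y))
            (mul_nonneg (hw.1 c).le (sq_nonneg _)))
      refine (mul_le_mul (hgap c d) (add_le_add t1 t2) t0 (by positivity)).trans (le_of_eq ?_)
      ring
    have h := hp _ _ hb
    rw [e] at h
    have e2 : ∑ c, a c * (w c * kA a w c y ^ 2) = ∑ c, w c * a c * kA a w c y ^ 2 :=
      sum_congr rfl fun c _ => by ring
    have e3 : ∑ c, a c * w c = meanA a w := sum_congr rfl fun c _ => mul_comm _ _
    rw [e2, e3, ← hD] at h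
    have h2 : dhA a w y - meanA a w ≤ 4 * A ^ 2 * (p : ℝ) ^ 2 * y := by
      rw [dhA, ← hD, div_sub' hD0.ne', div_le_iff₀ hD0]
      linarith [mul_comm (meanA a w) D]
    refine h2.trans (mul_le_mul_of_nonneg_right (le_mul_of_one_le_right (by positivity) ?_) hy.le)
    linarith
  · have hy := hx.trans_le hxy
    simp only [dh0, if_pos hx, if_pos hy]
    set D1 := ∑ c, w c * kA a w c x ^ 2 with hD1
    set D2 := ∑ c, w c * kA a w c y ^ 2 with hD2
    have p1 := hw.sum_kA_sq_pos (a := a) hx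
    have p2 := hw.sum_kA_sq_pos (a := a) hy
    have e := cheb_eq a (fun c => w c * kA a w c x ^ 2) (fun c => w c * kA a w c y ^ 2)
    have hb : ∀ c d, (a c - a d) * (w c * kA a w c y ^ 2 * (w d * kA a w d x ^ 2)
        - w c * kA a w c x ^ 2 * (w d * kA a w d y ^ 2)) ≤
        8 * A ^ 2 * S * (D1 * D2 * (y - x)) := fun c d => by
      set k := fun e => kA a w e x with hk
      set l := fun e => kA a w e y with hl
      have hn : ∀ e, 0 ≤ k e ∧ 0 ≤ l e := fun e => ⟨hw.kA_nonneg e x, hw.kA_nonneg e y⟩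
      have hz : (zA a w x - zA a w y) * (w c * (k c * l c)) ≤ y - x := by
        rw [hw.sub_eq_zA_mul (a := a) hx hy]
        exact mul_le_mul_of_nonneg_left (single_le_sum (f := fun e => w e * (k e * l e))
          (fun e _ => mul_nonneg (hw.1 e).le (mul_nonneg (hn e).1 (hn e).2)) (mem_univ c))
          (sub_nonneg.2 (hw.zA_anti hx hxy))
      have e1 : (a c - a d) * (w c * l c ^ 2 * (w d * k d ^ 2) - w c * k c ^ 2 * (w d * l d ^ 2)) =
          (a c - a d) ^ 2 * ((zA a w x - zA a w y) * (w c * (k c * l c))) *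
            (w d * k d ^ 2 * (l d * l c) + w d * l d ^ 2 * (k c * k d)) := by
        have g1 := hw.kA_sub (a := a) hx hy c
        have g2 := hw.kA_sub (a := a) hx hy d
        have g3 := hw.kA_swap (a := a) c d x
        have h4 : l c * k d - k c * l d =
            (a c - a d) * (zA a w x - zA a w y) * (k c * l c * (k d * l d)) := by
          linear_combination k d * g1 - k c * g2
            + (zA a w x - zA a w y) * (k d * k c) * (hw.kA_swap (a := a) c d y) * (-1)
        linear_combination ((a c - a d) * (w c * w d) * (l c * k d + k c * l d)) * h4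
      rw [e1]
      have hab : w d * k d ^ 2 * (l d * l c) + w d * l d ^ 2 * (k c * k d) ≤ 2 * S * (D1 * D2) := by
        have a1 := mul_le_mul (hw.wk_sq_le (a := a) d x) (hw.mul_kA_le (a := a) d c y)
          (mul_nonneg (hn d).2 (hn c).2) p1.le
        have a2 := mul_le_mul (hw.wk_sq_le (a := a) d y) (hw.mul_kA_le (a := a) c d x)
          (mul_nonneg (hn c).1 (hn d).1) p2.le
        refine (add_le_add a1 a2).trans (le_of_eq ?_)
        ring
      have n1 : 0 ≤ (zA a w x - zA a w y) * (w c * (k c * l c)) :=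
        mul_nonneg (sub_nonneg.2 (hw.zA_anti hx hxy))
          (mul_nonneg (hw.1 c).le (mul_nonneg (hn c).1 (hn c).2))
      have n2 : 0 ≤ w d * k d ^ 2 * (l d * l c) + w d * l d ^ 2 * (k c * k d) := add_nonneg
        (mul_nonneg (mul_nonneg (hw.1 d).le (sq_nonneg _)) (mul_nonneg (hn d).2 (hn c).2))
        (mul_nonneg (mul_nonneg (hw.1 d).le (sq_nonneg _)) (mul_nonneg (hn c).1 (hn d).1))
      refine (mul_le_mul (mul_le_mul (hgap c d) hz n1 (by positivity)) hab n2
        (mul_nonneg (by positivity) (sub_nonneg.2 hxy))).trans (le_of_eq ?_)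
      ring
    have h := hp _ _ hb
    rw [e] at h
    have e2 : ∀ u, ∑ c, a c * (w c * kA a w c u ^ 2) = ∑ c, w c * a c * kA a w c u ^ 2 := fun u =>
      sum_congr rfl fun c _ => by ring
    rw [e2, e2, ← hD1, ← hD2] at h
    have h2 : dhA a w y - dhA a w x ≤ 4 * A ^ 2 * (p : ℝ) ^ 2 * S * (y - x) := by
      rw [dhA, dhA, ← hD1, ← hD2, div_sub_div _ _ p2.ne' p1.ne', div_le_iff₀ (mul_pos p2 p1)]
      linarith
    refine h2.trans (mul_le_mul_of_nonneg_right ?_ (sub_nonneg.2 hxy))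
    exact mul_le_mul_of_nonneg_left (by linarith) (by positivity)

end IsSpec

end Vale.Agent.P166.Rsb
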