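import Vale.Agent.P166.Rsb.Pins
import Vale.Agent.P166.Rsb.FormulaBridge
import Vale.Agent.P166.Rsb.FormulaPath
import Vale.Agent.P166.Rsb.FormulaLip

/-!
# P166 module A: `formulaStmt`
-/

open Real Finset Filter Topology
open Vale.Agent.P157.Rsb (lev vOf IsPath tail)

namespace Vale.Agent.P166.Rsb

namespace Atoms

variable {d k : ℕ} (A : Atoms d)

theorem eAt_eq (β : ℝ) (k : ℕ) (q : ℕ → ℝ) :
    A.eAt β k q = comb k q (fun v => hA A.a A.w (β * v)) / (2 * β) := by
  simp only [eAt, A.hOf_eq]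

theorem eng_eq (β : ℝ) (k : ℕ) (q : ℕ → ℝ) :
    eng A.law A.top β k q = comb k q fun v => gA A.a A.w (β * v) := by
  simp only [eng, A.gSph_law]

/-- Larger tails give a smaller derivative, uniformly in the number of levels. -/
theorem comb_hA_le {L β e : ℝ} (hL0 : 0 ≤ L)
    (hL : ∀ x y, 0 ≤ x → x ≤ y → dh0 A.a A.w y - dh0 A.a A.w x ≤ L * (y - x)) (hβ : 0 ≤ β)
    (he : 0 ≤ e) {q q' : ℕ → ℝ} (hq : IsPath k q) (hq' : IsPath k q')
    (ht : ∀ j ∈ Icc 1 k, tail k q j ≤ tail k q' j + e) :
    comb k q' (fun v => hA A.a A.w (β * v))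
      ≤ comb k q (fun v => hA A.a A.w (β * v)) + β ^ 2 * L * e := by
  have hw := A.isSpec
  set h := hA A.a A.w with hh
  set u : ℕ → ℝ → ℝ := fun j s => β * (vOf k q j + s * (vOf k q' j - vOf k q j)) with hu
  set F : ℝ → ℝ := fun s => h (u k s) + ∑ i ∈ range k, (h (u i s) - h (u (i + 1) s)) / lev k (i + 1)
    with hF
  have hu0 : ∀ j, ∀ s ∈ Set.Icc (0 : ℝ) 1, 0 ≤ u j s := fun j s hs => by
    refine mul_nonneg hβ ?_
    have := mul_nonneg (sub_nonneg.2 hs.2) (vOf_nonneg hq j)
    have := mul_nonneg hs.1 (vOf_nonneg hq' j)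
    linarith
  set D : ℕ → ℝ → ℝ := fun j s => dh0 A.a A.w (u j s) with hD
  have hd : ∀ j, ∀ s ∈ Set.Ioo (0 : ℝ) 1,
      HasDerivAt (fun t => h (u j t)) (D j s * (β * (vOf k q' j - vOf k q j))) s := fun j s hs => by
    by_cases hp : 0 < u j s
    · have h1 : HasDerivAt (u j) (β * (vOf k q' j - vOf k q j)) s := by
        simpa [hu] using (((hasDerivAt_id s).mul_const (vOf k q' j - vOf k q j)).const_add
          (vOf k q j)).const_mul β
      simp only [hD, dh0, if_pos hp]
      exact (hw.hasDerivAt_hA hp).comp s h1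
    · have h1 : β * vOf k q j = 0 ∧ β * vOf k q' j = 0 := by
        have a1 := mul_nonneg hβ (vOf_nonneg hq j)
        have a2 := mul_nonneg hβ (vOf_nonneg hq' j)
        have e0 : (1 - s) * (β * vOf k q j) + s * (β * vOf k q' j) ≤ 0 := by
          have e1 : u j s ≤ 0 := not_lt.1 hp
          simp only [hu] at e1
          linarith
        have b1 := mul_nonneg (sub_nonneg.2 hs.2.le) a1
        have b2 := mul_nonneg hs.1.le a2
        exact ⟨le_antisymm (le_of_mul_le_mul_left (by linarith : (1 - s) * (β * vOf k q j) ≤ (1 - s) * 0)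
            (sub_pos.2 hs.2)) a1,
          le_antisymm (le_of_mul_le_mul_left (by linarith : s * (β * vOf k q' j) ≤ s * 0) hs.1) a2⟩
      have e2 : β * (vOf k q' j - vOf k q j) = 0 := by rw [mul_sub, h1.1, h1.2, sub_zero]
      have e3 : (fun t => h (u j t)) = fun _ => h 0 := funext fun t => by
        simp only [hu]
        congr 1
        linear_combination h1.1 + t * e2
      rw [e2, mul_zero, e3]
      exact hasDerivAt_const _ _
  set F' : ℝ → ℝ := fun s => D k s * (β * (vOf k q' k - vOf k q k)) + ∑ i ∈ range k,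
    (D i s * (β * (vOf k q' i - vOf k q i)) - D (i + 1) s * (β * (vOf k q' (i + 1) - vOf k q (i + 1))))
      / lev k (i + 1) with hF'
  have hFd : ∀ s ∈ Set.Ioo (0 : ℝ) 1, HasDerivAt F (F' s) s := fun s hs =>
    (hd k s hs).add (HasDerivAt.fun_sum fun i _ =>
      (((hd i s hs).sub (hd (i + 1) s hs)).div_const _))
  have hcu : ∀ j, Continuous fun t => h (u j t) := fun j => hw.continuous_hA.comp (by simp only [hu]; fun_prop)
  have hFc : Continuous F := (hcu k).add (continuous_finsetSum _ fun i _ =>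
    ((hcu i).sub (hcu (i + 1))).div_const _)
  obtain ⟨s, hs, hslope⟩ := exists_hasDerivAt_eq_slope F F' zero_lt_one hFc.continuousOn hFd
  rw [sub_zero, div_one] at hslope
  have h0 : F 0 = comb k q fun v => h (β * v) := by simp [hF, hu, comb]
  have h1 : F 1 = comb k q' fun v => h (β * v) := by simp [hF, hu, comb]
  have key : F' s ≤ β ^ 2 * L * e := by
    have e1 : F' s = β * -∑ i ∈ range k, (D i s - D (i + 1) s) / lev k (i + 1) *
        (tail k q' (i + 1) - tail k q (i + 1)) := by
      rw [← comb_delta (hq.1.trans hq'.1.symm) fun j => D j s, mul_add, mul_sum]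
      simp only [hF']
      congr 1
      · ring
      · exact sum_congr rfl fun i _ => by ring
    set qs : ℕ → ℝ := fun j => q j + s * (q' j - q j) with hqs
    have hus : ∀ i < k, u i s = u (i + 1) s + β * (lev k (i + 1) * (qs (i + 1) - qs i)) := fun i hi => by
      simp only [hu, hqs, vOf_step (q := q) hi, vOf_step (q := q') hi]
      ring
    have hstep : ∀ i < k, 0 ≤ qs (i + 1) - qs i := fun i hi => by
      have a1 := mul_nonneg (sub_nonneg.2 hs.2.le) (sub_nonneg.2 (hq.2.1 i hi))
      have a2 := mul_nonneg hs.1.le (sub_nonneg.2 (hq'.2.1 i hi))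
      simp only [hqs]
      linarith
    have hG : ∀ i < k, 0 ≤ (D i s - D (i + 1) s) / lev k (i + 1) ∧
        (D i s - D (i + 1) s) / lev k (i + 1) ≤ L * β * (qs (i + 1) - qs i) := fun i hi => by
      have hle : u (i + 1) s ≤ u i s := by
        rw [hus i hi]
        exact le_add_of_nonneg_right (mul_nonneg hβ (mul_nonneg (lev_pos' k i).le (hstep i hi)))
      refine ⟨div_nonneg (sub_nonneg.2 (hw.dh0_mono hle)) (lev_pos' k i).le, ?_⟩
      rw [div_le_iff₀ (lev_pos' k i)]
      refine (hL _ _ (hu0 (i + 1) s (Set.Ioo_subset_Icc_self hs)) hle).trans (le_of_eq ?_)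
      rw [hus i hi]; ring
    have hsum : -∑ i ∈ range k, (D i s - D (i + 1) s) / lev k (i + 1) *
        (tail k q' (i + 1) - tail k q (i + 1)) ≤ L * β * e := by
      rw [← sum_neg_distrib]
      calc _ ≤ ∑ i ∈ range k, L * β * (qs (i + 1) - qs i) * e := sum_le_sum fun i hi => by
            have hi := mem_range.1 hi
            have := ht (i + 1) (mem_Icc.2 ⟨by omega, by omega⟩)
            rw [← mul_neg]
            exact (mul_le_mul_of_nonneg_left (by linarith) (hG i hi).1).trans
              (mul_le_mul_of_nonneg_right (hG i hi).2 he)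
        _ ≤ L * β * e := by
            rw [← sum_mul, ← mul_sum, sum_range_sub qs]
            refine mul_le_mul_of_nonneg_right (mul_le_of_le_one_right (mul_nonneg hL0 hβ) ?_) he
            have a1 := mul_le_mul_of_nonneg_left hq.2.2 (sub_nonneg.2 hs.2.le)
            have a2 := mul_le_mul_of_nonneg_left hq'.2.2 hs.1.le
            simp only [hqs, hq.1, hq'.1]
            linarith
    rw [e1]
    exact (mul_le_mul_of_nonneg_left hsum hβ).trans (le_of_eq (by ring))
  linarith [h0, h1]

theorem abs_eAt_le {β : ℝ} (hβ : 0 < β) {q : ℕ → ℝ} (hq : IsPath k q) :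
    |A.eAt β k q| ≤ (∑ c, |A.a c|) / 2 := by
  rw [eAt_eq, abs_div, abs_of_pos (show 0 < 2 * β by positivity), div_le_iff₀ (by positivity)]
  refine (abs_comb_le (C := (∑ c, |A.a c|) * β) hq (by simp [IsSpec.hA_zero]) fun x y hx hxy _ => ?_).trans
    (le_of_eq (by ring))
  refine (A.isSpec.abs_hA_sub_le (fun c => single_le_sum (f := fun c => |A.a c|)
    (fun _ _ => abs_nonneg _) (mem_univ c)) (mul_nonneg hβ.le hx)
    (mul_le_mul_of_nonneg_left hxy hβ.le)).trans (le_of_eq (by ring))

theorem hasDerivAt_gA_mul {β v : ℝ} (hβ : 0 < β) (hv : 0 ≤ v) :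
    HasDerivAt (fun t => gA A.a A.w (t * v)) (hA A.a A.w (β * v) / (2 * β)) β := by
  rcases hv.eq_or_lt with rfl | hv
  · simp only [mul_zero, IsSpec.hA_zero A.a A.w le_rfl, zero_div]
    exact hasDerivAt_const _ _
  · have h := (A.isSpec.hasDerivAt_gA (a := A.a) (mul_pos hβ hv)).comp β
      ((hasDerivAt_id β).mul_const v)
    refine h.congr_deriv ?_
    rw [A.isSpec.hA_eq_mul_rA (mul_nonneg hβ.le hv.le)]
    field_simp

theorem hasDerivAt_eng {β : ℝ} (hβ : 0 < β) {q : ℕ → ℝ} (hq : IsPath k q) :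
    HasDerivAt (fun t => eng A.law A.top t k q) (A.eAt β k q) β := by
  simp only [eng_eq, eAt_eq, comb]
  refine ((A.hasDerivAt_gA_mul hβ (vOf_nonneg hq k)).add (HasDerivAt.fun_sum fun i _ =>
    (((A.hasDerivAt_gA_mul hβ (vOf_nonneg hq i)).sub
      (A.hasDerivAt_gA_mul hβ (vOf_nonneg hq (i + 1)))).div_const (lev k (i + 1))))).congr_deriv ?_
  rw [add_div, sum_div]
  exact congrArg _ (sum_congr rfl fun i _ => by ring)

theorem continuousAt_eAt {β : ℝ} (hβ : 0 < β) (k : ℕ) (q : ℕ → ℝ) :
    ContinuousAt (fun t => A.eAt t k q) β := by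
  have hc : ∀ v, Continuous fun t => hA A.a A.w (t * v) := fun v =>
    A.isSpec.continuous_hA.comp (continuous_id.mul continuous_const)
  simp only [eAt_eq, comb]
  exact ((hc _).add (continuous_finsetSum _ fun i _ => ((hc _).sub (hc _)).div_const _)).continuousAt.div
    (by fun_prop) (by positivity)

theorem continuousOn_eng {q : ℕ → ℝ} (hq : IsPath k q) :
    ContinuousOn (fun t => eng A.law A.top t k q) (Set.Ici 0) := by
  have hc : ∀ i, ContinuousOn (fun t => gA A.a A.w (t * vOf k q i)) (Set.Ici 0) := fun i =>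
    A.isSpec.continuousOn_gA.comp (continuousOn_id.mul continuousOn_const) fun t ht =>
      Set.mem_Ici.2 (mul_nonneg ht (vOf_nonneg hq i))
  simp only [eng_eq, comb]
  exact (hc k).add (continuousOn_finsetSum _ fun i _ => ((hc i).sub (hc (i + 1))).div_const _)

end Atoms

/-- Module A. -/
theorem formulaStmt : FormulaStmt := by
  intro d A
  obtain ⟨L, hL0, hL⟩ := A.isSpec.exists_dh0_lip A.a
  have hle : ∀ (k : ℕ) (β e : ℝ) (q q' : ℕ → ℝ), 0 < β → 0 ≤ e → IsPath k q → IsPath k q' →
      (∀ j ∈ Icc 1 k, tail k q j ≤ tail k q' j + e) →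
        A.eAt β k q' ≤ A.eAt β k q + β * L / 2 * e := fun k β e q q' hβ he hq hq' ht => by
    have h := A.comb_hA_le hL0 hL hβ.le he hq hq' ht
    rw [A.eAt_eq, A.eAt_eq]
    refine (div_le_div_of_nonneg_right h (by positivity)).trans (le_of_eq ?_)
    field_simp
  refine ⟨fun k β q q' hβ hq hq' ht => ?_, fun B hB => ⟨max (B * L / 2) ((∑ c, |A.a c|) / 2),
    le_max_of_le_left (by positivity), fun k β q q' hβ hβB hq hq' => ⟨fun e he ht => ?_, ?_⟩⟩,
    fun k β q hβ hq => ⟨A.hasDerivAt_eng hβ hq, A.continuousAt_eAt hβ k q⟩,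
    fun k q hq => ⟨?_, A.continuousOn_eng hq⟩⟩
  · exact (hle k β 0 q q' hβ le_rfl hq hq' fun j hj => by linarith [ht j hj]).trans (by simp)
  · refine (hle k β e q q' hβ he hq hq' ht).trans (add_le_add le_rfl ?_)
    refine mul_le_mul_of_nonneg_right (le_max_of_le_left ?_) he
    gcongr
  · exact (A.abs_eAt_le hβ hq).trans (le_max_right _ _)
  · simp [eng, comb, gSph]

end Vale.Agent.P166.Rsb
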