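import Vale.Agent.P166.Rsb.FieldDeriv

/-!
# P166: continuity of cascades in parameters

Nested values and expectations depend continuously on a parameter as soon as the Hamiltonians are
uniformly linearly bounded and the observables uniformly exponentially bounded.
-/

open MeasureTheory ProbabilityTheory Real Finset Filter Topology

namespace Vale.Agent.P166.Rsb

open Vale.Agent.P157.Rsb (stdG val cnd put lev Size LinB Tame gaussSize levels_induction val_of_le
  cnd_of_le val_top cnd_top val_step cnd_step val_bound_unif cnd_bound_unif val_regular cnd_regular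
  measurable_put_right lev_nonneg integrable_exp_leaf integrable_val_step)

/-- Continuity of the values and expectations in a parameter. -/
theorem cnd_continuous_lin {k : ℕ} {Z X : Type} [MeasurableSpace Z] [MeasurableSpace X] {γ : Measure Z}
    {μ : Measure X} [IsProbabilityMeasure γ] [IsFiniteMeasure μ] [NeZero μ] (w : Size γ) {T : Type}
    [TopologicalSpace T] [FirstCountableTopology T] {H φ : T → (Fin k → Z) → X → ℝ} {A : ℝ}
    (hA : 0 ≤ A) (hHm : ∀ t, Measurable (Function.uncurry (H t)))
    (hHb : ∀ t z x, |H t z x| ≤ A * (1 + w.tot z)) (hHc : ∀ z x, Continuous fun t => H t z x)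
    (hφm : ∀ t, Measurable (Function.uncurry (φ t)))
    (hφb : ∀ t z x, |φ t z x| ≤ A * exp (A * w.tot z)) (hφc : ∀ z x, Continuous fun t => φ t z x)
    (j : ℕ) (z : Fin k → Z) :
    Continuous (fun t => val γ μ (H t) j z) ∧ Continuous (fun t => cnd γ μ (H t) (φ t) j z) := by
  have hH : ∀ t, LinB w (H t) := fun t => ⟨hHm t, A, hA, hHb t⟩
  have hφ : ∀ t, Tame w (φ t) := fun t => ⟨hφm t, A, hA, hφb t⟩
  obtain ⟨A', hA', hV⟩ := val_bound_unif (k := k) (μ := μ) w hA
  obtain ⟨A'', hA'', hC⟩ := cnd_bound_unif (k := k) (μ := μ) w hA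
  induction j using levels_induction (k := k) generalizing z with
  | htop j hj =>
    simp only [val_of_le hj, cnd_of_le hj, val_top, cnd_top]
    have hb : ∀ t x, exp (H t z x) ≤ exp (A * (1 + w.tot z)) := fun t x =>
      exp_le_exp.2 ((le_abs_self _).trans (hHb t z x))
    have h1 : Continuous fun t => ∫ x, exp (H t z x) ∂μ := by
      refine continuous_of_dominated (fun t => ((hH t).meas_right z).exp.aestronglyMeasurable)
        (fun t => ae_of_all _ fun x => ?_) (integrable_const (exp (A * (1 + w.tot z))))
        (ae_of_all _ fun x => continuous_exp.comp (hHc z x))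
      rw [Real.norm_eq_abs, abs_of_pos (exp_pos _)]
      exact hb t x
    have h2 : Continuous fun t => ∫ x, φ t z x * exp (H t z x) ∂μ := by
      refine continuous_of_dominated
        (fun t => (((hφ t).meas_right z).mul ((hH t).meas_right z).exp).aestronglyMeasurable)
        (fun t => ae_of_all _ fun x => ?_)
        (integrable_const (A * exp (A * w.tot z) * exp (A * (1 + w.tot z))))
        (ae_of_all _ fun x => (hφc z x).mul (continuous_exp.comp (hHc z x)))
      rw [Real.norm_eq_abs, abs_mul, abs_of_pos (exp_pos _)]
      exact mul_le_mul (hφb t z x) (hb t x) (exp_pos _).le (by positivity)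
    have hp : ∀ t, (∫ x, exp (H t z x) ∂μ) ≠ 0 := fun t =>
      (integral_exp_pos (integrable_exp_leaf (hH t) z)).ne'
    exact ⟨h1.log hp, h2.div h1 hp⟩
  | hstep j hj hjk ih =>
    simp only [val_step hj hjk, cnd_step hj hjk]
    set m := lev k j
    have hm0 : 0 ≤ m := lev_nonneg j
    have hb : ∀ t y, exp (m * val γ μ (H t) j (put z (j - 1) y))
        ≤ exp (m * (A' * (1 + w.tot z))) * exp (m * A' * w.w y) := fun t y => by
      rw [← exp_add]
      refine exp_le_exp.2 ?_
      have h := (le_abs_self _).trans (hV (H t) (hHm t) (hHb t) j (put z (j - 1) y))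
      have h2 := mul_le_mul_of_nonneg_left h hm0
      have h3 := mul_le_mul_of_nonneg_left (w.tot_put z (j - 1) y) (mul_nonneg hm0 hA')
      linarith
    have hc : ∀ t y, |cnd γ μ (H t) (φ t) j (put z (j - 1) y)|
        ≤ A'' * exp (A'' * w.tot z) * exp (A'' * w.w y) := fun t y => by
      refine (hC (H t) (φ t) (hHm t) (hφm t) (hHb t) (hφb t) j _).trans ?_
      rw [mul_assoc, ← exp_add, ← mul_add]
      exact mul_le_mul_of_nonneg_left (exp_le_exp.2
        (mul_le_mul_of_nonneg_left (w.tot_put z (j - 1) y) hA'')) hA''
    have mv : ∀ t, Measurable fun y => exp (m * val γ μ (H t) j (put z (j - 1) y)) := fun t =>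
      (((val_regular (hH t) j).1.comp (measurable_put_right z (j - 1))).const_mul _).exp
    have h1 : Continuous fun t => ∫ y, exp (m * val γ μ (H t) j (put z (j - 1) y)) ∂γ := by
      refine continuous_of_dominated (fun t => (mv t).aestronglyMeasurable)
        (fun t => ae_of_all _ fun y => ?_)
        ((w.int (m * A')).const_mul (exp (m * (A' * (1 + w.tot z)))))
        (ae_of_all _ fun y => continuous_exp.comp ((ih _).1.const_mul _))
      rw [Real.norm_eq_abs, abs_of_pos (exp_pos _)]
      exact hb t y
    have h2 : Continuous fun t => ∫ y, cnd γ μ (H t) (φ t) j (put z (j - 1) y)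
        * exp (m * val γ μ (H t) j (put z (j - 1) y)) ∂γ := by
      refine continuous_of_dominated
        (fun t => (((cnd_regular (hH t) (hφ t) j).1.comp
          (measurable_put_right z (j - 1))).mul (mv t)).aestronglyMeasurable)
        (fun t => ae_of_all _ fun y => ?_)
        ((w.int (A'' + m * A')).const_mul
          (A'' * exp (A'' * w.tot z) * exp (m * (A' * (1 + w.tot z)))))
        (ae_of_all _ fun y => (ih _).2.mul (continuous_exp.comp ((ih _).1.const_mul _)))
      rw [Real.norm_eq_abs, abs_mul, abs_of_pos (exp_pos _)]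
      refine (mul_le_mul (hc t y) (hb t y) (exp_pos _).le (by positivity)).trans (le_of_eq ?_)
      rw [add_mul A'' (m * A'), exp_add]
      ring
    have hp : ∀ t, (∫ y, exp (m * val γ μ (H t) j (put z (j - 1) y)) ∂γ) ≠ 0 := fun t =>
      (integrable_val_step (hH t) z (j - 1)).2.ne'
    exact ⟨(h1.log hp).div_const _, h2.div h1 hp⟩

end Vale.Agent.P166.Rsb
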