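import Vale.Agent.P166.Rsb.CalcRoot
import Vale.Agent.P166.Rsb.FieldCont
import Vale.Agent.P157.Rsb.Reg

/-!
# P166: bounds, measurability and continuity of the system at a fixed rotation
-/

open MeasureTheory ProbabilityTheory Real Finset Filter Topology
open Vale.Agent.P157 (cubeLaw)
open Vale.Agent.P157.Rsb (stdG val cnd pairCnd LinB Tame gaussSize)

namespace Vale.Agent.P166.Rsb

variable {d N k : ℕ} (β : ℝ) (a : Fin (d + 1) → ℝ) (c : Fin N → Fin (d + 1))

theorem abs_enV_le {U : Fin N → Fin N → ℝ} (hU : IsOrth U) (s : Fin N → Bool) :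
    |enV a c U s| ≤ (∑ e, |a e|) * N := by
  refine (abs_sum_le_sum_abs _ _).trans (le_of_le_of_eq (sum_le_sum
    (g := fun i => (∑ e, |a e|) * rotate U s i ^ 2) fun i _ => ?_) (by
      rw [← mul_sum, sum_sq_rotate hU]))
  rw [abs_mul, abs_of_nonneg (sq_nonneg (rotate U s i))]
  exact mul_le_mul_of_nonneg_right
    (single_le_sum (f := fun e => |a e|) (fun _ _ => abs_nonneg _) (mem_univ _)) (sq_nonneg _)

theorem continuous_enV (s : Fin N → Bool) :
    Continuous fun U : Fin N → Fin N → ℝ => enV a c U s := by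
  unfold enV rotate; fun_prop

theorem continuous_topSq (s : Fin N → Bool) :
    Continuous fun U : Fin N → Fin N → ℝ => topSq c U s := by
  unfold topSq rotate; fun_prop

theorem hamU_meas (σ τ : ℕ → ℝ) :
    Measurable fun q : ((Fin N → Fin N → ℝ) × (Fin k → Fld N → ℝ)) × (Fin N → Bool) =>
      hamU β a c σ τ q.1.1 q.1.2 q.2 := by
  refine measurable_from_prod_countable_left fun s => ?_
  simp only [hamU, topSq, rotate]
  fun_prop

theorem rootU_meas (σ τ : ℕ → ℝ) : Measurable fun U => rootU k β a c σ τ U :=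
  P157.Rsb.val_measurable_param_at (hamU_meas β a c σ τ) 0 _

theorem gibR_meas (σ τ : ℕ → ℝ) {φ : (Fin N → Fin N → ℝ) → (Fin N → Bool) → ℝ}
    (hφ : ∀ s, Measurable fun U => φ U s) :
    Measurable fun U => gibR β a c U k σ τ (φ U) :=
  P157.Rsb.cnd_measurable_param_at (hamU_meas β a c σ τ)
    (measurable_from_prod_countable_left fun s => (hφ s).comp measurable_fst) 0 _

theorem pairR_meas (σ τ : ℕ → ℝ) (j : ℕ)
    {ψ : (Fin N → Fin N → ℝ) → (Fin N → Bool) → (Fin N → Bool) → ℝ}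
    (hψ : ∀ x y, Measurable fun U => ψ U x y) :
    Measurable fun U => pairR β a c U k σ τ j (ψ U) :=
  P157.Rsb.measurable_root_pair (H := fun U => hamU (k := k) β a c σ τ U) (Ψ := ψ)
    (hamU_meas β a c σ τ)
    (measurable_from_prod_countable_left fun xy => hψ xy.1 xy.2) j _

variable (U : Fin N → Fin N → ℝ)

theorem abs_gibR_le (σ τ : ℕ → ℝ) {φ : (Fin N → Bool) → ℝ} {B : ℝ} (h : ∀ s, |φ s| ≤ B) :
    |gibR β a c U k σ τ φ| ≤ B :=
  P157.Rsb.cnd_abs_le (φ := fun (_ : Fin k → Fld N → ℝ) s => φ s) (hamU_linB β a c U σ τ)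
    ((measurable_of_countable φ).comp measurable_snd) (fun _ s => h s) 0 _

theorem abs_pairR_le (σ τ : ℕ → ℝ) (j : ℕ) {ψ : (Fin N → Bool) → (Fin N → Bool) → ℝ} {B : ℝ}
    (h : ∀ x y, |ψ x y| ≤ B) : |pairR β a c U k σ τ j ψ| ≤ B :=
  P157.Rsb.abs_root_pair_le (hamU_linB β a c U σ τ) (measurable_of_countable _) h j _

theorem gibR_mul (σ τ : ℕ → ℝ) (r : ℝ) (φ : (Fin N → Bool) → ℝ) :
    gibR β a c U k σ τ (fun s => r * φ s) = r * gibR β a c U k σ τ φ :=
  P157.Rsb.cnd_const_mul (φ := fun (_ : Fin k → Fld N → ℝ) s => φ s) r 0 _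

theorem gibR_add (σ τ : ℕ → ℝ) (φ φ' : (Fin N → Bool) → ℝ) :
    gibR β a c U k σ τ (fun s => φ s + φ' s)
      = gibR β a c U k σ τ φ + gibR β a c U k σ τ φ' := by
  have ht : ∀ ξ : (Fin N → Bool) → ℝ, Tame (gaussSize (Fld N)) fun (_ : Fin k → Fld N → ℝ) s => ξ s :=
    fun ξ => tame_bmeas ⟨measurable_of_countable _, ∑ s, |ξ s|,
      fun s => single_le_sum (f := fun s => |ξ s|) (fun _ _ => abs_nonneg _) (mem_univ s)⟩
  exact P157.Rsb.cnd_add (hamU_linB β a c U σ τ) (ht φ) (ht φ') 0 _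

theorem pairR_mul (σ τ : ℕ → ℝ) (j : ℕ) (r : ℝ) (ψ : (Fin N → Bool) → (Fin N → Bool) → ℝ) :
    pairR β a c U k σ τ j (fun x y => r * ψ x y) = r * pairR β a c U k σ τ j ψ := by
  simp only [pairR, P157.Rsb.pairCnd, P157.Rsb.cnd_const_mul]

/-- The overlaps at the root are sums of mean squares. -/
theorem pairR_gq (σ τ : ℕ → ℝ) (S : Finset (Fld N)) (l : ℕ) :
    pairR β a c U k σ τ l (fun x y => ∑ i ∈ S, fldV c U x i * fldV c U y i)
      = ∑ i ∈ S, gq (cubeLaw N) k (fdata β a c U) (ampV σ τ) i l := by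
  simp only [pairR, hamU_eq, gq, groot]
  rw [← P157.Rsb.cnd_finsum (gham_linB _ _) _ fun i _ => tame_gmv_sq (cubeLaw N) _ _ l _]
  refine congrArg (fun φ => cnd (k := k) (stdG (Fld N)) (cubeLaw N)
    (gham (fdata β a c U) (ampV σ τ)) φ 0 fun _ _ => 0) ?_
  funext z _
  exact pair_eq_gmv_sq (cubeLaw N) (fdata β a c U) (ampV σ τ) S l z

/-- The coordinates of the spins. -/
def spinIdx (N : ℕ) : Finset (Fld N) := univ.map ⟨Sum.inl, Sum.inl_injective⟩

/-- The coordinates inside the blocks. -/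
def topIdx (N : ℕ) : Finset (Fld N) := univ.map ⟨Sum.inr, Sum.inr_injective⟩

theorem spinOv_eq (x y : Fin N → Bool) :
    spinOv x y = (N : ℝ)⁻¹ * ∑ i ∈ spinIdx N, fldV c U x i * fldV c U y i := by
  simp only [spinOv, spinIdx, sum_map, Function.Embedding.coeFn_mk, fldV, Sum.elim_inl]
  ring

theorem topOv_eq (x y : Fin N → Bool) :
    topOv c U x y = (N : ℝ)⁻¹ * ∑ i ∈ topIdx N, fldV c U x i * fldV c U y i := by
  simp only [topOv, topIdx, sum_map, Function.Embedding.coeFn_mk, fldV, Sum.elim_inr]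
  rw [div_eq_inv_mul]
  congr 1
  refine sum_congr rfl fun i _ => ?_
  linear_combination (-(rotate U x i * rotate U y i)) * topMask_sq c i

theorem pairR_spinOv (σ τ : ℕ → ℝ) (l : ℕ) : pairR β a c U k σ τ l spinOv
    = (N : ℝ)⁻¹ * ∑ i ∈ spinIdx N, gq (cubeLaw N) k (fdata β a c U) (ampV σ τ) i l := by
  rw [← pairR_gq, ← pairR_mul]
  exact congrArg (pairR β a c U k σ τ l) (funext₂ fun x y => spinOv_eq c U x y)

theorem pairR_topOv (σ τ : ℕ → ℝ) (l : ℕ) : pairR β a c U k σ τ l (topOv c U)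
    = (N : ℝ)⁻¹ * ∑ i ∈ topIdx N, gq (cubeLaw N) k (fdata β a c U) (ampV σ τ) i l := by
  rw [← pairR_gq, ← pairR_mul]
  exact congrArg (pairR β a c U k σ τ l) (funext₂ fun x y => topOv_eq c U x y)

theorem spinTailR_pair (σ τ : ℕ → ℝ) (j : ℕ) : spinTailR β a c U k σ τ j
    = N * (P157.Rsb.mass k * ∑ l ∈ Icc j k, pairR β a c U k σ τ l spinOv) := by
  have h : (fun x y : Fin N → Bool => ∑ i, spin (x i) * spin (y i))
      = fun x y => (N : ℝ) * spinOv x y := funext₂ fun x y => by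
    rcases Nat.eq_zero_or_pos N with rfl | hN
    · simp
    · rw [spinOv, mul_div_cancel₀ _ (by positivity : (N : ℝ) ≠ 0)]
  simp only [spinTailR, h, pairR_mul, ← mul_sum]
  ring

theorem topTailR_nonneg (σ τ : ℕ → ℝ) (j : ℕ) : 0 ≤ topTailR β a c U k σ τ j := by
  rw [topTailR_eq]
  exact sum_nonneg fun i _ => mul_nonneg P157.Rsb.mass_pos.le
    (sum_nonneg fun l _ => gq_nonneg _ _ _ _ _)

theorem spinTailR_nonneg (σ τ : ℕ → ℝ) (j : ℕ) : 0 ≤ spinTailR β a c U k σ τ j := by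
  rw [spinTailR_eq]
  exact sum_nonneg fun i _ => mul_nonneg P157.Rsb.mass_pos.le
    (sum_nonneg fun l _ => gq_nonneg _ _ _ _ _)

theorem abs_spinOv_le (x y : Fin N → Bool) : |spinOv x y| ≤ 1 := by
  rw [spinOv, abs_div, Nat.abs_cast]
  refine div_le_one_of_le₀ ((abs_sum_le_sum_abs _ _).trans (le_of_eq ?_)) (Nat.cast_nonneg N)
  have h : ∀ b : Bool, |spin b| = 1 := fun b => by cases b <;> simp [spin]
  simp [abs_mul, h]

theorem abs_topOv_le (hU : IsOrth U) (x y : Fin N → Bool) : |topOv c U x y| ≤ 1 := by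
  rw [topOv, abs_div, Nat.abs_cast]
  refine div_le_one_of_le₀ ((abs_sum_le_sum_abs _ _).trans ?_) (Nat.cast_nonneg N)
  refine le_of_le_of_eq (sum_le_sum (g := fun i => (rotate U x i ^ 2 + rotate U y i ^ 2) / 2)
    fun i _ => ?_) (by rw [← sum_div, sum_add_distrib, sum_sq_rotate hU, sum_sq_rotate hU]; ring)
  have h0 : topMask c i = 0 ∨ topMask c i = 1 := by unfold topMask; split_ifs <;> simp
  rw [abs_le]
  rcases h0 with h | h <;> rw [h] <;> constructor <;>
    nlinarith [sq_nonneg (rotate U x i + rotate U y i), sq_nonneg (rotate U x i - rotate U y i)]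

/-- The system without fields. -/
theorem rootU_zero : rootU k β a c (fun _ => 0) (fun _ => 0) U
    = log ((1 / 2) ^ N * ∑ s : Fin N → Bool, exp (β / 2 * enV a c U s)) := by
  have hH : hamU (k := k) β a c (fun _ => 0) (fun _ => 0) U = fun _ s => β / 2 * enV a c U s := by
    funext z s
    simp [hamU, enV]
  have h : ∀ j z, val (k := k) (stdG (Fld N)) (cubeLaw N)
      (fun _ s => β / 2 * enV a c U s) j z = log (∫ s, exp (β / 2 * enV a c U s) ∂cubeLaw N) := by
    intro j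
    induction j using P157.Rsb.levels_induction (k := k) with
    | htop j hj => intro z; rw [P157.Rsb.val_of_le hj, P157.Rsb.val_top]
    | hstep j hj hjk ih =>
      intro z
      rw [P157.Rsb.val_step hj hjk]
      simp only [ih, integral_const, probReal_univ, smul_eq_mul, one_mul, log_exp]
      exact mul_div_cancel_left₀ _ (P157.Rsb.lev_pos hj).ne'
  rw [rootU, hH, h, P157.integral_cubeLaw]
  congr 1
  rw [div_eq_inv_mul, one_div, inv_pow]

variable {β}

theorem abs_rootU_zero_le {U : Fin N → Fin N → ℝ} (hU : IsOrth U) :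
    |rootU k β a c (fun _ => 0) (fun _ => 0) U| ≤ |β| / 2 * ((∑ e, |a e|) * N) := by
  set L := |β| / 2 * ((∑ e, |a e|) * N)
  have hb : ∀ s, |β / 2 * enV a c U s| ≤ L := fun s => by
    rw [abs_mul, abs_div, abs_two]
    exact mul_le_mul_of_nonneg_left (abs_enV_le a c hU s) (by positivity)
  have hcard : ((univ : Finset (Fin N → Bool)).card : ℝ) = 2 ^ N := by simp
  have h1 : (1 / 2 : ℝ) ^ N * ∑ s : Fin N → Bool, exp (β / 2 * enV a c U s) ≤ exp L := by
    refine (mul_le_mul_of_nonneg_left (sum_le_card_nsmul univ _ (exp L) fun s _ =>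
      exp_le_exp.2 (abs_le.1 (hb s)).2) (by positivity)).trans (le_of_eq ?_)
    rw [nsmul_eq_mul, hcard, ← mul_assoc, ← mul_pow]; norm_num
  have h2 : exp (-L) ≤ (1 / 2 : ℝ) ^ N * ∑ s : Fin N → Bool, exp (β / 2 * enV a c U s) := by
    refine (le_of_eq ?_).trans (mul_le_mul_of_nonneg_left (card_nsmul_le_sum univ _ (exp (-L))
      fun s _ => exp_le_exp.2 (abs_le.1 (hb s)).1) (by positivity))
    rw [nsmul_eq_mul, hcard, ← mul_assoc, ← mul_pow]; norm_num
  rw [rootU_zero, abs_le]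
  exact ⟨(le_log_iff_exp_le ((exp_pos _).trans_le h2)).2 h2,
    (log_le_iff_le_exp ((exp_pos _).trans_le h2)).2 h1⟩

variable (β)

/-- Amplitudes move the root by at most half their squares per coordinate. -/
theorem abs_rootU_amp_le {U : Fin N → Fin N → ℝ} (hU : IsOrth U) (σ τ : ℕ → ℝ) :
    |rootU k β a c σ τ U - rootU k β a c (fun _ => 0) (fun _ => 0) U|
      ≤ (∑ l : Fin k, (σ ((l : ℕ) + 1) ^ 2 + τ ((l : ℕ) + 1) ^ 2)) / 2 * N := by
  have h1 := rootU_support (k := k) β a c U hU β a (fun _ => 0) (fun _ => 0) σ τ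
  have h2 := rootU_support (k := k) β a c U hU β a σ τ (fun _ => 0) (fun _ => 0)
  simp only [sub_self] at h1 h2
  rw [show ∀ σ τ, gibR β a c U k σ τ (fun _ => (0 : ℝ)) = 0 from fun σ τ =>
    P157.Rsb.cnd_const (hamU_linB β a c U σ τ) 0 0 _] at h1 h2
  have e1 : -((∑ l : Fin k, (σ ((l : ℕ) + 1) ^ 2 + τ ((l : ℕ) + 1) ^ 2)) / 2 * N) ≤ ∑ l : Fin k,
      ((σ ((l : ℕ) + 1) - 0) * (-0 * spinTailR β a c U k (fun _ => 0) (fun _ => 0) ((l : ℕ) + 1))
        - (σ ((l : ℕ) + 1) - 0) ^ 2 / 2 * N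
        + ((τ ((l : ℕ) + 1) - 0) * (-0 * topTailR β a c U k (fun _ => 0) (fun _ => 0) ((l : ℕ) + 1))
        - (τ ((l : ℕ) + 1) - 0) ^ 2 / 2 * N)) := by
    rw [sum_div, sum_mul, ← sum_neg_distrib]
    exact sum_le_sum fun l _ => le_of_eq (by ring)
  have e2 : -((∑ l : Fin k, (σ ((l : ℕ) + 1) ^ 2 + τ ((l : ℕ) + 1) ^ 2)) / 2 * N) ≤ ∑ l : Fin k,
      ((0 - σ ((l : ℕ) + 1)) * (-σ ((l : ℕ) + 1) * spinTailR β a c U k σ τ ((l : ℕ) + 1))
        - (0 - σ ((l : ℕ) + 1)) ^ 2 / 2 * N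
        + ((0 - τ ((l : ℕ) + 1)) * (-τ ((l : ℕ) + 1) * topTailR β a c U k σ τ ((l : ℕ) + 1))
        - (0 - τ ((l : ℕ) + 1)) ^ 2 / 2 * N)) := by
    rw [sum_div, sum_mul, ← sum_neg_distrib]
    refine sum_le_sum fun l _ => ?_
    nlinarith [mul_nonneg (sq_nonneg (σ ((l : ℕ) + 1))) (spinTailR_nonneg β a c U (k := k) σ τ ((l : ℕ) + 1)),
      mul_nonneg (sq_nonneg (τ ((l : ℕ) + 1))) (topTailR_nonneg β a c U (k := k) σ τ ((l : ℕ) + 1))]
  rw [abs_le]
  constructor <;> linarith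

/-- The parameters that move. -/
abbrev Par (k : ℕ) := (Fin k → ℝ) × (Fin k → ℝ) × ℝ

/-- Continuity at a fixed rotation. -/
theorem root_continuous :
    Continuous (fun p : Par k =>
      rootU k β (raise a p.2.2) c (P157.Rsb.lift p.1) (P157.Rsb.lift p.2.1) U) ∧
    (∀ φ : ℝ → (Fin N → Bool) → ℝ, (∀ s, Continuous fun h => φ h s) → Continuous fun p : Par k =>
      gibR β (raise a p.2.2) c U k (P157.Rsb.lift p.1) (P157.Rsb.lift p.2.1) (φ p.2.2)) ∧
    ∀ j, Continuous fun p : Par k =>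
      pairR β (raise a p.2.2) c U k (P157.Rsb.lift p.1) (P157.Rsb.lift p.2.1) j spinOv := by
  have hev : ∀ (p : Par k) (z : Fin k → Fld N → ℝ) s, hamU β (raise a p.2.2) c (P157.Rsb.lift p.1) (P157.Rsb.lift p.2.1) U z s
      = β / 2 * (enV a c U s + p.2.2 * topSq c U s)
        + ∑ l : Fin k, (p.1 l * ∑ i, z l (.inl i) * spin (s i)
          + p.2.1 l * ∑ i, topMask c i * z l (.inr i) * rotate U s i)
        - (∑ l : Fin k, p.1 l ^ 2) / 2 * N - (∑ l : Fin k, p.2.1 l ^ 2) / 2 * topSq c U s := by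
    intro p z s
    rw [← enV_raise]
    simp only [hamU, P157.Rsb.lift_succ, enV]
  have hHc : ∀ z s, Continuous fun p : Par k =>
      hamU β (raise a p.2.2) c (P157.Rsb.lift p.1) (P157.Rsb.lift p.2.1) U z s := fun z s => by
    rw [funext fun p => hev p z s]
    fun_prop
  -- a linear bound near every parameter
  obtain ⟨B, hB0, hB⟩ := (fdata β a c U).bound
  set T := ∑ s : Fin N → Bool, |topSq c U s|
  have hbd : ∀ p₀ : Par k, ∃ A, 0 ≤ A ∧ ∀ p ∈ Metric.closedBall p₀ 1,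
      ∀ (z : Fin k → Fld N → ℝ) s,
      |hamU β (raise a p.2.2) c (P157.Rsb.lift p.1) (P157.Rsb.lift p.2.1) U z s|
        ≤ A * (1 + (gaussSize (Fld N)).tot z) := fun p₀ => by
    set R := ‖p₀‖ + 1
    set B' := B + |β / 2| * (R * T)
    refine ⟨|R| * B' + k * Fintype.card (Fld N) * (R ^ 2 / 2 * B' ^ 2) + B', by positivity,
      fun p hp z s => ?_⟩
    have hn : ‖p‖ ≤ R := by
      have := norm_le_norm_add_norm_sub' p p₀
      rw [mem_closedBall_iff_norm] at hp
      linarith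
    have h1 : ‖p.1‖ ≤ R := (norm_fst_le p).trans hn
    have h2 : ‖p.2.1‖ ≤ R := ((norm_fst_le p.2).trans (norm_snd_le p)).trans hn
    have h3 : |p.2.2| ≤ R := ((norm_snd_le p.2).trans (norm_snd_le p)).trans hn
    have hx : 0 ≤ |β / 2| * (R * T) := by positivity
    rw [hamU_eq]
    refine abs_gham_le (R := R) (B := B') (fdata β (raise a p.2.2) c U) (by positivity)
      (fun x => ⟨fun i => (show |fldV c U x i| ≤ B from (hB x).1 i).trans
        (le_add_of_nonneg_right hx), ?_⟩) (fun l i => ?_) z s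
    · show |β / 2 * enV (raise a p.2.2) c U x| ≤ _
      rw [enV_raise, mul_add]
      refine (abs_add_le _ _).trans (add_le_add (hB x).2 ?_)
      rw [abs_mul, abs_mul]
      exact mul_le_mul_of_nonneg_left (mul_le_mul h3
        (single_le_sum (f := fun s => |topSq c U s|) (fun _ _ => abs_nonneg _) (mem_univ x))
        (abs_nonneg _) (by positivity)) (abs_nonneg _)
    · cases i
      · rw [show ampV (P157.Rsb.lift p.1) (P157.Rsb.lift p.2.1) ((l : ℕ) + 1) (.inl _) = p.1 l from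
          P157.Rsb.lift_succ _ _]
        exact (norm_le_pi_norm p.1 l).trans h1
      · rw [show ampV (P157.Rsb.lift p.1) (P157.Rsb.lift p.2.1) ((l : ℕ) + 1) (.inr _) = p.2.1 l from
          P157.Rsb.lift_succ _ _]
        exact (norm_le_pi_norm p.2.1 l).trans h2
  -- continuity of values and expectations of bounded observables
  have key : ∀ (φ : Par k → (Fin k → Fld N → ℝ) → (Fin N → Bool) → ℝ),
      (∀ p, Measurable (Function.uncurry (φ p))) → (∀ z s, Continuous fun p => φ p z s) →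
      (∀ p₀, ∃ A, ∀ p ∈ Metric.closedBall p₀ 1, ∀ z s, |φ p z s| ≤ A) → ∀ j z,
        Continuous (fun p : Par k => val (stdG (Fld N)) (cubeLaw N)
          (hamU β (raise a p.2.2) c (P157.Rsb.lift p.1) (P157.Rsb.lift p.2.1) U) j z) ∧
        Continuous fun p : Par k => cnd (stdG (Fld N)) (cubeLaw N)
          (hamU β (raise a p.2.2) c (P157.Rsb.lift p.1) (P157.Rsb.lift p.2.1) U) (φ p) j z := by
    intro φ hm hc hφ j z
    suffices h : ∀ p₀ : Par k, ContinuousAt (fun p : Par k => val (stdG (Fld N)) (cubeLaw N)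
          (hamU β (raise a p.2.2) c (P157.Rsb.lift p.1) (P157.Rsb.lift p.2.1) U) j z) p₀ ∧
        ContinuousAt (fun p : Par k => cnd (stdG (Fld N)) (cubeLaw N)
          (hamU β (raise a p.2.2) c (P157.Rsb.lift p.1) (P157.Rsb.lift p.2.1) U) (φ p) j z) p₀ from
      ⟨continuous_iff_continuousAt.2 fun p => (h p).1, continuous_iff_continuousAt.2 fun p => (h p).2⟩

    intro p₀
    obtain ⟨A₁, hA₁, hb₁⟩ := hbd p₀
    obtain ⟨A₂, hb₂⟩ := hφ p₀
    have hA : 0 ≤ A₁ + |A₂| := by positivity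
    have hres := cnd_continuous_lin (k := k) (μ := cubeLaw N) (gaussSize (Fld N))
      (T := Metric.closedBall p₀ 1) (A := A₁ + |A₂|)
      (H := fun t => hamU β (raise a t.1.2.2) c (P157.Rsb.lift t.1.1) (P157.Rsb.lift t.1.2.1) U)
      (φ := fun t => φ t.1) hA (fun t => (hamU_linB β _ c U _ _).meas)
      (fun t z s => (hb₁ t.1 t.2 z s).trans (mul_le_mul_of_nonneg_right
        (le_add_of_nonneg_right (abs_nonneg _)) (by linarith [(gaussSize (Fld N)).tot_nonneg z])))
      (fun z s => (hHc z s).comp continuous_subtype_val) (fun t => hm t.1)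
      (fun t z s => ((hb₂ t.1 t.2 z s).trans ((le_abs_self A₂).trans
        (le_add_of_nonneg_left hA₁))).trans (le_mul_of_one_le_right hA
          (one_le_exp (mul_nonneg hA ((gaussSize (Fld N)).tot_nonneg z)))))
      (fun z s => (hc z s).comp continuous_subtype_val) j z
    exact ⟨(continuousOn_iff_continuous_domRestrict.2 hres.1).continuousAt
        (Metric.closedBall_mem_nhds p₀ one_pos),
      (continuousOn_iff_continuous_domRestrict.2 hres.2).continuousAt
        (Metric.closedBall_mem_nhds p₀ one_pos)⟩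
  refine ⟨(key (fun _ _ _ => 0) (fun _ => measurable_const) (fun _ _ => continuous_const)
    (fun _ => ⟨0, fun _ _ _ _ => by simp⟩) 0 _).1, fun φ hφ => ?_, fun j => ?_⟩
  · exact (key (fun p _ s => φ p.2.2 s) (fun p => (measurable_of_countable _).comp measurable_snd)
      (fun _ s => (hφ s).comp (continuous_snd.comp continuous_snd)) (fun p₀ => by
        obtain ⟨A, hA⟩ := (isCompact_closedBall p₀ 1).exists_bound_of_continuousOn
          (f := fun p : Par k => ∑ s, |φ p.2.2 s|)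
          (continuous_finsetSum _ fun s _ =>
            ((hφ s).comp (continuous_snd.comp continuous_snd)).abs).continuousOn
        exact ⟨A, fun p hp _ s => (single_le_sum (f := fun s => |φ p.2.2 s|)
          (fun _ _ => abs_nonneg _) (mem_univ s)).trans ((le_abs_self _).trans (hA p hp))⟩) 0 _).2
  · simp only [pairR_spinOv, gq, groot, ← hamU_eq]
    refine continuous_const.mul (continuous_finsetSum _ fun i _ => ?_)
    have hBv : ∀ x, |fldV c U x i| ≤ B := fun x => (hB x).1 i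
    refine (key (fun p z _ => gmv (cubeLaw N) (fdata β (raise a p.2.2) c U)
      (ampV (P157.Rsb.lift p.1) (P157.Rsb.lift p.2.1)) j i z ^ 2)
      (fun p => (tame_gmv_sq (cubeLaw N) _ _ j i).meas) (fun z _ => ?_)
      (fun p₀ => ⟨B ^ 2, fun p _ z _ => ?_⟩) 0 _).2
    · simp only [gmv, ← hamU_eq]
      exact ((key (fun _ _ s => fldV c U s i)
        (fun _ => (measurable_of_countable fun s => fldV c U s i).comp measurable_snd)
        (fun _ _ => continuous_const) (fun _ => ⟨B, fun _ _ _ s => hBv s⟩) j z).2).pow 2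
    · rw [abs_pow]
      exact pow_le_pow_left₀ (abs_nonneg _)
        (P157.Rsb.cnd_abs_le (gham_linB _ _) (tame_v _ i).meas (fun _ s => hBv s) j z) 2

end Vale.Agent.P166.Rsb
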