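import Vale.Agent.P166.Rsb.HaarVar
import Vale.Agent.P166.Rsb.CalcBounds
import Vale.Agent.P166.Rsb.Pins

/-!
# P166: the value at the root is asymptotically independent of the rotation

The variance over the rotations is `O (N log N)`: a reflection of one column changes the
Hamiltonian by a bounded amount in mean square under the cascade.
-/

open MeasureTheory ProbabilityTheory Real Matrix
open Vale.Agent.P157 (cubeLaw)
open Vale.Agent.P157.Rsb (stdG val cnd mass Size LinB Tame gaussSize)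

namespace Vale.Agent.P166.Rsb

section Swap

variable {k : ℕ} {Z X P : Type} [MeasurableSpace Z] [MeasurableSpace X] [MeasurableSpace P]
  {γ : Measure Z} {μ : Measure X} [IsProbabilityMeasure γ] [IsFiniteMeasure μ] [NeZero μ]
  {w : Size γ} {ν : Measure P} [IsProbabilityMeasure ν]

/-- An average of observables may be taken inside a conditional expectation. -/
theorem cnd_integral {H : (Fin k → Z) → X → ℝ} (hH : LinB w H) {φ : P → (Fin k → Z) → X → ℝ}
    (hφ : Measurable fun q : (P × (Fin k → Z)) × X => φ q.1.1 q.1.2 q.2) {A : ℝ} (hA : 0 ≤ A)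
    (hb : ∀ᵐ p ∂ν, ∀ z x, |φ p z x| ≤ A * exp (A * w.tot z)) (j : ℕ) (z : Fin k → Z) :
    ∫ p, cnd γ μ H (φ p) j z ∂ν = cnd γ μ H (fun z x => ∫ p, φ p z x ∂ν) j z := by
  induction j using P157.Rsb.levels_induction (k := k) generalizing z with
  | htop j hj =>
    simp only [P157.Rsb.cnd_of_le hj, P157.Rsb.cnd_top]
    rw [integral_div]
    congr 1
    rw [integral_integral_swap (f := fun p x => φ p z x * exp (H z x))]
    · simp only [integral_mul_const]
    · refine Integrable.mono' (((P157.Rsb.integrable_exp_leaf (μ := μ) hH z).const_mul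
        (A * exp (A * w.tot z))).comp_snd ν) ?_ ?_
      · exact ((hφ.comp (f := fun q : P × X => ((q.1, z), q.2)) (by fun_prop)).mul
          ((hH.meas_right z).comp measurable_snd).exp).aestronglyMeasurable
      · filter_upwards [Measure.quasiMeasurePreserving_fst.ae hb] with q hq
        rw [Real.norm_eq_abs, Function.uncurry_def, abs_mul, abs_of_pos (exp_pos _)]
        exact mul_le_mul_of_nonneg_right (hq z q.2) (exp_pos _).le
  | hstep j hj hjk ih =>
    obtain ⟨A₁, hA₁, hH₁⟩ := hH.bound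
    obtain ⟨A', hA', hc⟩ := P157.Rsb.cnd_bound_unif (k := k) (μ := μ) w
      (show 0 ≤ max A A₁ from hA.trans (le_max_left _ _))
    simp only [P157.Rsb.cnd_step hj hjk, ← ih]
    rw [integral_div]
    congr 1
    rw [integral_integral_swap (f := fun p y => cnd γ μ H (φ p) j (P157.Rsb.put z (j - 1) y)
      * exp (P157.Rsb.lev k j * val γ μ H j (P157.Rsb.put z (j - 1) y)))]
    · simp only [integral_mul_const]
    · have hV := P157.Rsb.val_regular (γ := γ) (μ := μ) hH j
      have hVL : LinB w fun z' (_ : Unit) => val γ μ H j z' :=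
        ⟨hV.1.comp measurable_fst, hV.2.choose, hV.2.choose_spec.1, fun z' _ => hV.2.choose_spec.2 z'⟩
      have hE : Tame w fun (z' : Fin k → Z) (_ : Unit) => A' * exp (A' * w.tot z') :=
        ⟨((w.measurable_tot.const_mul A').exp.const_mul A').comp measurable_fst, A', hA', fun z' _ => by
          rw [abs_of_nonneg (by positivity)]⟩
      obtain ⟨B, -, hB⟩ := (hE.mul (hVL.expTame (P157.Rsb.lev k j))).bound
      have hi := P157.Rsb.integrable_step (γ := γ) (w := w) (A := B)
        (G := fun z' => A' * exp (A' * w.tot z') * exp (P157.Rsb.lev k j * val γ μ H j z'))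
        (((w.measurable_tot.const_mul A').exp.const_mul A').mul (hV.1.const_mul _).exp)
        (fun z' => hB z' ()) z (j - 1)
      refine (hi.comp_snd ν).mono' ?_ ?_
      · have h1 := P157.Rsb.cnd_measurable_param (γ := γ) (μ := μ) (H := fun _ : P => H) (φ := φ)
          (hH.meas.comp (f := fun q : (P × (Fin k → Z)) × X => (q.1.2, q.2)) (by fun_prop)) hφ j
        have hput := P157.Rsb.measurable_put_right z (j - 1)
        exact ((h1.comp (measurable_fst.prodMk (hput.comp measurable_snd))).mul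
          ((hV.1.comp (hput.comp measurable_snd)).const_mul _).exp).aestronglyMeasurable
      · filter_upwards [Measure.quasiMeasurePreserving_fst.ae hb] with q hq
        rw [Real.norm_eq_abs, Function.uncurry_def, abs_mul, abs_of_pos (exp_pos _)]
        refine mul_le_mul_of_nonneg_right (hc H (φ q.1) hH.meas
          (hφ.comp (f := fun q' : (Fin k → Z) × X => ((q.1, q'.1), q'.2)) (by fun_prop))
          (fun z' x => (hH₁ z' x).trans (mul_le_mul_of_nonneg_right (le_max_right _ _)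
            (by linarith [w.tot_nonneg z'])))
          (fun z' x => Tame.mono_bound hA (le_max_left _ _) hq z' x) j _) (exp_pos _).le

end Swap

variable {d N k : ℕ}

/-- The spins as a real vector. -/
noncomputable def spv (s : Fin N → Bool) : Fin N → ℝ := fun i => spin (s i)

theorem rotate_eq_app (U : Fin N → Fin N → ℝ) (s : Fin N → Bool) : rotate U s = app U (spv s) := rfl

theorem mul_refl_refl {j : Fin N} {A : Fin N → Fin N → ℝ} (hA : InK j.val A) (U : Fin N → Fin N → ℝ) :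
    mul (mul U (refl j A)) (refl j A) = U := by
  refine congrArg tr (a₁ := tr (mul (mul U (refl j A)) (refl j A))) (a₂ := tr U) ?_
  rw [tr_mul, tr_mul, refl, tr_hh, hh_hh (col_unit hA.1 j)]

theorem abs_rotate_le {U : Fin N → Fin N → ℝ} (hU : IsOrth U) (s : Fin N → Bool) (i : Fin N) :
    |rotate U s i| ≤ (N : ℝ) + 1 := by
  have h := Finset.single_le_sum (fun q _ => sq_nonneg (rotate U s q)) (Finset.mem_univ i)
  rw [sum_sq_rotate hU s] at h
  rw [abs_le]
  constructor <;> nlinarith [sq_nonneg (rotate U s i - 1), sq_nonneg (rotate U s i + 1), Nat.cast_nonneg (α := ℝ) N]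

theorem abs_topMask_le (c : Fin N → Fin (d + 1)) (i : Fin N) : |topMask c i| ≤ 1 := by
  unfold topMask; split_ifs <;> simp

variable (β : ℝ) (a : Fin (d + 1) → ℝ) (c : Fin N → Fin (d + 1)) (σ τ : ℕ → ℝ)

/-- A linear bound for the Hamiltonian, uniform in the rotation. -/
theorem hamU_bound : ∃ C, 0 ≤ C ∧ ∀ U, IsOrth U → ∀ (z : Fin k → Fld N → ℝ) s,
    |hamU β a c σ τ U z s| ≤ C * (1 + (gaussSize (Fld N)).tot z) := by
  set R := ∑ l : Fin k, (|σ ((l : ℕ) + 1)| + |τ ((l : ℕ) + 1)|)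
  set Bd := ((N : ℝ) + 1) + |β| / 2 * ((∑ e, |a e|) * N)
  have hN : (0 : ℝ) ≤ N := Nat.cast_nonneg N
  have hBd : 0 ≤ Bd := by positivity
  refine ⟨|R| * Bd + k * Fintype.card (Fld N) * (R ^ 2 / 2 * Bd ^ 2) + Bd, ?_, fun U hU z s => ?_⟩
  swap
  · rw [hamU_eq]
    refine abs_gham_le (R := R) (fdata β a c U) hBd (fun x => ⟨fun i => ?_, ?_⟩) (fun l i => ?_) z s
    · cases i with
      | inl i =>
        simp only [fdata, fldV, Sum.elim_inl]
        have : |spin (x i)| = 1 := by cases x i <;> simp [spin]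
        rw [this]
        have : (0 : ℝ) ≤ |β| / 2 * ((∑ e, |a e|) * N) := by positivity
        simp only [Bd]
        linarith
      | inr i =>
        simp only [fdata, fldV, Sum.elim_inr, abs_mul]
        refine (mul_le_mul (abs_topMask_le c i) (abs_rotate_le hU x i) (abs_nonneg _) zero_le_one).trans ?_
        simp only [Bd, one_mul]
        exact le_add_of_nonneg_right (by positivity)
    · simp only [fdata, abs_mul, abs_div, abs_two, Bd]
      exact (mul_le_mul_of_nonneg_left (abs_enV_le a c hU x) (by positivity)).trans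
        (le_add_of_nonneg_left (by positivity))
    · have h := Finset.single_le_sum (f := fun l : Fin k => |σ ((l : ℕ) + 1)| + |τ ((l : ℕ) + 1)|)
        (fun _ _ => by positivity) (Finset.mem_univ l)
      cases i <;> simp only [ampV, Sum.elim_inl, Sum.elim_inr] <;>
        linarith [abs_nonneg (σ ((l : ℕ) + 1)), abs_nonneg (τ ((l : ℕ) + 1))]
  · positivity

theorem tame_coord_sq (l : Fin k) (i : Fld N) :
    Tame (gaussSize (Fld N)) fun (z : Fin k → Fld N → ℝ) (_ : Fin N → Bool) => z l i ^ 2 :=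
  ((tame_coord (X := Fin N → Bool) l i).mul (tame_coord l i)).congr fun _ _ => (pow_two _).symm

theorem tame_obs (φ : (Fin N → Bool) → ℝ) :
    Tame (gaussSize (Fld N)) fun (_ : Fin k → Fld N → ℝ) s => φ s :=
  tame_bmeas ⟨measurable_of_countable _, ∑ s, |φ s|,
    fun s => Finset.single_le_sum (f := fun s => |φ s|) (fun _ _ => abs_nonneg _) (Finset.mem_univ s)⟩

theorem hamU_update (U : Fin N → Fin N → ℝ) (l : Fin k) (i : Fin N) (z : Fin k → Fld N → ℝ)
    (s : Fin N → Bool) (t : ℝ) :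
    hamU β a c σ τ U (Function.update z l (Function.update (z l) (.inr i) t)) s
      = hamU β a c σ τ U z s + (t - z l (.inr i)) * (τ ((l : ℕ) + 1) * (topMask c i * rotate U s i)) := by
  simp only [hamU_eq, gham]
  have hu : ∀ (l' : Fin k) (i' : Fld N), Function.update z l (Function.update (z l) (.inr i) t) l' i'
      = z l' i' + if l' = l ∧ i' = .inr i then t - z l (.inr i) else 0 := fun l' i' => by
    by_cases h1 : l' = l
    · subst h1
      by_cases h2 : i' = .inr i
      · subst h2; simp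
      · simp [h2]
    · simp [h1]
  simp only [hu, mul_add, add_mul, mul_ite, ite_mul, mul_zero, zero_mul, add_sub_right_comm,
    Finset.sum_add_distrib, ite_and]
  simp only [Finset.sum_ite_irrel, Finset.sum_ite_eq', Finset.mem_univ, if_true, Finset.sum_const_zero]
  simp only [fdata, fldV, ampV, Sum.elim_inr]
  ring

section Coord

variable {ι X : Type} [Fintype ι] [DecidableEq ι] [MeasurableSpace X] {μ : Measure X}
  [IsFiniteMeasure μ] [NeZero μ] {H : (Fin k → ι → ℝ) → X → ℝ}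

/-- The second moment of a field coordinate whose derivative of the Hamiltonian is `e`. -/
theorem cnd_field_sq_le (hH : LinB (gaussSize ι) H) (l : Fin k) (i : ι) {e : X → ℝ}
    (he : BMeas e)
    (hder : ∀ z x, HasDerivAt (fun t => H (Function.update z l (Function.update (z l) i t)) x) (e x) (z l i)) :
    cnd (stdG ι) μ H (fun z _ => z l i ^ 2) 0 (fun _ _ => 0)
      ≤ 2 + 4 * cnd (stdG ι) μ H (fun _ x => e x ^ 2) 0 (fun _ _ => 0) := by
  have hz : Tame (gaussSize ι) fun (z : Fin k → ι → ℝ) (_ : X) => z l i := tame_coord l i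
  have tv : Tame (gaussSize ι) fun (_ : Fin k → ι → ℝ) x => e x := tame_bmeas he
  have t1 : Tame (gaussSize ι) fun (_ : Fin k → ι → ℝ) (_ : X) => (1 : ℝ) :=
    Tame.of_bdd measurable_const (B := 1) fun _ _ => by simp
  have tz : Tame (gaussSize ι) fun (z : Fin k → ι → ℝ) (_ : X) => z l i ^ 2 :=
    (hz.mul hz).congr fun _ _ => (pow_two _).symm
  have te : Tame (gaussSize ι) fun (_ : Fin k → ι → ℝ) x => e x ^ 2 :=
    (tv.mul tv).congr fun _ _ => (pow_two _).symm
  have hderφ : ∀ (z : Fin k → ι → ℝ) (_ : X), HasDerivAt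
      (fun t => (Function.update z l (Function.update (z l) i t)) l i) 1 (z l i) :=
    fun z _ => by simp only [Function.update_self]; exact hasDerivAt_id' _
  have h := P157.Rsb.cnd_ibp (μ := μ) (φ := fun z _ => z l i) (dφ := fun _ _ => (1 : ℝ))
    i l hH hz tv t1 hder hderφ (Nat.zero_le _) fun _ _ => 0
  rw [show (fun (z : Fin k → ι → ℝ) (_ : X) => z l i * z l i) = fun z _ => z l i ^ 2 from
    funext₂ fun _ _ => (pow_two _).symm] at h
  set A := cnd (stdG ι) μ H (fun z _ => z l i ^ 2) 0 fun _ _ => 0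
  set Y := cnd (stdG ι) μ H (fun _ x => e x ^ 2) 0 fun _ _ => 0
  have hA0 : 0 ≤ A := P157.Rsb.cnd_nonneg (fun z _ => sq_nonneg _) 0 _
  have hY0 : 0 ≤ Y := P157.Rsb.cnd_nonneg (fun _ x => sq_nonneg _) 0 _
  have h1 : cnd (stdG ι) μ H (fun z x => 1 + z l i * e x) 0 (fun _ _ => 0) ≤ 1 + A / 4 + Y := by
    refine (P157.Rsb.cnd_mono hH (t1.add (hz.mul tv)) ((t1.add (tz.const_mul (1 / 4))).add te)
      (fun z x => by nlinarith [sq_nonneg (z l i / 2 - e x)]) 0 _).trans (le_of_eq ?_)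
    rw [P157.Rsb.cnd_add hH (t1.add (tz.const_mul (1 / 4))) te,
      P157.Rsb.cnd_add hH t1 (tz.const_mul (1 / 4)), P157.Rsb.cnd_const hH, P157.Rsb.cnd_const_mul]
    ring
  have h2 : ∀ l' ∈ Finset.Icc ((l : ℕ) + 1) k, -(A / 4 + Y) ≤ cnd (stdG ι) μ H
      (fun z _ => cnd (stdG ι) μ H (fun z _ => z l i) l' z * cnd (stdG ι) μ H (fun _ x => e x) l' z) 0
      (fun _ _ => 0) := fun l' _ => by
    have tu := P157.Rsb.cnd_tame (μ := μ) hH hz l'
    have tw := P157.Rsb.cnd_tame (μ := μ) hH tv l'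
    have tr1 := P157.Rsb.cnd_tame (μ := μ) hH tz l'
    have tr2 := P157.Rsb.cnd_tame (μ := μ) hH te l'
    refine le_trans (le_of_eq ?_) (P157.Rsb.cnd_mono hH (((tr1.const_mul (1 / 4)).add tr2).const_mul (-1))
      (tu.mul tw) (fun z x => ?_) 0 _)
    · rw [P157.Rsb.cnd_const_mul, P157.Rsb.cnd_add hH (tr1.const_mul _) tr2, P157.Rsb.cnd_const_mul,
        P157.Rsb.cnd_tower hH (Nat.zero_le _), P157.Rsb.cnd_tower hH (Nat.zero_le _)]
      ring
    · have b1 := P157.Rsb.cnd_sq_le (μ := μ) hH hz l' z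
      have b2 := P157.Rsb.cnd_sq_le (μ := μ) hH tv l' z
      nlinarith [sq_nonneg (cnd (stdG ι) μ H (fun z _ => z l i) l' z / 2
        + cnd (stdG ι) μ H (fun _ x => e x) l' z)]
  have h3 := Finset.card_nsmul_le_sum _ _ _ h2
  rw [nsmul_eq_mul] at h3
  have h5 : P157.Rsb.mass k * ((Finset.Icc ((l : ℕ) + 1) k).card : ℝ) ≤ 1 := by
    rw [P157.Rsb.mass, one_div_mul_eq_div, div_le_one (by positivity), Nat.card_Icc]
    exact_mod_cast (Nat.sub_le _ _)
  have h4 := mul_le_mul_of_nonneg_left h3 (P157.Rsb.mass_pos (k := k)).le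
  nlinarith [h1, h4, mul_le_mul_of_nonneg_right h5 (show 0 ≤ A / 4 + Y by linarith)]

end Coord

/-- The second moment of a field coordinate under the cascade. -/
theorem cnd_coord_sq_le (U : Fin N → Fin N → ℝ) (l : Fin k) (i : Fin N) :
    cnd (stdG (Fld N)) (cubeLaw N) (hamU β a c σ τ U) (fun z _ => z l (.inr i) ^ 2) 0 (fun _ _ => 0)
      ≤ 2 + 4 * cnd (stdG (Fld N)) (cubeLaw N) (hamU (k := k) β a c σ τ U)
          (fun _ s => (τ ((l : ℕ) + 1) * (topMask c i * rotate U s i)) ^ 2) 0 (fun _ _ => 0) := by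
  refine cnd_field_sq_le (hamU_linB β a c U σ τ) l (Sum.inr i)
    ⟨measurable_of_countable _, ∑ s : Fin N → Bool, |τ ((l : ℕ) + 1) * (topMask c i * rotate U s i)|,
      fun s => Finset.single_le_sum (f := fun s => |τ ((l : ℕ) + 1) * (topMask c i * rotate U s i)|)
        (fun _ _ => abs_nonneg _) (Finset.mem_univ s)⟩ fun z s => ?_
  simp only [hamU_update]
  simpa using (((hasDerivAt_id' (z l (.inr i))).sub_const (z l (.inr i))).mul_const
    (τ ((l : ℕ) + 1) * (topMask c i * rotate U s i))).const_add (hamU β a c σ τ U z s)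

/-- The coefficient of a squared coordinate. -/
noncomputable def coefB (k : ℕ) (i : Fin N) : ℝ :=
  (β * a (c i) - (∑ l : Fin k, τ ((l : ℕ) + 1) ^ 2) * topMask c i) / 2

/-- The bound on the coefficients. -/
noncomputable def coefK (k : ℕ) : ℝ := (|β| * (∑ e, |a e|) + ∑ l : Fin k, τ ((l : ℕ) + 1) ^ 2) / 2

theorem abs_coefB_le (i : Fin N) : |coefB β a c τ k i| ≤ coefK β a τ k := by
  rw [coefB, coefK, abs_div, abs_two]
  refine div_le_div_of_nonneg_right ((abs_sub _ _).trans (add_le_add ?_ ?_)) zero_le_two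
  · rw [abs_mul]
    exact mul_le_mul_of_nonneg_left
      (Finset.single_le_sum (f := fun e => |a e|) (fun _ _ => abs_nonneg _) (Finset.mem_univ _)) (abs_nonneg _)
  · rw [abs_mul, abs_of_nonneg (Finset.sum_nonneg fun l _ => sq_nonneg _)]
    exact mul_le_of_le_one_right (Finset.sum_nonneg fun l _ => sq_nonneg _) (abs_topMask_le c i)

/-- The vector met by a displacement in the energy. -/
noncomputable def y0 (k : ℕ) (U : Fin N → Fin N → ℝ) (s : Fin N → Bool) : Fin N → ℝ :=
  fun i => 2 * coefB β a c τ k i * rotate U s i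

/-- The vector met by a displacement in one level of fields. -/
noncomputable def yl (z : Fin k → Fld N → ℝ) (l : Fin k) : Fin N → ℝ :=
  fun i => topMask c i * z l (.inr i)

theorem hamU_diff (U V : Fin N → Fin N → ℝ) (z : Fin k → Fld N → ℝ) (s : Fin N → Bool) :
    hamU β a c σ τ V z s - hamU β a c σ τ U z s
      = y0 β a c τ k U s ⬝ᵥ (rotate V s - rotate U s)
        + (∑ l : Fin k, τ ((l : ℕ) + 1) * (yl c z l ⬝ᵥ (rotate V s - rotate U s)))
        + ∑ i, coefB β a c τ k i * (rotate V s i - rotate U s i) ^ 2 := by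
  simp only [hamU, topSq, dotProduct, y0, yl, coefB, Pi.sub_apply, mul_sub, Finset.sum_sub_distrib]
  have e : ∀ W : Fin N → Fin N → ℝ,
      ∑ l : Fin k, (σ ((l : ℕ) + 1) * ∑ i, z l (.inl i) * spin (s i)
        + τ ((l : ℕ) + 1) * ∑ i, topMask c i * z l (.inr i) * rotate W s i)
      = (∑ l : Fin k, σ ((l : ℕ) + 1) * ∑ i, z l (.inl i) * spin (s i))
        + ∑ l : Fin k, τ ((l : ℕ) + 1) * ∑ i, topMask c i * z l (.inr i) * rotate W s i :=
    fun W => Finset.sum_add_distrib
  rw [e, e]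
  generalize ∑ l : Fin k, σ ((l : ℕ) + 1) * ∑ i, z l (.inl i) * spin (s i) = S
  generalize ∑ l : Fin k, σ ((l : ℕ) + 1) ^ 2 = S'
  generalize ∑ l : Fin k, τ ((l : ℕ) + 1) ^ 2 = T
  simp only [Finset.mul_sum]
  have key : ∀ i, β / 2 * (a (c i) * rotate V s i ^ 2) - β / 2 * (a (c i) * rotate U s i ^ 2)
      - (T / 2 * (topMask c i * rotate V s i ^ 2) - T / 2 * (topMask c i * rotate U s i ^ 2))
      = 2 * ((β * a (c i) - T * topMask c i) / 2) * rotate U s i * rotate V s i
        - 2 * ((β * a (c i) - T * topMask c i) / 2) * rotate U s i * rotate U s i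
        + (β * a (c i) - T * topMask c i) / 2 * (rotate V s i - rotate U s i) ^ 2 := fun i => by ring
  have h := Finset.sum_congr (s₁ := Finset.univ) rfl fun i _ => key i
  simp only [Finset.sum_sub_distrib, Finset.sum_add_distrib] at h
  linarith

/-- The pointwise bound for one linear term. -/
theorem move_dot_sq {U : Fin N → Fin N → ℝ} {j : Fin N} {A : Fin N → Fin N → ℝ} (hA : InK j.val A)
    (s : Fin N → Bool) (y : Fin N → ℝ) :
    (y ⬝ᵥ (rotate (mul U (refl j A)) s - rotate U s)) ^ 2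
      ≤ 16 * (app (tr U) y j ^ 2 * (1 + (qcol j A ⬝ᵥ spv s) ^ 2)
          + (qcol j A ⬝ᵥ app (tr U) y) ^ 2 * (1 + (qcol j A ⬝ᵥ spv s) ^ 2)) := by
  obtain ⟨α, γ, he, hα, hγ⟩ := hh_move (col_unit hA.1 j) (spv s)
  set η := app (tr U) y
  set p := qcol j A ⬝ᵥ spv s
  have h1 : |spv s j| = 1 := by simp only [spv]; cases s j <;> simp [spin]
  rw [h1] at hα hγ
  replace hα : |α| ≤ 2 * (1 + |p|) := hα
  replace hγ : |γ| ≤ 2 * (1 + |p|) := hγ
  have e : y ⬝ᵥ (rotate (mul U (refl j A)) s - rotate U s) = α * η j + γ * (qcol j A ⬝ᵥ η) := by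
    rw [rotate_eq_app, rotate_eq_app, app_mul, refl]
    rw [show app U (app (hh j (app A (bas j))) (spv s)) - app U (spv s)
        = app U (app (hh j (app A (bas j))) (spv s) - spv s) from (mulVec_sub _ _ _).symm, he,
      app_transpose_dot, dotProduct_add, dotProduct_smul, dotProduct_smul, dot_bas, smul_eq_mul,
      smul_eq_mul, dotProduct_comm (app (tr U) y) (qdir _ _)]
    rfl
  rw [e]
  set u := qcol j A ⬝ᵥ η
  have ha : α ^ 2 ≤ 4 * (1 + |p|) ^ 2 := by
    have := pow_le_pow_left₀ (abs_nonneg α) hα 2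
    rw [sq_abs] at this
    linarith
  have hg : γ ^ 2 ≤ 4 * (1 + |p|) ^ 2 := by
    have := pow_le_pow_left₀ (abs_nonneg γ) hγ 2
    rw [sq_abs] at this
    linarith
  have hp : (1 + |p|) ^ 2 ≤ 2 * (1 + p ^ 2) := by nlinarith [sq_nonneg (1 - |p|), sq_abs p]
  nlinarith [sq_nonneg (α * η j - γ * u), mul_le_mul_of_nonneg_right ha (sq_nonneg (η j)),
    mul_le_mul_of_nonneg_right hg (sq_nonneg u), mul_le_mul_of_nonneg_left hp (sq_nonneg (η j)),
    mul_le_mul_of_nonneg_left hp (sq_nonneg u)]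

theorem move_norm_sq {U : Fin N → Fin N → ℝ} (hU : IsOrth U) {j : Fin N} {A : Fin N → Fin N → ℝ}
    (hA : InK j.val A) (s : Fin N → Bool) :
    (rotate (mul U (refl j A)) s - rotate U s) ⬝ᵥ (rotate (mul U (refl j A)) s - rotate U s)
      ≤ 32 * (1 + (qcol j A ⬝ᵥ spv s) ^ 2) := by
  obtain ⟨α, γ, he, hα, hγ⟩ := hh_move (col_unit hA.1 j) (spv s)
  set q := qcol j A with hq
  set p := q ⬝ᵥ spv s
  have h1 : |spv s j| = 1 := by simp only [spv]; cases s j <;> simp [spin]
  rw [h1] at hα hγ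
  replace hα : |α| ≤ 2 * (1 + |p|) := hα
  replace hγ : |γ| ≤ 2 * (1 + |p|) := hγ
  have hqj : q j = 0 := qdir_zero (fun i hi => hA.col_zero le_rfl hi) le_rfl
  rw [rotate_eq_app, rotate_eq_app, app_mul, refl,
    show app U (app (hh j (app A (bas j))) (spv s)) - app U (spv s)
        = app U (app (hh j (app A (bas j))) (spv s) - spv s) from (mulVec_sub _ _ _).symm, he, app_dot hU]
  change (α • bas j + γ • q) ⬝ᵥ (α • bas j + γ • q) ≤ _
  have e1 : bas j ⬝ᵥ q = 0 := by rw [dotProduct_comm, dot_bas, hqj]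
  have e2 : bas j ⬝ᵥ bas j = 1 := by rw [dot_bas]; simp [bas]
  simp only [add_dotProduct, dotProduct_add, smul_dotProduct, dotProduct_smul, e1,
    dotProduct_comm q (bas j), e2, smul_eq_mul]
  have hqq : q ⬝ᵥ q ≤ 1 := qcol_mem j hA
  have ha : α ^ 2 ≤ 4 * (1 + |p|) ^ 2 := by
    have := pow_le_pow_left₀ (abs_nonneg α) hα 2
    rw [sq_abs] at this
    linarith
  have hg : γ ^ 2 ≤ 4 * (1 + |p|) ^ 2 := by
    have := pow_le_pow_left₀ (abs_nonneg γ) hγ 2
    rw [sq_abs] at this
    linarith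
  have hp : (1 + |p|) ^ 2 ≤ 2 * (1 + p ^ 2) := by nlinarith [sq_nonneg (1 - |p|), sq_abs p]
  nlinarith [mul_le_mul_of_nonneg_left hqq (sq_nonneg γ)]

/-- The mean bound for one linear term. -/
noncomputable def termB (j : Fin N) (U : Fin N → Fin N → ℝ) (y : Fin N → ℝ) : ℝ :=
  16 * (3 * app (tr U) y j ^ 2 + 5 * (y ⬝ᵥ y) / (after j).card)

/-- The mean bound for the squared change of the Hamiltonian. -/
noncomputable def moveB (U : Fin N → Fin N → ℝ) (j : Fin N) (z : Fin k → Fld N → ℝ)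
    (s : Fin N → Bool) : ℝ :=
  3 * (termB j U (y0 β a c τ k U s) + k * (∑ l : Fin k, τ ((l : ℕ) + 1) ^ 2 * termB j U (yl c z l))
    + 8192 * coefK β a τ k ^ 2)

theorem integral_move_le {m : Measure (Fin N → Fin N → ℝ)} (hm : IsHaarOrth m)
    {U : Fin N → Fin N → ℝ} (hU : IsOrth U) (j : Fin N) (z : Fin k → Fld N → ℝ) (s : Fin N → Bool) :
    ∫ A, (hamU β a c σ τ (mul U (refl j A)) z s - hamU β a c σ τ U z s) ^ 2 ∂stage m j.val
      ≤ moveB β a c τ U j z s := by
  set μ := stage m j.val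
  have hμ : IsInv j.val μ := isInv_stage hm _ j.2.le
  have := hμ.prob
  set K := coefK β a τ k
  set x := spv s
  have hx : ∀ i, x i ^ 2 ≤ 1 := fun i => le_of_eq (spin_sq _)
  set η : (Fin N → ℝ) → Fin N → ℝ := fun y => app (tr U) y
  set T : (Fin N → ℝ) → (Fin N → Fin N → ℝ) → ℝ := fun y A =>
    16 * (η y j ^ 2 * (1 + (qcol j A ⬝ᵥ x) ^ 2) + (qcol j A ⬝ᵥ η y) ^ 2 * (1 + (qcol j A ⬝ᵥ x) ^ 2))
  have i2 := integrable_qcol hμ.ae x 2
  have i4 := fun v => integrable_qcol hμ.ae v 4
  have imix : ∀ v, Integrable (fun A => (qcol j A ⬝ᵥ v) ^ 2 * (1 + (qcol j A ⬝ᵥ x) ^ 2)) μ := fun v => by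
    refine Integrable.mono' (((i4 v).add (i4 x)).add (integrable_const (1 : ℝ)))
      ((integrable_qcol hμ.ae v 2).1.mul ((integrable_const (1 : ℝ)).fun_add i2).1)
      (ae_of_all _ fun A => ?_)
    rw [norm_eq_abs, abs_of_nonneg (by positivity)]
    simp only [Pi.add_apply]
    nlinarith [sq_nonneg ((qcol j A ⬝ᵥ v) ^ 2 - (qcol j A ⬝ᵥ x) ^ 2), sq_nonneg ((qcol j A ⬝ᵥ v) ^ 2 - 1),
      sq_nonneg ((qcol j A ⬝ᵥ x) ^ 2 - 1)]
  have iT : ∀ y, Integrable (T y) μ := fun y =>
    ((((integrable_const (1 : ℝ)).fun_add i2).const_mul _).fun_add (imix _)).const_mul 16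
  have hT : ∀ y, ∫ A, T y A ∂μ ≤ termB j U y := fun y => by
    simp only [T, termB]
    rw [integral_const_mul, integral_add (((integrable_const (1 : ℝ)).fun_add i2).const_mul _) (imix _),
      integral_const_mul, integral_add (integrable_const _) i2, integral_const, probReal_univ, one_smul]
    obtain ⟨hmix, hfour⟩ := qcol_mixed hm j (η y) x hx
    have h2 : ∫ A, (qcol j A ⬝ᵥ x) ^ 2 ∂μ ≤ 2 := by
      refine (integral_mono i2 (((i4 x).fun_add (integrable_const (1 : ℝ))).div_const 2) fun A => ?_).trans ?_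
      · nlinarith [sq_nonneg ((qcol j A ⬝ᵥ x) ^ 2 - 1)]
      · rw [integral_div, integral_add (i4 x) (integrable_const _), integral_const, probReal_univ, one_smul]
        linarith
    have hy : η y ⬝ᵥ η y = y ⬝ᵥ y := app_dot (isOrth_tr hU) _ _
    rw [hy] at hmix
    nlinarith [mul_le_mul_of_nonneg_left h2 (sq_nonneg (η y j))]
  have iQ : Integrable (fun A => 2048 * (K ^ 2 * (1 + (qcol j A ⬝ᵥ x) ^ 4))) μ :=
    (((integrable_const (1 : ℝ)).fun_add (i4 x)).const_mul _).const_mul _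
  have iS : Integrable (fun A => ∑ l : Fin k, τ ((l : ℕ) + 1) ^ 2 * T (yl c z l) A) μ :=
    integrable_finsetSum _ fun l _ => (iT _).const_mul _
  have iM := (((iT (y0 β a c τ k U s)).fun_add (iS.const_mul (k : ℝ))).fun_add iQ).const_mul 3
  refine (integral_mono_of_nonneg (ae_of_all _ fun A => sq_nonneg _) iM (hμ.ae.mono fun A hA => ?_)).trans ?_
  · dsimp only
    rw [hamU_diff]
    set δ := rotate (mul U (refl j A)) s - rotate U s
    set p := qcol j A ⬝ᵥ x
    have b1 : (y0 β a c τ k U s ⬝ᵥ δ) ^ 2 ≤ T (y0 β a c τ k U s) A := move_dot_sq hA s _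
    have b2 : (∑ l : Fin k, τ ((l : ℕ) + 1) * (yl c z l ⬝ᵥ δ)) ^ 2
        ≤ k * ∑ l : Fin k, τ ((l : ℕ) + 1) ^ 2 * T (yl c z l) A := by
      refine (sq_sum_le_card_mul_sum_sq).trans ?_
      rw [Finset.card_univ, Fintype.card_fin]
      refine mul_le_mul_of_nonneg_left (Finset.sum_le_sum fun l _ => ?_) (Nat.cast_nonneg k)
      rw [mul_pow]
      exact mul_le_mul_of_nonneg_left (move_dot_sq hA s _) (sq_nonneg _)
    have b3 : (∑ i, coefB β a c τ k i * (rotate (mul U (refl j A)) s i - rotate U s i) ^ 2) ^ 2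
        ≤ 2048 * (K ^ 2 * (1 + p ^ 4)) := by
      have h1 : |∑ i, coefB β a c τ k i * δ i ^ 2| ≤ K * (δ ⬝ᵥ δ) := by
        refine (Finset.abs_sum_le_sum_abs _ _).trans ?_
        simp only [dotProduct, Finset.mul_sum, ← sq]
        refine Finset.sum_le_sum fun i _ => ?_
        rw [abs_mul, abs_of_nonneg (sq_nonneg (δ i))]
        exact mul_le_mul_of_nonneg_right (abs_coefB_le β a c τ i) (sq_nonneg _)
      have hK0 : 0 ≤ K := (abs_nonneg _).trans (abs_coefB_le β a c τ j)
      have h2 : δ ⬝ᵥ δ ≤ 32 * (1 + p ^ 2) := move_norm_sq hU hA s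
      have h3 := pow_le_pow_left₀ (abs_nonneg _) (h1.trans (mul_le_mul_of_nonneg_left h2 hK0)) 2
      rw [sq_abs] at h3
      refine h3.trans ?_
      nlinarith [mul_nonneg (sq_nonneg K) (sq_nonneg (1 - p ^ 2))]
    nlinarith [sq_nonneg (y0 β a c τ k U s ⬝ᵥ δ - ∑ l : Fin k, τ ((l : ℕ) + 1) * (yl c z l ⬝ᵥ δ)),
      sq_nonneg (y0 β a c τ k U s ⬝ᵥ δ
        - ∑ i, coefB β a c τ k i * (rotate (mul U (refl j A)) s i - rotate U s i) ^ 2),
      sq_nonneg ((∑ l : Fin k, τ ((l : ℕ) + 1) * (yl c z l ⬝ᵥ δ))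
        - ∑ i, coefB β a c τ k i * (rotate (mul U (refl j A)) s i - rotate U s i) ^ 2)]
  · rw [integral_const_mul, integral_add ((iT _).fun_add (iS.const_mul (k : ℝ))) iQ,
      integral_add (iT _) (iS.const_mul (k : ℝ)), integral_const_mul (k : ℝ),
      integral_finsetSum _ fun l _ => (iT _).const_mul _, integral_const_mul (2048 : ℝ), integral_const_mul (K ^ 2),
      integral_add (integrable_const _) (i4 x), integral_const, probReal_univ, one_smul, moveB]
    refine mul_le_mul_of_nonneg_left (add_le_add (add_le_add (hT _) (mul_le_mul_of_nonneg_left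
      (Finset.sum_le_sum fun l _ => ?_) (Nat.cast_nonneg k))) ?_) (by norm_num)
    · rw [integral_const_mul]
      exact mul_le_mul_of_nonneg_left (hT _) (sq_nonneg _)
    · nlinarith [mul_le_mul_of_nonneg_left (qcol_mixed hm j (spv s) x hx).2 (sq_nonneg K)]

theorem sum_termB_le {U : Fin N → Fin N → ℝ} (hU : IsOrth U) (y : Fin N → ℝ) :
    ∑ j, termB j U y ≤ 16 * (3 + 5 * (1 + log N)) * (y ⬝ᵥ y) := by
  have hy : ∑ j, app (tr U) y j ^ 2 = y ⬝ᵥ y := by
    rw [← app_dot (isOrth_tr hU) y y]; simp [dotProduct, sq]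
  simp only [termB, ← Finset.mul_sum, Finset.sum_add_distrib, hy, div_eq_mul_one_div (5 * (y ⬝ᵥ y))]
  have h0 : 0 ≤ y ⬝ᵥ y := Finset.sum_nonneg fun i _ => mul_self_nonneg _
  nlinarith [mul_le_mul_of_nonneg_left (sum_inv_card (N := N)) h0]

theorem sum_moveB_le {U : Fin N → Fin N → ℝ} (hU : IsOrth U) (z : Fin k → Fld N → ℝ) (s : Fin N → Bool) :
    ∑ j, moveB β a c τ U j z s ≤ 3 * (16 * (3 + 5 * (1 + log N)) * (4 * coefK β a τ k ^ 2 * N
      + k * ∑ l : Fin k, τ ((l : ℕ) + 1) ^ 2 * ∑ i, z l (.inr i) ^ 2) + 8192 * coefK β a τ k ^ 2 * N) := by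
  set L := 16 * (3 + 5 * (1 + log (N : ℝ))) with hL
  have hL0 : 0 ≤ L := by
    have := log_natCast_nonneg N
    positivity
  set K := coefK β a τ k
  simp only [moveB, ← Finset.mul_sum, Finset.sum_add_distrib, Finset.sum_const, Finset.card_univ,
    Fintype.card_fin, nsmul_eq_mul]
  have h0 : y0 β a c τ k U s ⬝ᵥ y0 β a c τ k U s ≤ 4 * K ^ 2 * N := by
    rw [← sum_sq_rotate hU s, Finset.mul_sum]
    refine Finset.sum_le_sum fun i _ => ?_
    simp only [y0]
    have hb := pow_le_pow_left₀ (abs_nonneg _) (abs_coefB_le (k := k) β a c τ i) 2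
    rw [sq_abs] at hb
    nlinarith [mul_le_mul_of_nonneg_right hb (sq_nonneg (rotate U s i))]
  have hz : ∀ l : Fin k, yl c z l ⬝ᵥ yl c z l ≤ ∑ i, z l (.inr i) ^ 2 := fun l =>
    Finset.sum_le_sum fun i _ => by
      simp only [yl]
      have := pow_le_pow_left₀ (abs_nonneg _) (abs_topMask_le c i) 2
      rw [sq_abs, one_pow] at this
      nlinarith [mul_le_mul_of_nonneg_right this (sq_nonneg (z l (.inr i)))]
  refine mul_le_mul_of_nonneg_left (add_le_add ?_ (le_of_eq (by ring))) (by norm_num)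
  rw [mul_add L]
  refine add_le_add ((sum_termB_le hU _).trans (mul_le_mul_of_nonneg_left h0 hL0)) ?_
  rw [← mul_assoc L, mul_comm L (k : ℝ), mul_assoc, Finset.sum_comm]
  refine mul_le_mul_of_nonneg_left ?_ (Nat.cast_nonneg k)
  rw [Finset.mul_sum]
  refine Finset.sum_le_sum fun l _ => ?_
  rw [← Finset.mul_sum, mul_left_comm]
  exact mul_le_mul_of_nonneg_left ((sum_termB_le hU _).trans (mul_le_mul_of_nonneg_left (hz l) hL0)) (sq_nonneg _)

theorem tame_moveB (U : Fin N → Fin N → ℝ) (j : Fin N) :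
    Tame (gaussSize (Fld N)) fun (z : Fin k → Fld N → ℝ) s => moveB β a c τ U j z s := by
  have tc : ∀ r : ℝ, Tame (gaussSize (Fld N)) fun (_ : Fin k → Fld N → ℝ) (_ : Fin N → Bool) => r :=
    fun r => tame_obs fun _ => r
  have tB : ∀ (y : (Fin k → Fld N → ℝ) → (Fin N → Bool) → Fin N → ℝ),
      (∀ i, Tame (gaussSize (Fld N)) fun z s => y z s i) →
      Tame (gaussSize (Fld N)) fun z s => termB j U (y z s) := fun y hy => by
    have h1 : Tame (gaussSize (Fld N)) fun z s => app (tr U) (y z s) j :=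
      (Tame.sum Finset.univ fun i _ => (hy i).const_mul (tr U j i)).congr fun z s => rfl
    have h2 : Tame (gaussSize (Fld N)) fun z s => y z s ⬝ᵥ y z s :=
      (Tame.sum Finset.univ fun i _ => (hy i).mul (hy i)).congr fun z s => rfl
    exact ((((h1.mul h1).const_mul 3).add (h2.const_mul (5 / ((after j).card : ℝ)))).const_mul 16).congr
      fun z s => by simp only [termB]; ring
  exact ((((tB _ fun i => tame_obs fun s => y0 β a c τ k U s i).add
    ((Tame.sum Finset.univ fun l _ => (tB (fun z _ => yl c z l) fun i =>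
      (tame_coord (X := Fin N → Bool) l (Sum.inr i : Fld N)).const_mul (topMask c i)).const_mul
        (τ ((l : ℕ) + 1) ^ 2)).const_mul (k : ℝ))).add (tc (8192 * coefK β a τ k ^ 2))).const_mul 3).congr
    fun z s => rfl

/-- The constant of the variance bound. -/
noncomputable def varC (k : ℕ) (K T : ℝ) : ℝ :=
  3 * (128 * (4 * K ^ 2 + k * T * (2 + 4 * T)) + 8192 * K ^ 2)

/-- The root has variance `O (N log N)` under the Haar law. -/
theorem rootU_var_le {m : Measure (Fin N → Fin N → ℝ)} (hm : IsHaarOrth m) :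
    Integrable (fun U => (rootU k β a c σ τ U - ∫ V, rootU k β a c σ τ V ∂m) ^ 2) m ∧
    ∫ U, (rootU k β a c σ τ U - ∫ V, rootU k β a c σ τ V ∂m) ^ 2 ∂m
      ≤ 2 * varC k (coefK β a τ k) (∑ l : Fin k, τ ((l : ℕ) + 1) ^ 2) * (N * (1 + log N)) := by
  have := hm.1
  set C₀ := |β| / 2 * ((∑ e, |a e|) * N)
    + (∑ l : Fin k, (σ ((l : ℕ) + 1) ^ 2 + τ ((l : ℕ) + 1) ^ 2)) / 2 * N
  have hC₀ : 0 ≤ C₀ := by positivity
  have hroot : ∀ U, IsOrth U → |rootU k β a c σ τ U| ≤ C₀ := fun U hU => by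
    have h1 := abs_rootU_amp_le (k := k) β a c hU σ τ
    have h2 := abs_rootU_zero_le (k := k) (β := β) a c hU
    have := abs_sub_abs_le_abs_sub (rootU k β a c σ τ U) (rootU k β a c (fun _ => 0) (fun _ => 0) U)
    simp only [C₀]
    linarith
  set F : (Fin N → Fin N → ℝ) → ℝ := fun U => max (-C₀) (min C₀ (rootU k β a c σ τ U))
  have hFm : Measurable F :=
    measurable_const.max (measurable_const.min (rootU_meas (k := k) β a c σ τ))
  have hFC : ∀ U, |F U| ≤ C₀ := fun U =>
    abs_le.2 ⟨le_max_left _ _, max_le (by linarith) (min_le_left _ _)⟩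
  have hFe : ∀ U, IsOrth U → F U = rootU k β a c σ τ U := fun U hU => by
    have := abs_le.1 (hroot U hU)
    simp only [F]
    rw [min_eq_right this.2, max_eq_right this.1]
  have hae : F =ᵐ[m] fun U => rootU k β a c σ τ U := hm.2.1.mono fun U hU => hFe U hU
  have hmean : ∫ V, F V ∂m = ∫ V, rootU k β a c σ τ V ∂m := integral_congr_ae hae
  refine ⟨((integrable_of_abs_le ((hFm.sub_const _).pow_const 2) (C := (C₀ + |∫ V, F V ∂m|) ^ 2)
    fun U => by
      rw [abs_pow]; exact pow_le_pow_left₀ (abs_nonneg _) ((abs_sub _ _).trans (by linarith [hFC U])) 2).congr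
    (hae.mono fun U hU => by simp only [hmean, hU])), ?_⟩
  rw [← hmean, ← integral_congr_ae (hae.mono fun U hU => by simp only [hU] :
    (fun U => (F U - ∫ V, F V ∂m) ^ 2) =ᵐ[m] fun U => (rootU k β a c σ τ U - ∫ V, F V ∂m) ^ 2)]
  refine (var_le hm hFm hFC).trans ?_
  -- the squared change of the Hamiltonian under the cascade
  set w := gaussSize (Fld N)
  set z₀ : Fin k → Fld N → ℝ := fun _ _ => 0
  set φ : Fin N → (Fin N → Fin N → ℝ) → (Fin N → Fin N → ℝ) → (Fin k → Fld N → ℝ) → (Fin N → Bool) → ℝ :=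
    fun j U A z s => (hamU β a c σ τ (mul U (refl j A)) z s - hamU β a c σ τ U z s) ^ 2
  set Ψ : Fin N → (Fin N → Fin N → ℝ) → (Fin N → Fin N → ℝ) → ℝ :=
    fun j U A => cnd (stdG (Fld N)) (cubeLaw N) (hamU β a c σ τ U) (φ j U A) 0 z₀
  obtain ⟨CH, hCH, hb⟩ := hamU_bound (k := k) β a c σ τ
  set A₁ := 4 * CH ^ 2 + CH + 2 with hA₁
  have hA₁0 : 0 ≤ A₁ := by positivity
  have hφb : ∀ (j : Fin N) U, IsOrth U → ∀ A, InK j.val A → ∀ z s,
      |φ j U A z s| ≤ A₁ * exp (A₁ * w.tot z) := fun j U hU A hA z s => by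
    simp only [φ]
    rw [abs_pow]
    have h1 := (abs_sub _ _).trans
      (add_le_add (hb _ (hU.mul (inK_refl hA).1) z s) (hb U hU z s))
    refine (pow_le_pow_left₀ (abs_nonneg _) h1 2).trans ?_
    have ht := w.tot_nonneg z
    have h2 : (1 + w.tot z) ^ 2 ≤ exp (2 * w.tot z) := by
      rw [show 2 * w.tot z = w.tot z + w.tot z by ring, exp_add, sq]
      have := add_one_le_exp (w.tot z)
      exact mul_le_mul (by linarith) (by linarith) (by linarith) (exp_pos _).le
    have h3 : exp (2 * w.tot z) ≤ exp (A₁ * w.tot z) :=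
      exp_le_exp.2 (mul_le_mul_of_nonneg_right (by rw [hA₁]; nlinarith) ht)
    calc (CH * (1 + w.tot z) + CH * (1 + w.tot z)) ^ 2 = 4 * CH ^ 2 * (1 + w.tot z) ^ 2 := by ring
      _ ≤ A₁ * exp (A₁ * w.tot z) :=
        mul_le_mul (by rw [hA₁]; linarith) (h2.trans h3) (sq_nonneg _) hA₁0
  have hφm : ∀ j : Fin N, Measurable
      fun q : (((Fin N → Fin N → ℝ) × (Fin N → Fin N → ℝ)) × (Fin k → Fld N → ℝ)) × (Fin N → Bool) =>
        φ j q.1.1.1 q.1.1.2 q.1.2 q.2 := fun j => by
    have hH := hamU_meas (k := k) β a c σ τ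
    have := (measurable_refl j)
    exact ((hH.comp (f := fun q : (((Fin N → Fin N → ℝ) × (Fin N → Fin N → ℝ)) × (Fin k → Fld N → ℝ))
        × (Fin N → Bool) => ((mul q.1.1.1 (refl j q.1.1.2), q.1.2), q.2))
      (((measurable_mul₂.comp ((measurable_fst.comp (measurable_fst.comp measurable_fst)).prodMk
        (this.comp (measurable_snd.comp (measurable_fst.comp measurable_fst))))).prodMk
        (measurable_snd.comp measurable_fst)).prodMk measurable_snd)).sub
      (hH.comp (f := fun q : (((Fin N → Fin N → ℝ) × (Fin N → Fin N → ℝ)) × (Fin k → Fld N → ℝ))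
        × (Fin N → Bool) => ((q.1.1.1, q.1.2), q.2)) (by fun_prop))).pow_const 2
  have hΨm : ∀ j, Measurable fun p : (Fin N → Fin N → ℝ) × (Fin N → Fin N → ℝ) => Ψ j p.1 p.2 := fun j =>
    P157.Rsb.cnd_measurable_param_at (H := fun p : (Fin N → Fin N → ℝ) × (Fin N → Fin N → ℝ) =>
        hamU (k := k) β a c σ τ p.1) (φ := fun p => φ j p.1 p.2)
      ((hamU_meas β a c σ τ).comp (f := fun q : (((Fin N → Fin N → ℝ) × (Fin N → Fin N → ℝ))
        × (Fin k → Fld N → ℝ)) × (Fin N → Bool) => ((q.1.1.1, q.1.2), q.2)) (by fun_prop)) (hφm j) 0 _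
  obtain ⟨A₂, hA₂, hc⟩ := P157.Rsb.cnd_bound_unif (k := k) (μ := cubeLaw N) w
    (show 0 ≤ max A₁ CH from hA₁0.trans (le_max_left _ _))
  set CΨ := A₂ * exp (A₂ * w.tot z₀)
  have hΨC : ∀ (j : Fin N) U, IsOrth U → ∀ A, InK j.val A → |Ψ j U A| ≤ CΨ := fun j U hU A hA =>
    hc _ (φ j U A) (hamU_linB β a c U σ τ).meas
      ((hφm j).comp (f := fun q : (Fin k → Fld N → ℝ) × (Fin N → Bool) => (((U, A), q.1), q.2)) (by fun_prop))
      (fun z s => (hb U hU z s).trans (mul_le_mul_of_nonneg_right (le_max_right _ _)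
        (by linarith [w.tot_nonneg z])))
      (fun z s => Tame.mono_bound hA₁0 (le_max_left _ _) (hφb j U hU A hA) z s) 0 _
  set G : Fin N → (Fin N → Fin N → ℝ) → ℝ := fun j U => ∫ A, Ψ j U A ∂stage m j.val
  have hG : ∀ j, Integrable (G j) m ∧
      ∫ A, moveSq m F j A ∂stage m j.val ≤ 2 * ∫ U, G j U ∂m := fun j => by
    set μ := stage m j.val
    have hμ : IsInv j.val μ := isInv_stage hm _ j.2.le
    have := hμ.prob
    have iP : Integrable (Function.uncurry (Ψ j)) (m.prod μ) := by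
      refine Integrable.of_bound (hΨm j).aestronglyMeasurable CΨ ?_
      filter_upwards [Measure.quasiMeasurePreserving_fst.ae hm.2.1,
        Measure.quasiMeasurePreserving_snd.ae hμ.ae] with p h1 h2
      rw [Real.norm_eq_abs]
      exact hΨC j _ h1 _ h2
    refine ⟨iP.integral_prod_left, ?_⟩
    simp only [G]
    rw [integral_integral_swap iP, ← integral_const_mul]
    refine integral_mono_of_nonneg (ae_of_all _ fun A => integral_nonneg fun U => sq_nonneg _)
      (iP.integral_prod_right.const_mul 2) (hμ.ae.mono fun A hA => ?_)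
    simp only [moveSq]
    set R := refl j A with hR
    have hRo : IsOrth R := (inK_refl hA).1
    have i1 : Integrable (fun U => Ψ j U A) m :=
      Integrable.of_bound ((hΨm j).comp measurable_prodMk_right).aestronglyMeasurable CΨ
        (hm.2.1.mono fun U hU => by rw [Real.norm_eq_abs]; exact hΨC j U hU A hA)
    have hmap : m.map (fun U => mul U R) = m := (isInv_zero hm).map_right (inK_zero.2 hRo)
    have hmR : Measurable fun U : Fin N → Fin N → ℝ => mul U R := (continuous_mul_right R).measurable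
    have i2 : Integrable (fun U => Ψ j (mul U R) A) m := by
      have h := i1
      rw [← hmap] at h
      exact h.comp_measurable hmR
    have hpt : ∀ U, IsOrth U → (F (mul U R) - F U) ^ 2 ≤ Ψ j U A + Ψ j (mul U R) A := fun U hU => by
      have hV : IsOrth (mul U R) := hU.mul hRo
      rw [hFe U hU, hFe _ hV]
      have hHU : LinB w (hamU (k := k) β a c σ τ U) := hamU_linB β a c U σ τ
      have hHV : LinB w (hamU (k := k) β a c σ τ (mul U R)) := hamU_linB β a c _ σ τ
      set ψ := fun z s => hamU (k := k) β a c σ τ (mul U R) z s - hamU β a c σ τ U z s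
      have t1 := P157.Rsb.cnd_exp_le (μ := cubeLaw N) hHU hHV 0 z₀
      have t2 := P157.Rsb.cnd_exp_le (μ := cubeLaw N) hHV hHU 0 z₀
      have e2 : (fun z s => hamU (k := k) β a c σ τ U z s - hamU β a c σ τ (mul U R) z s)
          = fun z s => (-1) * ψ z s := funext₂ fun z s => by simp only [ψ]; ring
      rw [e2, P157.Rsb.cnd_const_mul] at t2
      have hψ : Tame w ψ := hHV.tame.sub hHU.tame
      have s1 := P157.Rsb.cnd_sq_le (μ := cubeLaw N) hHU hψ 0 z₀
      have s2 := P157.Rsb.cnd_sq_le (μ := cubeLaw N) hHV hψ 0 z₀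
      have e3 : Ψ j (mul U R) A = cnd (stdG (Fld N)) (cubeLaw N) (hamU β a c σ τ (mul U R))
          (fun z s => ψ z s ^ 2) 0 z₀ := by
        simp only [Ψ, φ, ψ, ← hR]
        rw [hR, mul_refl_refl hA]
        congr 1
        funext z s
        ring
      rw [e3]
      change _ ≤ cnd (stdG (Fld N)) (cubeLaw N) (hamU β a c σ τ U) (fun z s => ψ z s ^ 2) 0 z₀ + _
      simp only [rootU]
      rcases le_or_gt 0 (val (stdG (Fld N)) (cubeLaw N) (hamU (k := k) β a c σ τ (mul U R)) 0 z₀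
        - val (stdG (Fld N)) (cubeLaw N) (hamU (k := k) β a c σ τ U) 0 z₀) with h | h
      · have := P157.Rsb.cnd_nonneg (γ := stdG (Fld N)) (μ := cubeLaw N) (H := hamU (k := k) β a c σ τ U)
          (φ := fun z s => ψ z s ^ 2) (fun z s => sq_nonneg _) 0 z₀
        nlinarith [pow_le_pow_left₀ h (show _ ≤ cnd (stdG (Fld N)) (cubeLaw N)
          (hamU β a c σ τ (mul U R)) ψ 0 z₀ by linarith) 2]
      · have := P157.Rsb.cnd_nonneg (γ := stdG (Fld N)) (μ := cubeLaw N)
          (H := hamU (k := k) β a c σ τ (mul U R)) (φ := fun z s => ψ z s ^ 2) (fun z s => sq_nonneg _) 0 z₀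
        nlinarith [pow_le_pow_left₀ (show 0 ≤ -(val (stdG (Fld N)) (cubeLaw N)
            (hamU (k := k) β a c σ τ (mul U R)) 0 z₀
          - val (stdG (Fld N)) (cubeLaw N) (hamU (k := k) β a c σ τ U) 0 z₀) by linarith)
          (show _ ≤ -cnd (stdG (Fld N)) (cubeLaw N) (hamU β a c σ τ U) ψ 0 z₀ by linarith) 2]
    refine (integral_mono_of_nonneg (ae_of_all _ fun U => sq_nonneg _) (i1.add i2)
      (hm.2.1.mono fun U hU => hpt U hU)).trans (le_of_eq ?_)
    simp only [Pi.add_apply]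
    rw [integral_add i1 i2]
    have e4 : ∫ U, Ψ j (mul U R) A ∂m = ∫ U, Ψ j U A ∂m := by
      conv_rhs => rw [← hmap]
      rw [integral_map hmR.aemeasurable (f := fun U => Ψ j U A)
        ((hΨm j).comp measurable_prodMk_right).aestronglyMeasurable]
    rw [e4]
    ring
  refine (Finset.sum_le_sum fun j _ => (hG j).2).trans ?_
  rw [← Finset.mul_sum, ← integral_finsetSum _ fun j _ => (hG j).1, mul_assoc]
  refine mul_le_mul_of_nonneg_left ?_ zero_le_two
  set T := ∑ l : Fin k, τ ((l : ℕ) + 1) ^ 2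
  set K := coefK β a τ k
  refine (integral_mono_ae (integrable_finsetSum _ fun j _ => (hG j).1)
    (integrable_const (varC k K T * (N * (1 + log N)))) (hm.2.1.mono fun U hU => ?_)).trans (le_of_eq (by simp))
  set H := hamU (k := k) β a c σ τ U
  have hH : LinB w H := hamU_linB β a c U σ τ
  have h1 : ∀ j, G j U ≤ cnd (stdG (Fld N)) (cubeLaw N) H (moveB β a c τ U j) 0 z₀ := fun j => by
    set μ := stage m j.val
    have hμ : IsInv j.val μ := isInv_stage hm _ j.2.le
    have := hμ.prob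
    have hm' : Measurable fun q : ((Fin N → Fin N → ℝ) × (Fin k → Fld N → ℝ)) × (Fin N → Bool) =>
        φ j U q.1.1 q.1.2 q.2 :=
      (hφm j).comp (f := fun q : ((Fin N → Fin N → ℝ) × (Fin k → Fld N → ℝ)) × (Fin N → Bool) =>
        (((U, q.1.1), q.1.2), q.2)) (by fun_prop)
    simp only [G, Ψ]
    rw [cnd_integral hH hm' hA₁0 (hμ.ae.mono fun A hA => hφb j U hU A hA)]
    refine P157.Rsb.cnd_mono hH ⟨?_, A₁, hA₁0, fun z s => ?_⟩ (tame_moveB β a c τ U j)
      (fun z s => integral_move_le β a c σ τ hm hU j z s) 0 z₀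
    · exact ((hm'.comp (f := fun q : ((Fin k → Fld N → ℝ) × (Fin N → Bool)) × (Fin N → Fin N → ℝ) =>
        ((q.2, q.1.1), q.1.2)) (by fun_prop)).stronglyMeasurable.integral_prod_right' (ν := μ)).measurable
    · have h := norm_integral_le_of_norm_le_const (μ := μ) (f := fun A => φ j U A z s)
        (C := A₁ * exp (A₁ * w.tot z)) (hμ.ae.mono fun A hA => (norm_eq_abs _).trans_le (hφb j U hU A hA z s))
      simpa using h
  set L := 16 * (3 + 5 * (1 + log (N : ℝ))) with hL
  have hlog := log_natCast_nonneg N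
  have hL0 : 0 ≤ L := by positivity
  have tz : Tame w fun (z : Fin k → Fld N → ℝ) (_ : Fin N → Bool) =>
      ∑ l : Fin k, τ ((l : ℕ) + 1) ^ 2 * ∑ i, z l (.inr i) ^ 2 :=
    Tame.sum _ fun l _ => (Tame.sum _ fun i _ => tame_coord_sq l (.inr i)).const_mul _
  refine (Finset.sum_le_sum fun j _ => h1 j).trans ?_
  rw [← P157.Rsb.cnd_finsum hH _ fun j _ => tame_moveB β a c τ U j]
  refine (P157.Rsb.cnd_mono hH (Tame.sum _ fun j _ => tame_moveB β a c τ U j)
    ((((tame_obs fun _ => 4 * K ^ 2 * N).add (tz.const_mul (k : ℝ))).const_mul L).add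
      (tame_obs fun _ => 8192 * K ^ 2 * N) |>.const_mul 3)
    (fun z s => sum_moveB_le β a c τ hU z s) 0 z₀).trans ?_
  rw [P157.Rsb.cnd_const_mul, P157.Rsb.cnd_add hH
      (((tame_obs fun _ => 4 * K ^ 2 * N).add (tz.const_mul (k : ℝ))).const_mul L) (tame_obs fun _ => _),
    P157.Rsb.cnd_const_mul, P157.Rsb.cnd_add hH (tame_obs fun _ => _) (tz.const_mul (k : ℝ)),
    P157.Rsb.cnd_const hH, P157.Rsb.cnd_const hH, P157.Rsb.cnd_const_mul,
    P157.Rsb.cnd_finsum hH _ fun l _ => (Tame.sum _ fun i _ => tame_coord_sq l (.inr i)).const_mul _]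
  have hS : ∑ l : Fin k, cnd (stdG (Fld N)) (cubeLaw N) H
      (fun z _ => τ ((l : ℕ) + 1) ^ 2 * ∑ i, z l (.inr i) ^ 2) 0 z₀ ≤ T * ((2 + 4 * T) * N) := by
    simp only [T, Finset.sum_mul]
    refine Finset.sum_le_sum fun l _ => ?_
    rw [P157.Rsb.cnd_const_mul, P157.Rsb.cnd_finsum hH _ fun i _ => tame_coord_sq l (.inr i)]
    refine mul_le_mul_of_nonneg_left ((Finset.sum_le_sum fun i _ =>
      cnd_coord_sq_le β a c σ τ U l i).trans ?_) (sq_nonneg _)
    have hT : τ ((l : ℕ) + 1) ^ 2 ≤ T :=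
      Finset.single_le_sum (f := fun l : Fin k => τ ((l : ℕ) + 1) ^ 2) (fun _ _ => sq_nonneg _) (Finset.mem_univ l)
    rw [Finset.sum_add_distrib, Finset.sum_const, Finset.card_univ, Fintype.card_fin, nsmul_eq_mul,
      ← Finset.mul_sum,
      ← P157.Rsb.cnd_finsum hH _ fun i _ => tame_obs fun s => (τ ((l : ℕ) + 1) * (topMask c i * rotate U s i)) ^ 2]
    have hb2 : cnd (stdG (Fld N)) (cubeLaw N) H
        (fun _ s => ∑ i, (τ ((l : ℕ) + 1) * (topMask c i * rotate U s i)) ^ 2) 0 z₀ ≤ T * N := by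
      refine (P157.Rsb.cnd_mono hH (tame_obs fun s => ∑ i, (τ ((l : ℕ) + 1) * (topMask c i * rotate U s i)) ^ 2)
        (tame_obs fun _ => T * N) (fun z s => ?_) 0 z₀).trans (le_of_eq (P157.Rsb.cnd_const hH _ 0 _))
      rw [← sum_sq_rotate hU s, Finset.mul_sum]
      refine Finset.sum_le_sum fun i _ => ?_
      rw [mul_pow, mul_pow, topMask_sq]
      refine mul_le_mul hT (mul_le_of_le_one_left (sq_nonneg _) (le_of_abs_le (abs_topMask_le c i)))
        (mul_nonneg (by unfold topMask; split_ifs <;> norm_num) (sq_nonneg _))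
        (Finset.sum_nonneg fun _ _ => sq_nonneg _)
    linarith
  have hN : (0 : ℝ) ≤ N := Nat.cast_nonneg N
  have hkS := mul_le_mul_of_nonneg_left (mul_le_mul_of_nonneg_left hS (Nat.cast_nonneg (α := ℝ) k)) hL0
  have hT0 : 0 ≤ T := Finset.sum_nonneg fun _ _ => sq_nonneg _
  have hLb : L ≤ 128 * (1 + log N) := by rw [hL]; linarith
  have hX : 0 ≤ 4 * K ^ 2 * N + k * (T * ((2 + 4 * T) * N)) := by positivity
  have h4 := mul_le_mul_of_nonneg_right hLb hX
  have h5 := mul_nonneg (mul_nonneg (sq_nonneg K) hN) hlog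
  simp only [varC]
  linarith

/-- Module B: the value at the root concentrates. -/
theorem concStmt : ConcStmt := by
  intro d A k B ε hε
  set B₁ := (∑ e, |A.a e|) + (d + 1) * |B|
  set K₁ := (|B| * B₁ + k * B ^ 2) / 2
  set V := 2 * varC k K₁ (k * B ^ 2)
  have hlim : Filter.Tendsto (fun N : ℕ => V * ((1 + log (N : ℝ)) / N)) Filter.atTop (nhds 0) := by
    have h1 : Filter.Tendsto (fun N : ℕ => log (N : ℝ) / N) Filter.atTop (nhds 0) :=
      Real.isLittleO_log_id_atTop.tendsto_div_nhds_zero.comp tendsto_natCast_atTop_atTop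
    have h2 : Filter.Tendsto (fun N : ℕ => 1 / (N : ℝ)) Filter.atTop (nhds 0) :=
      tendsto_const_div_atTop_nhds_zero_nat 1
    simpa [add_div] using (h2.add h1).const_mul V
  obtain ⟨N₀, hN₀⟩ := Filter.eventually_atTop.1
    ((hlim.eventually (eventually_le_nhds (pow_pos hε 2))).and (Filter.eventually_ge_atTop 1))
  refine ⟨1, one_pos, N₀, fun N hN c _ m hm β h hβ hh0 hhB σ τ _ hτ => ?_⟩
  obtain ⟨hVN, hN1⟩ := hN₀ N hN
  have hNr : (0 : ℝ) < N := by exact_mod_cast hN1
  have := hm.1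
  set a := raise A.a h
  obtain ⟨hI, hvar⟩ := rootU_var_le (k := k) β a c σ τ hm
  have ha : ∑ e, |a e| ≤ B₁ := by
    refine (Finset.sum_le_sum (g := fun e => |A.a e| + |B|) fun e _ => ?_).trans (le_of_eq ?_)
    · simp only [a, raise]
      refine (abs_add_le _ _).trans (add_le_add le_rfl ?_)
      split_ifs
      · rw [abs_of_nonneg hh0]; exact hhB.trans (le_abs_self B)
      · simp
    · simp [B₁, Finset.sum_add_distrib]
  have hτ2 : ∑ l : Fin k, τ ((l : ℕ) + 1) ^ 2 ≤ k * B ^ 2 := by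
    refine (Finset.sum_le_sum fun l _ => ?_).trans (le_of_eq (a := ∑ _l : Fin k, B ^ 2) (by simp))
    rw [← sq_abs]; exact pow_le_pow_left₀ (abs_nonneg _) (hτ _) 2
  have hT0 : 0 ≤ ∑ l : Fin k, τ ((l : ℕ) + 1) ^ 2 := Finset.sum_nonneg fun _ _ => sq_nonneg _
  have hK : coefK β a τ k ≤ K₁ := by
    refine div_le_div_of_nonneg_right (add_le_add ?_ hτ2) zero_le_two
    exact mul_le_mul (hβ.trans (le_abs_self B)) ha (Finset.sum_nonneg fun _ _ => abs_nonneg _) (abs_nonneg B)
  have hK0 : 0 ≤ coefK β a τ k := by unfold coefK; positivity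
  have hV : 2 * varC k (coefK β a τ k) (∑ l : Fin k, τ ((l : ℕ) + 1) ^ 2) ≤ V := by
    simp only [V, varC]
    gcongr
  have hlog := log_natCast_nonneg N
  set M := ∫ U, rootU k β a c σ τ U ∂m
  have hfree : (N : ℝ) * freeU m k β a c σ τ = M := mul_div_cancel₀ _ hNr.ne'
  rw [hfree]
  have hεN : 0 < ε * N := mul_pos hε hNr
  refine (integral_mono_of_nonneg (ae_of_all _ fun U => abs_nonneg _)
    ((hI.div_const (2 * (ε * N))).fun_add (integrable_const (ε * N / 2)))
    (ae_of_all _ fun U => ?_)).trans ?_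
  · have h2 := two_mul_le_add_sq |rootU k β a c σ τ U - M| (ε * N)
    rw [sq_abs] at h2
    rw [← sub_nonneg] at h2 ⊢
    have e : (rootU k β a c σ τ U - M) ^ 2 / (2 * (ε * N)) + ε * N / 2 - |rootU k β a c σ τ U - M|
        = ((rootU k β a c σ τ U - M) ^ 2 + (ε * N) ^ 2 - 2 * |rootU k β a c σ τ U - M| * (ε * N))
          / (2 * (ε * N)) := by field_simp
    rw [e]
    positivity
  rw [integral_add (hI.div_const _) (integrable_const _), integral_div, integral_const, probReal_univ,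
    one_smul]
  have h3 : ∫ U, (rootU k β a c σ τ U - M) ^ 2 ∂m ≤ (ε * N) ^ 2 := by
    refine hvar.trans ((mul_le_mul_of_nonneg_right hV (by positivity)).trans ?_)
    have := mul_le_mul_of_nonneg_right hVN (sq_nonneg (N : ℝ))
    have e : V * ((1 + log (N : ℝ)) / N) * (N : ℝ) ^ 2 = V * (N * (1 + log N)) := by field_simp
    nlinarith
  have h4 := div_le_div_of_nonneg_right h3 (show 0 ≤ 2 * (ε * N) by positivity)
  have e5 : (ε * (N : ℝ)) ^ 2 / (2 * (ε * N)) = ε * N / 2 := by field_simp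
  linarith

end Vale.Agent.P166.Rsb
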