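import Vale.Agent.P166.Rsb.Cav.Increment
import Vale.Agent.P166.Rsb.Cav.Consist
import Vale.Agent.P166.Rsb.Cav.PertF
import Vale.Agent.P166.Rsb.Cav.Tele

/-!
# P166: the lower bound for atomic laws

The value averaged over small perturbations gains at least the variational value per dimension; the
increments add up over the dimension.
-/

open MeasureTheory Real Finset
open Vale.Agent.P157.Rsb (tail IsPath lift)
open Vale.Agent.P157.Cube2 (spinSup)
open Vale.Agent.P166.Rsb.Syn (PertInt)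

namespace Vale.Agent.P166.Rsb

variable {d N k : ℕ}

/-- The distance of the overlaps inside the last block of two systems. -/
noncomputable def shiftD (k : ℕ) (β : ℝ) (a : Fin (d + 1) → ℝ) {N N' : ℕ}
    (m : Measure (Fin N → Fin N → ℝ)) (c : Fin N → Fin (d + 1))
    (m' : Measure (Fin N' → Fin N' → ℝ)) (c' : Fin N' → Fin (d + 1)) (τ : ℕ → ℝ) : ℝ :=
  ∑ l ∈ Icc 1 k, |qTop m k β a c (fun _ => 0) τ l - qTop m' k β a c' (fun _ => 0) τ l|
    + |pTop m k β a c (fun _ => 0) τ - pTop m' k β a c' (fun _ => 0) τ|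

theorem shiftD_nonneg {N N' : ℕ} (β : ℝ) (a : Fin (d + 1) → ℝ) (m : Measure (Fin N → Fin N → ℝ))
    (c : Fin N → Fin (d + 1)) (m' : Measure (Fin N' → Fin N' → ℝ)) (c' : Fin N' → Fin (d + 1))
    (τ : ℕ → ℝ) : 0 ≤ shiftD k β a m c m' c' τ := by unfold shiftD; positivity

theorem pertInt_shiftD {η δ δ' : ℝ} {N' : ℕ} (β : ℝ) (α : Fin (d + 1) → ℝ)
    {m : Measure (Fin N → Fin N → ℝ)} (hm : IsHaarOrth m) (c : Fin N → Fin (d + 1))
    {m' : Measure (Fin N' → Fin N' → ℝ)} (hm' : IsHaarOrth m') (c' : Fin N' → Fin (d + 1))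
    (hN : 1 ≤ N) (hN' : 1 ≤ N') (hδ : 0 < δ) (hδ' : 0 < δ') :
    PertInt k η δ δ' fun τ h => shiftD k β (raise α h) m c m' c' τ :=
  (PertInt.sum (Icc 1 k) fun _ hl =>
    ((Syn.pertInt_qTop β α c _ hm hN hδ hδ' (mem_Icc.1 hl).2).sub
      (Syn.pertInt_qTop β α c' _ hm' hN' hδ hδ' (mem_Icc.1 hl).2)).abs).add
    ((Syn.pertInt_pTop β α c _ hm hδ hδ').sub (Syn.pertInt_pTop β α c' _ hm' hδ hδ')).abs

theorem blockCard_cons_self (c : Fin N → Fin (d + 1)) (e : Fin (d + 1)) :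
    blockCard (Fin.cons e c : Fin (N + 1) → Fin (d + 1)) e = blockCard c e + 1 := by
  simp only [blockCard, card_filter, Fin.sum_univ_succ, Fin.cons_zero, Fin.cons_succ, if_true]
  exact add_comm _ _

theorem fits_cons {A : Atoms d} {c : Fin N → Fin (d + 1)} {θ : ℝ} (hc : Fits A c θ) (hθ : 1 ≤ θ * N)
    (f : Fin (d + 1)) : Fits A (Fin.cons f c : Fin (N + 1) → Fin (d + 1)) (2 * θ) := by
  intro e
  have h := dev_cons A f e c
  have h1 := abs_ind_le A f e
  have h2 := hc e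
  have hθ0 : 0 ≤ θ := nonneg_of_mul_nonneg_left (zero_le_one.trans hθ) (by
    rcases Nat.eq_zero_or_pos N with h0 | h0
    · subst h0; simp at hθ; exact absurd hθ (by norm_num)
    · exact_mod_cast h0)
  have h3 : dev A c e = ((univ.filter fun i => c i = e).card : ℝ) - A.w e * N := rfl
  have h4 : dev A (Fin.cons f c : Fin (N + 1) → Fin (d + 1)) e
      = ((univ.filter fun i => (Fin.cons f c : Fin (N + 1) → Fin (d + 1)) i = e).card : ℝ)
        - A.w e * ((N + 1 : ℕ) : ℝ) := rfl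
  rw [← h4, h, h3]
  refine (abs_add_le _ _).trans ?_
  push_cast
  linarith

theorem fits_ref {A : Atoms d} {c cR : Fin N → Fin (d + 1)} {θ : ℝ} (hc : Fits A c θ)
    (hθ : (d : ℝ) + 1 ≤ θ * N)
    (h1 : blockCard cR (Fin.last d) = blockCard c (Fin.last d) + d)
    (h2 : ∀ e, e ≠ Fin.last d → blockCard cR e + 1 = blockCard c e) : Fits A cR (2 * θ) := by
  intro e
  have h := abs_le.1 (hc e)
  have hd : (0 : ℝ) ≤ d := Nat.cast_nonneg d
  rw [show ((univ.filter fun i => cR i = e).card : ℝ) = (blockCard cR e : ℝ) from rfl]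
  rw [show ((univ.filter fun i => c i = e).card : ℝ) = (blockCard c e : ℝ) from rfl] at h
  rcases eq_or_ne e (Fin.last d) with rfl | he
  · rw [h1]
    push_cast
    rw [abs_le]; constructor <;> linarith
  · rw [show (blockCard cR e : ℝ) = (blockCard c e : ℝ) - 1 by
      rw [← h2 e he]; push_cast; ring]
    rw [abs_le]; constructor <;> linarith

/-- The kernels of the reference and of the system with one more top direction are close. -/
theorem kerDist_le_shift {L : ℝ} {m : Measure (Fin N → Fin N → ℝ)}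
    {m' : Measure (Fin (N + 1) → Fin (N + 1) → ℝ)} (hm : IsHaarOrth m) (hm' : IsHaarOrth m')
    (β : ℝ) (a : Fin (d + 1) → ℝ) {c cR : Fin N → Fin (d + 1)}
    (hcR : blockCard cR (Fin.last d) = blockCard c (Fin.last d) + d) (hL : (N : ℝ) ≤ L * nTop cR)
    (hn : 0 < nTop cR) (hN : 1 ≤ N) (hbig : 2 * L * d ≤ N) (τ : ℕ → ℝ) :
    let c' : Fin (N + 1) → Fin (d + 1) := Fin.cons (Fin.last d) c
    kerDist k (kerK m k β a cR τ) (kerP m k β a cR τ) (kerK m' k β a c' τ) (kerP m' k β a c' τ)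
      ≤ 3 * ((k : ℝ) + 1) * L * shiftD k β a m' c' m cR τ
        + 3 * ((k : ℝ) + 1) ^ 2 * (4 * ((d : ℝ) + 2) * L ^ 2 / N) := by
  intro c'
  have hNp : (0 : ℝ) < N := by exact_mod_cast hN
  set nA := nTop c'
  set n : ℝ := (blockCard c (Fin.last d) : ℝ)
  have hA : nA = n + 1 := by simp only [nA, nTop, c', blockCard_cons_self, n]; push_cast; ring
  have hR : nTop cR = n + d := by simp only [nTop, hcR, n]; push_cast; ring
  have hn0 : 0 ≤ n := Nat.cast_nonneg _
  have hd : (0 : ℝ) ≤ d := Nat.cast_nonneg d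
  have hnA : 0 < nA := by rw [hA]; linarith
  have hL0 : 0 < L := pos_of_mul_pos_left (hNp.trans_le hL) hn.le
  set κ := 4 * ((d : ℝ) + 2) * L ^ 2 / N
  have hA' : (N : ℝ) ≤ 2 * L * nA := by
    rw [hA]; rw [hR, mul_add] at hL
    linarith
  -- the two ratios
  have hnN : n ≤ N := by
    simp only [n]
    exact_mod_cast (card_le_univ _).trans_eq (Fintype.card_fin N)
  have hratio : |(N : ℝ) / nTop cR - ((N + 1 : ℕ) : ℝ) / nA| ≤ κ := by
    have e : (N : ℝ) / nTop cR - ((N + 1 : ℕ) : ℝ) / nA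
        = (N * nA - ((N : ℝ) + 1) * nTop cR) / (nTop cR * nA) := by
      push_cast
      rw [div_sub_div _ _ hn.ne' hnA.ne']
      ring
    have hnum : |N * nA - ((N : ℝ) + 1) * nTop cR| ≤ 2 * ((d : ℝ) + 2) * N := by
      have p0 := mul_nonneg hd hNp.le
      have p1 := mul_le_mul_of_nonneg_left (show (1 : ℝ) ≤ N by exact_mod_cast hN) hd
      rw [hA, hR, abs_le]
      constructor <;> linarith
    have hden : (N : ℝ) ^ 2 ≤ 2 * L ^ 2 * (nTop cR * nA) := by
      calc (N : ℝ) ^ 2 = (N : ℝ) * N := sq _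
        _ ≤ (L * nTop cR) * (2 * L * nA) := mul_le_mul hL hA' hNp.le (by positivity)
        _ = _ := by ring
    rw [e, abs_div, abs_of_pos (mul_pos hn hnA), div_le_iff₀ (mul_pos hn hnA)]
    refine hnum.trans ?_
    simp only [κ]
    rw [div_mul_eq_mul_div, le_div_iff₀ hNp]
    have := mul_le_mul_of_nonneg_left hden (show 0 ≤ 2 * ((d : ℝ) + 2) by linarith)
    linarith
  have key : ∀ x y : ℝ, 0 ≤ y → y ≤ 1 →
      |x * N / nTop cR - y * ((N + 1 : ℕ) : ℝ) / nA| ≤ L * |y - x| + κ := fun x y y0 y1 => by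
    rw [show x * (N : ℝ) / nTop cR - y * ((N + 1 : ℕ) : ℝ) / nA
      = (x - y) * ((N : ℝ) / nTop cR) + y * ((N : ℝ) / nTop cR - ((N + 1 : ℕ) : ℝ) / nA) by ring]
    refine (abs_add_le _ _).trans (add_le_add ?_ ?_)
    · rw [abs_mul, abs_sub_comm, mul_comm L, abs_of_nonneg (div_nonneg hNp.le hn.le)]
      exact mul_le_mul_of_nonneg_left ((div_le_iff₀ hn).2 hL) (abs_nonneg _)
    · rw [abs_mul, abs_of_nonneg y0]
      exact (mul_le_of_le_one_left (abs_nonneg _) y1).trans hratio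
  have hP := key (pTop m k β a cR (fun _ => 0) τ) (pTop m' k β a c' (fun _ => 0) τ)
    (Syn.pTop_mem β c' _ hm' τ a).1 (Syn.pTop_mem β c' _ hm' τ a).2
  have hK : ∀ l ∈ Icc 1 k, |kerK m k β a cR τ l - kerK m' k β a c' τ l|
      ≤ L * |qTop m' k β a c' (fun _ => 0) τ l - qTop m k β a cR (fun _ => 0) τ l| + κ := fun l hl => by
    have h := P157.Rsb.path_mem (isPath_qTop (k := k) β a c' hm' (Nat.le_add_left 1 N) (fun _ => 0) τ)
      (mem_Icc.1 hl).2
    exact key _ _ h.1 h.2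
  have hS := sum_le_sum hK
  rw [sum_add_distrib, ← mul_sum, sum_const, Nat.card_Icc, nsmul_eq_mul, Nat.add_sub_cancel] at hS
  have hS' := mul_le_mul_of_nonneg_left hS (show 0 ≤ 3 * ((k : ℝ) + 1) by positivity)
  have hk : (1 : ℝ) ≤ 3 * ((k : ℝ) + 1) := by linarith [(Nat.cast_nonneg k : (0 : ℝ) ≤ k)]
  have hp0 := mul_le_mul_of_nonneg_right hk
    (mul_nonneg hL0.le (abs_nonneg (pTop m' k β a c' (fun _ => 0) τ - pTop m k β a cR (fun _ => 0) τ)))
  have hκ0 : 0 ≤ κ := by positivity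
  have hκ1 := mul_le_mul_of_nonneg_right hk hκ0
  simp only [kerDist, kerK, kerP] at *
  unfold shiftD
  linarith

/-- Module H. -/
theorem lowerStmt_of (hB : BoundsStmt) (hA : AlgStmt) (hI : ImgStmt) (hS : ShiftStmt)
    (hSync : SyncStmt) : LowerStmt := by
  intro d A β ε hβ hε
  obtain ⟨L, G, hL, hG, hGb, hbd⟩ := hB d A β hβ
  obtain ⟨C₀, hC₀⟩ := exists_spinSup_zero_le
  set R := ∑ e, |A.a e|
  set ε₁ := ε / 16
  have hε₁ : 0 < ε₁ := by positivity
  obtain ⟨Ca, hCa, hexp⟩ := exists_auxE_expand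
  obtain ⟨Cb, s, hCb, hs, hs1, h₀, hh₀, hh₀1, hstep⟩ :=
    exists_increment hA A (L := L) (G := G) (I₀ := C₀ + β * (R / 2)) hβ hG hCa hε₁
  set εb := ε₁ / (2 * Cb + 1)
  have hεb : 0 < εb := by positivity
  have hεbε : Cb * (2 * εb) ≤ ε₁ := by
    rw [← mul_assoc, ← mul_div_assoc, div_le_iff₀ (by positivity)]; linarith
  obtain ⟨C, ρ₁, θ₁, hC, hρ₁, hρ₁1, hθ₁, hN⟩ := hbd εb hεb
  obtain ⟨Cs, hCs, hsync⟩ := hSync
  set εi := ε₁ / (Cb + 1)
  have hεiε : Cb * εi ≤ ε₁ := by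
    rw [← mul_div_assoc, div_le_iff₀ (by positivity)]; linarith
  obtain ⟨Ki, hImg⟩ := hI d A β εi hβ (by positivity)
  obtain ⟨K₁, hK₁⟩ := exists_nat_ge ((Cb * (2 * C) * Cs / ε₁) ^ 2)
  refine ⟨max (max Ki K₁) 1, fun k hk => ?_⟩
  have hk1 : 1 ≤ k := (le_max_right _ _).trans hk
  have hkCs : Cb * (2 * C) * (Cs / √((k : ℝ) + 1)) ≤ ε₁ := by
    have h1 : Cb * (2 * C) * Cs / ε₁ ≤ √((k : ℝ) + 1) := by
      rw [le_sqrt (by positivity) (by positivity)]
      refine hK₁.trans ?_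
      have : (K₁ : ℝ) ≤ k := by
        exact_mod_cast ((le_max_right Ki K₁).trans (le_max_left _ 1)).trans hk
      linarith
    rw [div_le_iff₀ hε₁] at h1
    rw [← mul_div_assoc, div_le_iff₀ (by positivity)]
    linarith
  obtain ⟨ρI, hρI, hImgk⟩ := hImg k (((le_max_left Ki K₁).trans (le_max_left _ 1)).trans hk)
  obtain ⟨N₁, hN₁⟩ := hN k hk1
  -- the sizes of the perturbations
  obtain ⟨ρ, hρ, hρ1, hρI', hρh, hρρ₁, hρε⟩ : ∃ ρ : ℝ, 0 < ρ ∧ ρ ≤ 1 ∧ ρ ≤ ρI ∧ ρ ≤ h₀ ∧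
      (2 * (k : ℝ) + 1) * ρ ≤ ρ₁ ∧ ((k : ℝ) + β + 1) * ρ ≤ ε₁ := by
    refine ⟨min (min 1 ρI) (min h₀ (min (ρ₁ / (2 * k + 1)) (ε₁ / (k + β + 1)))), by positivity,
      (min_le_left _ _).trans (min_le_left _ _), (min_le_left _ _).trans (min_le_right _ _),
      (min_le_right _ _).trans (min_le_left _ _), ?_, ?_⟩
    · rw [mul_comm, ← le_div_iff₀ (by positivity)]
      exact (min_le_right _ _).trans ((min_le_right _ _).trans (min_le_left _ _))
    · rw [mul_comm, ← le_div_iff₀ (by positivity)]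
      exact (min_le_right _ _).trans ((min_le_right _ _).trans (min_le_right _ _))
  set η := ρ / 2 with hη_def
  have hη : 0 < η := by positivity
  have hk0 : (0 : ℝ) ≤ k := Nat.cast_nonneg k
  have hρk : 2 * (k : ℝ) * ρ ^ 2 ≤ ρ₁ := by
    linarith [mul_le_mul_of_nonneg_left (pow_le_of_le_one hρ.le hρ1 two_ne_zero) (show 0 ≤ 2 * (k : ℝ) by positivity)]
  have hfld : ∀ τ : ℕ → ℝ, (∀ l, |τ l| ≤ 2 * (η + η)) → fldC k τ ≤ ρ₁ := fun τ hτ => by
    refine le_trans ?_ hρk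
    have h1 : ∀ l : Fin k, τ ((l : ℕ) + 1) ^ 2 ≤ (2 * ρ) ^ 2 := fun l => by
      rw [← sq_abs (τ _)]
      exact pow_le_pow_left₀ (abs_nonneg _) ((hτ _).trans_eq (by rw [hη_def]; ring)) 2
    have h2 := sum_le_sum (s := univ) fun l _ => h1 l
    rw [sum_const, card_univ, Fintype.card_fin, nsmul_eq_mul] at h2
    unfold fldC
    linarith
  set Ck := (1 + 4 * k * ((k : ℝ) + 1)) * (3 * ((k : ℝ) + 1) * L)
  set Ck' := (1 + 4 * k * ((k : ℝ) + 1)) * (3 * ((k : ℝ) + 1) ^ 2)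
  set εsh := ε₁ / (Cb * Ck + 1)
  have hεshε : Cb * (Ck * εsh) ≤ ε₁ := by
    rw [← mul_assoc, ← mul_div_assoc, div_le_iff₀ (by positivity)]; linarith
  set εs := ε₁ / (Cb * (2 * C) + 1)
  have hεsε : Cb * (2 * C) * εs ≤ ε₁ := by
    rw [← mul_div_assoc, div_le_iff₀ (by positivity)]; linarith
  obtain ⟨θs, hθs, N₂, hN₂⟩ := hsync d A k η η ρ β β εs hη hη hρ hβ (by positivity)
  obtain ⟨θi, hθi, N₃, hN₃⟩ := hImgk η η ρ hη hη hρ (by linarith) (by linarith) hρI'
  obtain ⟨N₄, hN₄⟩ := hS d A.a β hβ k G εsh η η ρ (by positivity) hη hη hρ (by linarith)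
    (by linarith) hρ1
  set θ := min θ₁ (min θs θi) / 2 with hθ_def
  have hθ : 0 < θ := by positivity
  obtain ⟨N₅, hN₅⟩ := exists_nat_ge (((d : ℝ) + 1) / θ + 2 * L * d
    + Cb * Ck' * (4 * ((d : ℝ) + 2) * L ^ 2) / ε₁)
  set N₀ := max (max N₁ N₂) (max (max N₃ N₄) N₅) + 1
  -- the variational value
  set S := (fun q => spinSup k q + eng A.law A.top β k q) '' {q | IsPath k q}
  have h0p : IsPath k fun _ => (0 : ℝ) := ⟨rfl, fun _ _ => le_rfl, zero_le_one⟩
  have hSne : S.Nonempty := ⟨_, fun _ => (0 : ℝ), h0p, rfl⟩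
  have hSbd : BddBelow S := ⟨-(β * (R / 2)), by
    rintro _ ⟨q, hq, rfl⟩
    show _ ≤ spinSup k q + eng A.law A.top β k q
    linarith [(P157.Cube2.spin.2.1 k q hq).2.2, (abs_le.1 (A.abs_eng_le hβ.le hq)).1]⟩
  set I := sInf S
  have hIle : ∀ q, IsPath k q → I ≤ spinSup k q + eng A.law A.top β k q := fun q hq =>
    csInf_le hSbd ⟨q, hq, rfl⟩
  have hI0 : I ≤ C₀ + β * (R / 2) := by
    linarith [hIle _ h0p, hC₀ k hk1, (abs_le.1 (A.abs_eng_le hβ.le h0p)).2]
  -- the increments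
  have hinc : ∀ N, N₀ ≤ N → ∀ c : Fin N → Fin (d + 1), Fits A c θ →
      I - 7 * ε₁ ≤ ∑ e, A.w e * pertF A β k η η ρ (N + 1) (Fin.cons e c)
        - pertF A β k η η ρ N c := by
    intro N hN0 c hc
    have hNb : N₁ ≤ N ∧ N₂ ≤ N ∧ N₃ ≤ N ∧ N₄ ≤ N ∧ N₅ ≤ N ∧ 1 ≤ N := by
      refine ⟨?_, ?_, ?_, ?_, ?_, ?_⟩ <;> omega
    have hNR : (N₅ : ℝ) ≤ N := by exact_mod_cast hNb.2.2.2.2.1
    have hNp : (0 : ℝ) < N := by exact_mod_cast hNb.2.2.2.2.2
    have q1 : 0 ≤ ((d : ℝ) + 1) / θ := by positivity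
    have q2 : 0 ≤ 2 * L * d := by positivity
    have q3 : 0 ≤ Cb * Ck' * (4 * ((d : ℝ) + 2) * L ^ 2) / ε₁ := by positivity
    have hθN : (d : ℝ) + 1 ≤ θ * N := by
      have h : ((d : ℝ) + 1) / θ ≤ N := by linarith
      rw [div_le_iff₀ hθ] at h
      linarith
    have hκ : Cb * (Ck' * (4 * ((d : ℝ) + 2) * L ^ 2 / N)) ≤ ε₁ := by
      have h : Cb * Ck' * (4 * ((d : ℝ) + 2) * L ^ 2) / ε₁ ≤ N := by linarith
      rw [div_le_iff₀ hε₁] at h
      rw [← mul_assoc, ← mul_div_assoc, div_le_iff₀ hNp]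
      linarith
    have hθle : 2 * θ ≤ θ₁ ∧ 2 * θ ≤ θs ∧ 2 * θ ≤ θi := by
      refine ⟨?_, ?_, ?_⟩ <;> rw [hθ_def, mul_div_cancel₀ _ two_ne_zero]
      · exact min_le_left _ _
      · exact (min_le_right _ _).trans (min_le_left _ _)
      · exact (min_le_right _ _).trans (min_le_right _ _)
    have fits_mono : ∀ {N : ℕ} {c : Fin N → Fin (d + 1)} {x y : ℝ}, Fits A c x → x ≤ y → Fits A c y :=
      fun hf hxy e => (hf e).trans (mul_le_mul_of_nonneg_right hxy (Nat.cast_nonneg _))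
    obtain ⟨cR, hcR, hcR', hcRL, hcRn, hcav⟩ :=
      hN₁ N hNb.1 c (fits_mono hc (by linarith [hθle.1]))
    set m := (exists_isHaarOrth N).choose with hm_def
    have hm : IsHaarOrth m := (exists_isHaarOrth N).choose_spec
    set m' := (exists_isHaarOrth (N + 1)).choose with hm'_def
    have hm' : IsHaarOrth m' := (exists_isHaarOrth (N + 1)).choose_spec
    set cA : Fin (N + 1) → Fin (d + 1) := Fin.cons (Fin.last d) c with hcA
    have hnA : 0 < nTop cA := by
      simp only [nTop, hcA, blockCard_cons_self]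
      positivity
    have hsyn := hN₂ N hNb.2.1 cR (fits_mono (fits_ref hc hθN hcR hcR') hθle.2.1) m hm β le_rfl le_rfl
      (fun _ => 0) (fun l => by simpa using hβ.le)
    have himg := hN₃ (N + 1) (by omega) cA (fits_mono (fits_cons hc (by linarith) _) hθle.2.2) m' hm'
    have hsh := hN₄ (N + 1) N (by omega) hNb.2.2.2.1 (by simp) cA cR m' m hm' hm
      fun τ h hτ h1 h2 => (hcav m m' hm hm' τ (hfld τ hτ) h (by
        have : 2 * ρ ≤ ρ₁ := by
          linarith [mul_le_mul_of_nonneg_right (show (1 : ℝ) ≤ k by exact_mod_cast hk1) hρ.le]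
        rw [abs_le]; constructor <;> linarith)).1 (Fin.last d)
    -- the pointwise bound
    set Top := fun (τ : ℕ → ℝ) (h : ℝ) => topErr m k β (raise A.a h) cR (fun _ => 0) τ
    set Img := fun (τ : ℕ → ℝ) (h : ℝ) => imgDist (A.up h) β k (kerK m' k β (raise A.a h) cA τ)
      (kerP m' k β (raise A.a h) cA τ) (qSpin m' k β (raise A.a h) cA (fun _ => 0) τ)
    set Sh := fun (τ : ℕ → ℝ) (h : ℝ) => shiftD k β (raise A.a h) m' cA m cR τ
    set κ := 4 * ((d : ℝ) + 2) * L ^ 2 / N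
    set Ψ := fun (τ : ℕ → ℝ) (h : ℝ) => (I - ε₁ - Cb * (2 * εb + Ck' * κ))
      + (-(Cb * (2 * C)) * Top τ h + (-Cb * Img τ h + -(Cb * Ck) * Sh τ h))
    set Φ := fun (τ : ℕ → ℝ) (h : ℝ) =>
      ∑ e, A.w e * (((N + 1 : ℕ) : ℝ) * freeU m' k β (raise A.a h) (Fin.cons e c) (fun _ => 0) τ)
        - N * freeU m k β (raise A.a h) c (fun _ => 0) τ
    have hpt : ∀ (y : Fin k → ℝ) (h : ℝ), 0 ≤ h → h ≤ ρ → (∀ l, η ≤ y l ∧ y l ≤ η + η) →
        Ψ (lift y) h ≤ Φ (lift y) h := by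
      intro y h h0 h1 hy
      set τ := lift y
      have hτ : ∀ l, |τ l| ≤ 2 * (η + η) := fun l => by
        simp only [τ, lift]
        split_ifs
        · rw [abs_of_nonneg (hη.le.trans (hy _).1)]
          linarith [(hy ⟨l - 1, by omega⟩).2]
        · simp; positivity
      have hρh' : |h| ≤ ρ₁ := by
        rw [abs_of_nonneg h0]
        linarith [mul_nonneg hk0 hρ.le]
      obtain ⟨-, hcav2⟩ := hcav m m' hm hm' τ (hfld τ hτ) h hρh'
      obtain ⟨hup, haux⟩ := hcav2 h0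
      set a := raise A.a h
      set K := kerK m k β a cR τ
      set P := kerP m k β a cR τ
      have hK : Slot.IsKer k K P := isKer_ker β a cR hm hNb.2.2.2.2.2 τ
      have hP : P ≤ L := kerP_le β a cR hm hcRL hcRn τ
      obtain ⟨hgb, hgG⟩ := hGb h h0 (h1.trans hρ1) k K P hk1 hK hP
      set qA := qSpin m' k β a cA (fun _ => 0) τ
      set err := εb + C * Top τ h
      have hT0 : 0 ≤ Top τ h := (Syn.topErr_mem β cR _ hm hNb.2.2.2.2.2 τ a).1
      have herr : 0 ≤ err := add_nonneg hεb.le (mul_nonneg hC hT0)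
      set F := (N : ℝ) * freeU m k β a cR (fun _ => 0) τ
      have hzero : ∀ e j, auxE m' k β a (Fin.cons e c) τ 0 j 0
          = ((N + 1 : ℕ) : ℝ) * freeU m' k β a (Fin.cons e c) (fun _ => 0) τ :=
        fun e j => auxE_zero β a _ m' τ 0 j
      have hlow : ∑ e, A.w e * gainG A β h k K P e 1 0 - gainBase A β h k K P - 2 * err
          ≤ Φ τ h := by
        have h5 : ∀ e, A.w e * (F + gainG A β h k K P e 1 0 - err)
            ≤ A.w e * (((N + 1 : ℕ) : ℝ) * freeU m' k β a (Fin.cons e c) (fun _ => 0) τ) := fun e => by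
          refine mul_le_mul_of_nonneg_left ?_ (A.w_pos e).le
          rw [← hzero e 1]
          linarith [(abs_le.1 (haux e 1 0 le_rfl hk1 le_rfl zero_le_one)).1]
        have h6 := sum_le_sum (s := univ) fun e _ => h5 e
        simp only [mul_sub, mul_add, sum_sub_distrib, sum_add_distrib, ← sum_mul, A.w_sum, one_mul] at h6
        simp only [Φ]
        linarith
      have hcons : ∀ j ∈ Icc 1 k, |gainG A β h k K P (Fin.last d) j s
          - gainG A β h k K P (Fin.last d) j 0 + s / 2 * tail k qA j| ≤ 2 * err + Ca * (s * √s) := by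
        intro j hj
        obtain ⟨hj1, hjk⟩ := mem_Icc.1 hj
        have b1 := abs_le.1 (haux (Fin.last d) j s hj1 hjk hs.le hs1)
        have b2 := abs_le.1 (haux (Fin.last d) j 0 hj1 hjk le_rfl zero_le_one)
        have b3 := abs_le.1 (hexp d (N + 1) k β a cA m' hm' τ 0 j s hj1 hjk hs.le hs1)
        rw [hzero] at b2
        rw [abs_le]
        constructor <;> linarith [b1.1, b1.2, b2.1, b2.2, b3.1, b3.2]
      have hs' := hstep k hk1 h h0 (h1.trans hρh) K P hK hP hgb hgG qA I (2 * err) (Φ τ h)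
        (by positivity) hIle hI0 hlow hcons
      have hKA : Slot.IsKer k (kerK m' k β a cA τ) (kerP m' k β a cA τ) :=
        isKer_ker β a cA hm' (Nat.le_add_left 1 N) τ
      have hmove := imgDist_le (A.up h) hβ hK hKA qA
      have hdist := kerDist_le_shift (k := k) hm hm' β a hcR hcRL hcRn hNb.2.2.2.2.2 (by linarith) τ
      have h7 : imgDist (A.up h) β k K P qA ≤ Img τ h + (Ck * Sh τ h + Ck' * κ) := by
        refine hmove.trans (add_le_add le_rfl ?_)
        refine (mul_le_mul_of_nonneg_left hdist (by positivity)).trans (le_of_eq ?_)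
        simp only [Ck, Ck', Sh, κ, hcA]
        ring
      have h8 := mul_le_mul_of_nonneg_left (add_le_add (le_refl (2 * err)) h7) hCb
      simp only [Ψ]
      simp only [err] at h8 hs'
      linarith
    -- the averages
    have iT : PertInt k η η ρ Top := Syn.pertInt_topErr β A.a cR _ hm hNb.2.2.2.2.2 hη hρ
    have iI : PertInt k η η ρ Img := pertInt_imgDist A hβ cA hm' (Nat.le_add_left 1 N) hnA hη hρ
    have iS : PertInt k η η ρ Sh :=
      pertInt_shiftD β A.a hm' cA hm cR (Nat.le_add_left 1 N) hNb.2.2.2.2.2 hη hρ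
    have i2 := (iI.const_mul (-Cb)).add (iS.const_mul (-(Cb * Ck)))
    have i1 := (iT.const_mul (-(Cb * (2 * C)))).add i2
    have i0 := PertInt.const (k := k) (η := η) hη hρ (I - ε₁ - Cb * (2 * εb + Ck' * κ))
    have iU : ∀ e, PertInt k η η ρ fun τ h =>
        ((N + 1 : ℕ) : ℝ) * freeU m' k β (raise A.a h) (Fin.cons e c) (fun _ => 0) τ := fun e =>
      pertInt_freeU A _ hm' hβ.le hη.le hη hρ
    have iV := pertInt_freeU (k := k) A c hm hβ.le hη.le hη hρ
    have iW := PertInt.sum univ fun e _ => (iU e).const_mul (A.w e)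
    have hmono := Syn.pertAvg_mono hη hρ (i0.add i1) (iW.sub iV) hpt
    have hPhi : pertAvg k η η ρ Φ = ∑ e, A.w e * pertF A β k η η ρ (N + 1) (Fin.cons e c)
        - pertF A β k η η ρ N c := by
      rw [Syn.pertAvg_eq hη hρ (iW.sub iV)]
      have hP := (Syn.pertLaw_facts k η hη hρ).1
      rw [integral_sub iW iV, integral_finsetSum _ fun e _ => (iU e).const_mul (A.w e)]
      simp only [integral_const_mul, pertF, ← hm_def, ← hm'_def]
      rw [Syn.pertAvg_eq hη hρ iV]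
      simp only [integral_const_mul]
      congr 1
      exact sum_congr rfl fun e _ => by rw [Syn.pertAvg_eq hη hρ (iU e), integral_const_mul]
    rw [Syn.pertAvg_add hη hρ i0 i1, Syn.pertAvg_add hη hρ (iT.const_mul _) i2,
      Syn.pertAvg_add hη hρ (iI.const_mul _) (iS.const_mul _), Syn.pertAvg_const hη hρ,
      Syn.pertAvg_const_mul hη hρ iT, Syn.pertAvg_const_mul hη hρ iI,
      Syn.pertAvg_const_mul hη hρ iS] at hmono
    have aT := mul_le_mul_of_nonneg_left hsyn (show 0 ≤ Cb * (2 * C) by positivity)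
    have aI := mul_le_mul_of_nonneg_left (show pertAvg k η η ρ Img ≤ εi from himg) hCb
    have aS := mul_le_mul_of_nonneg_left (show pertAvg k η η ρ Sh ≤ εsh from hsh)
      (show 0 ≤ Cb * Ck by positivity)
    refine le_trans ?_ (hmono.trans_eq hPhi)
    linarith [aT, aI, aS]
  obtain ⟨B, -, hBF⟩ := abs_pertF_le A k hβ.le hη.le hη hρ
  have hclose : ((k : ℝ) * (η + η) ^ 2) / 2 + β * ρ / 2 ≤ ε₁ := by
    have h1 : (k : ℝ) * (η + η) ^ 2 ≤ k * ρ := by
      rw [show η + η = ρ by rw [hη_def]; ring]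
      exact mul_le_mul_of_nonneg_left (pow_le_of_le_one hρ.le hρ1 two_ne_zero) hk0
    linarith
  obtain ⟨θ', hθ', N', hN'⟩ := meanP_ge_of_increments A hβ.le (B := B) (I := I - 7 * ε₁) (ρ := ε₁)
    (ε := ε₁) hε₁ hθ (fun N c => pertF A β k η η ρ N c) hBF
    (fun N hN c m hm => (pertF_close A c hm hN k hβ.le hη.le hη hρ).trans
      (mul_le_mul_of_nonneg_right hclose (Nat.cast_nonneg N))) N₀ hinc
  refine ⟨θ', hθ', N', fun N hN c hc m hm => ?_⟩
  obtain ⟨x, ⟨q, hq, rfl⟩, hx⟩ := exists_lt_of_csInf_lt hSne (show sInf S < I + ε₁ by linarith)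
  refine ⟨q, hq, ?_⟩
  have := hN' N hN c hc m hm
  simp only at hx
  linarith [show ε₁ = ε / 16 from rfl]

end Vale.Agent.P166.Rsb
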