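import Vale.Agent.P157.Cube2.Upper
import Vale.Agent.P157.Cube2.SpinFacts
import Vale.Agent.P166.Rsb.Pins

/-!
# P166: the upper bound by a maximum principle in the spin amplitudes

The inverse temperature is the time. At a maximum over the amplitudes the tails of the spin overlaps
of any slightly perturbed system exceed those of the path, so the derivative of the free energy is at
most the derivative of the energy functional.
-/

open MeasureTheory Real Filter Topology Finset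
open Vale.Agent.P157.Rsb (IsPath tail lift lift_succ lift_zero tail_mem)
open Vale.Agent.P157.Cube2 (spinG spinSup cum spin spinG_cum_le)

namespace Vale.Agent.P166.Rsb

variable {d N k : ℕ} {A : Atoms d} {c : Fin N → Fin (d + 1)}
  {m : Measure (Fin N → Fin N → ℝ)}

theorem raise_zero (a : Fin (d + 1) → ℝ) : raise a 0 = a := by
  funext e
  simp [raise]

theorem sum_lift_sq (y : Fin k → ℝ) : ∑ j ∈ Icc 1 k, lift y j ^ 2 = ∑ i, y i ^ 2 := by
  rw [P157.Rsb.sum_Icc_one, ← Fin.sum_univ_eq_sum_range]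
  simp only [lift_succ]

theorem sum_tail_lift (q : ℕ → ℝ) (y : Fin k → ℝ) :
    ∑ j ∈ Icc 1 k, tail k q j * lift y j ^ 2 = ∑ i : Fin k, tail k q ((i : ℕ) + 1) * y i ^ 2 := by
  rw [P157.Rsb.sum_Icc_one, ← Fin.sum_univ_eq_sum_range]
  simp only [lift_succ]

/-- The free energy without perturbation inside the last block. -/
noncomputable def fr (m : Measure (Fin N → Fin N → ℝ)) (k : ℕ) (β : ℝ) (A : Atoms d)
    (c : Fin N → Fin (d + 1)) (σ : ℕ → ℝ) : ℝ :=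
  freeU m k β A.a c σ fun _ => 0

/-- The objective of the maximum principle. -/
noncomputable def upJ (m : Measure (Fin N → Fin N → ℝ)) (β : ℝ) (A : Atoms d)
    (c : Fin N → Fin (d + 1)) (q : ℕ → ℝ) (Cq εp : ℝ) (y : Fin k → ℝ) : ℝ :=
  fr m k β A c (lift y) - (Cq - (∑ i : Fin k, tail k q ((i : ℕ) + 1) * y i ^ 2) / 2)
    - εp * ∑ i, y i ^ 2

section Sys

variable (hC : CalcStmt) (hN : 1 ≤ N) (hm : IsHaarOrth m)
include hC hN hm

theorem pert_close {β h ρ : ℝ} (hβ : 0 ≤ β) (hρ : ρ ≤ 1) (hh : 0 ≤ h) (hhρ : h ≤ ρ) (σ τ : ℕ → ℝ)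
    (hτ : ∀ l, |τ l| ≤ ρ) :
    |freeU m k β (raise A.a h) c σ τ - fr m k β A c σ| ≤ ((k : ℝ) + β) * ρ := by
  have h2 := ((hC d N A.a c m k hN hm).2.1 β h σ τ).2.2.2
  rw [raise_zero] at h2
  refine h2.trans ?_
  have hρ0 : 0 ≤ ρ := hh.trans hhρ
  have h1 : ∑ j ∈ Icc 1 k, τ j ^ 2 ≤ k * ρ := by
    refine (sum_le_card_nsmul _ _ ρ fun j _ => ?_).trans_eq (by simp [nsmul_eq_mul])
    rw [← sq_abs, pow_two]
    exact (mul_le_mul (hτ j) ((hτ j).trans hρ) (abs_nonneg _) hρ0).trans_eq (mul_one ρ)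
  rw [abs_mul, abs_of_nonneg hβ, abs_of_nonneg hh]
  nlinarith [mul_le_mul_of_nonneg_left hhρ hβ]

theorem abs_fr_sub_le {β β' : ℝ} (hβ : β ≤ β') (σ : ℕ → ℝ) :
    |fr m k β' A c σ - fr m k β A c σ| ≤ (β' - β) * ∑ e, |A.a e| := by
  obtain ⟨ht, hb, -⟩ := hC d N A.a c m k hN hm
  have e1 := ht β β' 0 0 σ σ (fun _ => 0)
  have e2 := ht β' β 0 0 σ σ (fun _ => 0)
  have b1 := (hb β 0 σ fun _ => 0).2.2.1
  have b2 := (hb β' 0 σ fun _ => 0).2.2.1
  simp only [raise_zero, sub_self, zero_mul, mul_zero, add_zero, ne_eq, OfNat.ofNat_ne_zero,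
    not_false_eq_true, zero_pow, zero_div, sum_const_zero] at e1 e2 b1 b2
  rw [abs_le] at b1 b2 ⊢
  have hd : 0 ≤ β' - β := sub_nonneg.2 hβ
  constructor <;> simp only [fr] <;> nlinarith

theorem fr_zero_zero : fr m k 0 A c (fun _ => 0) = 0 := by
  rw [fr, (hC d N A.a c m k hN hm).2.2.2.1, meanP]
  have := hm.1
  have e : ∀ U : Fin N → Fin N → ℝ, press 0 (fun i => A.a (c i)) U = 0 := fun U => by
    simp [press]
  simp only [e, integral_zero]

theorem fr_start {q : ℕ → ℝ} (hq : IsPath k q) {β : ℝ} (hβ : 0 ≤ β) (σ : ℕ → ℝ) :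
    fr m k β A c σ
      ≤ spinSup k q - (∑ j ∈ Icc 1 k, tail k q j * σ j ^ 2) / 2 + β * ∑ e, |A.a e| := by
  have h1 := (abs_le.1 (abs_fr_sub_le (A := A) (c := c) (k := k) hC hN hm hβ σ)).2
  have h2 : fr m k 0 A c σ = spinG k (cum σ) := (hC d N A.a c m k hN hm).2.2.1 σ
  have h3 := spinG_cum_le P157.Cube2.spin hq σ
  rw [sub_zero] at h1
  linarith

theorem fr_zero_le (β : ℝ) (y : Fin k → ℝ) :
    fr m k β A c (fun _ => 0) ≤ fr m k β A c (lift y) + (∑ i, y i ^ 2) / 2 := by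
  have ht := (hC d N A.a c m k hN hm).1 β β 0 0 (fun _ => 0) (lift y) (fun _ => 0)
  simp only [raise_zero, sub_self, zero_mul, mul_zero, add_zero, neg_zero, sub_zero, zero_sub,
    sum_neg_distrib, ← sum_div, sum_lift_sq] at ht
  simp only [fr]
  linarith

theorem continuous_upJ (β : ℝ) (q : ℕ → ℝ) (Cq εp : ℝ) :
    Continuous (upJ (k := k) m β A c q Cq εp) := by
  have h := ((hC d N A.a c m k hN hm).2.2.2.2 β).1
  have h2 : Continuous fun y : Fin k → ℝ => (y, (fun _ => (0 : ℝ) : Fin k → ℝ), (0 : ℝ)) := by fun_prop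
  have h3 : Continuous fun y : Fin k → ℝ => fr m k β A c (lift y) := by
    have h4 := h.comp h2
    simp only [Function.comp_def, lift_zero, raise_zero] at h4
    exact h4
  unfold upJ
  fun_prop

end Sys

/-- One step in the inverse temperature at a maximum. -/
theorem upper_step (hC : CalcStmt) (hN : 1 ≤ N) (hm : IsHaarOrth m) {q : ℕ → ℝ} {Cq εp β β' e η R hs ρ X : ℝ}
    (hρ1 : ρ ≤ 1) (hβ : 0 ≤ β) (hββ : β ≤ β') (hη : 0 < η) (he : 0 < e) (he1 : e ≤ 1)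
    (hεp : εp = e / 9) (hhs : hs = e * η / 3) (hsmall : 2 * (((k : ℝ) + β') * ρ) ≤ e * hs * η / 6)
    {y : Fin k → ℝ} (hy : ∀ i, η ≤ y i ∧ y i + hs ≤ R)
    (hmax : ∀ y' : Fin k → ℝ, (∀ i, η ≤ y' i ∧ y' i ≤ R) →
      upJ m β' A c q Cq εp y' ≤ upJ m β' A c q Cq εp y)
    (hq : IsPath k q)
    (hE : ∃ (τ : ℕ → ℝ) (h : ℝ), (∀ l, |τ l| ≤ ρ) ∧ 0 ≤ h ∧ h ≤ ρ ∧
      ((∀ j ∈ Icc 1 k, tail k q j ≤ tail k (qSpin m k β' (raise A.a h) c (lift y) τ) j + e) →
        enU m k β' (raise A.a h) c (lift y) τ ≤ X)) :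
    upJ m β' A c q Cq εp y ≤ upJ m β A c q Cq εp y + (β' - β) * X + 2 * (((k : ℝ) + β') * ρ) := by
  obtain ⟨τ, h, hτ, hh0, hhρ, hX⟩ := hE
  have hρ0 : 0 ≤ ρ := hh0.trans hhρ
  obtain ⟨ht, hpath, -⟩ := hC d N A.a c m k hN hm
  have hβ' : 0 ≤ β' := hβ.trans hββ
  have hs0 : 0 < hs := by rw [hhs]; positivity
  have hsη : hs ≤ η := by rw [hhs]; nlinarith
  have htail : ∀ j ∈ Icc 1 k, tail k q j ≤ tail k (qSpin m k β' (raise A.a h) c (lift y) τ) j + e := by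
    intro j hj
    rw [mem_Icc] at hj
    obtain ⟨i, rfl⟩ : ∃ i : Fin k, (i : ℕ) + 1 = j := ⟨⟨j - 1, by omega⟩, by simp; omega⟩
    set y' := Function.update y i (y i + hs) with hy'
    have hbox : ∀ l, η ≤ y' l ∧ y' l ≤ R := fun l => by
      by_cases hl : l = i
      · subst hl
        rw [hy', Function.update_self]
        exact ⟨by linarith [(hy l).1], (hy l).2⟩
      · rw [hy', Function.update_of_ne hl]
        exact ⟨(hy l).1, by linarith [(hy l).2]⟩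
    have hM := hmax y' hbox
    have s1 : ∑ l : Fin k, tail k q ((l : ℕ) + 1) * y' l ^ 2
        = ∑ l : Fin k, tail k q ((l : ℕ) + 1) * y l ^ 2
          + tail k q ((i : ℕ) + 1) * ((y i + hs) ^ 2 - y i ^ 2) :=
      P157.Rsb.sum_update_sq (fun l : Fin k => tail k q ((l : ℕ) + 1)) y i (y i + hs)
    have s2 : ∑ l, y' l ^ 2 = ∑ l, y l ^ 2 + ((y i + hs) ^ 2 - y i ^ 2) := by
      simpa only [one_mul] using P157.Rsb.sum_update_sq (fun _ => (1 : ℝ)) y i (y i + hs)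
    simp only [upJ, s1, s2] at hM
    have tan := ht β' β' h h (lift y) (lift y') τ
    simp only [sub_self, zero_mul, mul_zero, add_zero] at tan
    rw [P157.Rsb.sum_Icc_one, ← Fin.sum_univ_eq_sum_range] at tan
    simp only [lift_succ] at tan
    rw [sum_eq_single_of_mem i (mem_univ i) (fun l _ hl => by
      rw [hy', Function.update_of_ne hl]; simp)] at tan
    rw [show y' i = y i + hs by rw [hy', Function.update_self], add_sub_cancel_left] at tan
    have c1 := abs_le.1 (pert_close (A := A) (c := c) (k := k) hC hN hm hβ' hρ1 hh0 hhρ (lift y) τ hτ)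
    have c2 := abs_le.1 (pert_close (A := A) (c := c) (k := k) hC hN hm hβ' hρ1 hh0 hhρ (lift y') τ hτ)
    set tq := tail k q ((i : ℕ) + 1)
    set ty := tail k (qSpin m k β' (raise A.a h) c (lift y) τ) ((i : ℕ) + 1)
    have htq := (tail_mem hq (j := (i : ℕ) + 1) (by omega)).1
    have hyi := (hy i).1
    have key : hs * (y i * tq) ≤ hs * (y i * (ty + e)) := by
      have q1 : hs ^ 2 / 2 ≤ e * hs * y i / 6 := by
        have : hs * hs ≤ hs * (e * y i / 3) := by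
          refine mul_le_mul_of_nonneg_left ?_ hs0.le
          rw [hhs]
          nlinarith
        nlinarith
      have q2 : εp * (2 * y i * hs + hs ^ 2) ≤ e * hs * y i / 3 := by
        subst hεp
        nlinarith [mul_le_mul_of_nonneg_left (hsη.trans hyi) (mul_nonneg he.le hs0.le)]
      have q3 : e * hs * η ≤ e * hs * y i := mul_le_mul_of_nonneg_left hyi (by positivity)
      have q4 : 0 ≤ tq * hs ^ 2 := mul_nonneg htq (pow_two_nonneg _)
      have q5 : 0 ≤ e * hs * y i := mul_nonneg (mul_nonneg he.le hs0.le) (hη.le.trans hyi)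
      linarith
    exact le_of_mul_le_mul_left (le_of_mul_le_mul_left key hs0) (hη.trans_le hyi)
  have tan := ht β' β h h (lift y) (lift y) τ
  simp only [sub_self, zero_mul, mul_zero, add_zero, ne_eq, OfNat.ofNat_ne_zero, not_false_eq_true,
    zero_pow, zero_div, sum_const_zero] at tan
  have c1 := abs_le.1 (pert_close (A := A) (c := c) (k := k) hC hN hm hβ' hρ1 hh0 hhρ (lift y) τ hτ)
  have c2 := abs_le.1 (pert_close (A := A) (c := c) (k := k) hC hN hm hβ hρ1 hh0 hhρ (lift y) τ hτ)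
  have h1 := mul_le_mul_of_nonneg_left (hX htail) (sub_nonneg.2 hββ)
  have h2 : ((k : ℝ) + β) * ρ ≤ ((k : ℝ) + β') * ρ := by gcongr
  simp only [upJ]
  linarith

/-- The chain of maxima along a subdivision of the temperature interval. -/
theorem upper_chain (hC : CalcStmt) (hN : 1 ≤ N) (hm : IsHaarOrth m) {q : ℕ → ℝ} (hq : IsPath k q)
    {εp e η R hs ρ β : ℝ} (hρ1 : ρ ≤ 1) (hρ0 : 0 ≤ ρ) (hη : 0 < η) (he : 0 < e) (he1 : e ≤ 1)
    (hεp : εp = e / 9) (hhs : hs = e * η / 3) (hsmall : 2 * (((k : ℝ) + β) * ρ) ≤ e * hs * η / 6)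
    {n : ℕ} {b : ℕ → ℝ} (hb0 : 0 ≤ b 0) (hb : ∀ i < n, b i ≤ b (i + 1)) (hbn : ∀ i ≤ n, b i ≤ β)
    (hηR : η ≤ R) (hhsR : hs ≤ R)
    (hroom : 2 * (β * ∑ e, |A.a e|) + |spinSup k q| + (k : ℝ) * (1 + εp) * η ^ 2
      < εp * (R - hs) ^ 2)
    {X : ℕ → ℝ}
    (hE : ∀ i < n, ∀ y : Fin k → ℝ, (∀ l, η ≤ y l ∧ y l ≤ R) →
      ∃ (τ : ℕ → ℝ) (h : ℝ), (∀ l, |τ l| ≤ ρ) ∧ 0 ≤ h ∧ h ≤ ρ ∧
        ((∀ j ∈ Icc 1 k, tail k q j ≤ tail k (qSpin m k (b (i + 1)) (raise A.a h) c (lift y) τ) j + e) →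
          enU m k (b (i + 1)) (raise A.a h) c (lift y) τ ≤ X i)) :
    ∀ i ≤ n, ∀ y : Fin k → ℝ, (∀ l, η ≤ y l ∧ y l ≤ R) →
      upJ m (b i) A c q (spinSup k q) εp y
        ≤ b 0 * (∑ e, |A.a e|) + ∑ l ∈ range i, ((b (l + 1) - b l) * X l + 2 * (((k : ℝ) + β) * ρ)) := by
  set S := ∑ e, |A.a e|
  have hεp0 : 0 ≤ εp := by rw [hεp]; positivity
  have hub : ∀ t, 0 ≤ t → ∀ y : Fin k → ℝ,
      upJ m t A c q (spinSup k q) εp y ≤ t * S - εp * ∑ i, y i ^ 2 := fun t ht y => by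
    have := fr_start (A := A) (c := c) hC hN hm hq ht (lift y)
    rw [sum_tail_lift] at this
    simp only [upJ]
    linarith
  intro i
  induction i with
  | zero =>
    intro _ y _
    have h1 := hub (b 0) hb0 y
    have : 0 ≤ εp * ∑ i, y i ^ 2 := mul_nonneg hεp0 (sum_nonneg fun i _ => pow_two_nonneg _)
    simp only [range_zero, sum_empty, add_zero]
    linarith
  | succ i ih =>
    intro hi y' hy'
    have hbi : ∀ l, l ≤ n → 0 ≤ b l := fun l hl => by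
      induction l with
      | zero => exact hb0
      | succ l ihl => exact (ihl (by omega)).trans (hb l (by omega))
    set K := Set.pi Set.univ fun _ : Fin k => Set.Icc η R with hK
    obtain ⟨y, hyK, hymax⟩ := (isCompact_univ_pi fun _ => isCompact_Icc).exists_isMaxOn
      (⟨fun _ => η, fun _ _ => ⟨le_rfl, hηR⟩⟩ : K.Nonempty)
      (continuous_upJ (A := A) (c := c) hC hN hm (b (i + 1)) q (spinSup k q) εp).continuousOn
    have hmax : ∀ z : Fin k → ℝ, (∀ l, η ≤ z l ∧ z l ≤ R) →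
        upJ m (b (i + 1)) A c q (spinSup k q) εp z ≤ upJ m (b (i + 1)) A c q (spinSup k q) εp y :=
      fun z hz => hymax fun l _ => hz l
    have hb1 := hbi (i + 1) hi
    have hroom' : ∀ l, y l + hs ≤ R := by
      intro l
      by_contra hl
      rw [not_le] at hl
      have h1 : (R - hs) ^ 2 ≤ ∑ j, y j ^ 2 :=
        (pow_le_pow_left₀ (sub_nonneg.2 hhsR) (by linarith) 2).trans
          (single_le_sum (f := fun j => y j ^ 2) (fun j _ => pow_two_nonneg _) (mem_univ l))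
      have h2 := hub _ hb1 y
      have h3 := hmax (fun _ => η) fun _ => ⟨le_rfl, hηR⟩
      have h4 := fr_zero_le (A := A) (c := c) hC hN hm (b (i + 1)) fun _ : Fin k => η
      have h5 := (abs_le.1 (abs_fr_sub_le (A := A) (c := c) (k := k) hC hN hm hb1 fun _ => 0)).1
      rw [fr_zero_zero hC hN hm, sub_zero, sub_zero] at h5
      have h6 : b (i + 1) * S ≤ β * S :=
        mul_le_mul_of_nonneg_right (hbn _ hi) (sum_nonneg fun e _ => abs_nonneg _)
      have h7 : 0 ≤ ∑ j : Fin k, tail k q ((j : ℕ) + 1) * η ^ 2 :=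
        sum_nonneg fun j _ => mul_nonneg (tail_mem hq (by omega)).1 (pow_two_nonneg _)
      have h8 := mul_le_mul_of_nonneg_left h1 hεp0
      simp only [upJ, sum_const, card_univ, Fintype.card_fin, nsmul_eq_mul] at h2 h3 h4 h7
      nlinarith [le_abs_self (spinSup k q)]
    have hyl : ∀ l, η ≤ y l ∧ y l + hs ≤ R := fun l => ⟨(hyK l trivial).1, hroom' l⟩
    have hk' : 2 * (((k : ℝ) + b (i + 1)) * ρ) ≤ 2 * (((k : ℝ) + β) * ρ) := by
      nlinarith [hbn _ hi]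
    have hstep := upper_step hC hN hm hρ1 (hbi i (by omega)) (hb i hi) hη he he1 hεp hhs
      (hk'.trans hsmall) hyl hmax hq (hE i hi y fun l => ⟨(hyK l trivial).1, (hyK l trivial).2⟩)
    have := hmax y' hy'
    have := ih (by omega) y fun l => ⟨(hyK l trivial).1, (hyK l trivial).2⟩
    rw [sum_range_succ]
    linarith

/-- A function with a bounded derivative away from zero, continuous and zero at zero. -/
theorem near_zero {E E' : ℝ → ℝ} {C t₀ : ℝ} (hC0 : 0 ≤ C) (ht₀ : 0 < t₀) (hE0 : E 0 = 0)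
    (hc : ContinuousOn E (Set.Ici 0)) (hd : ∀ t ∈ Set.Ioc 0 t₀, HasDerivAt E (E' t) t ∧ |E' t| ≤ C) :
    |E t₀| ≤ C * t₀ := by
  have key : ∀ t ∈ Set.Ioo 0 t₀, |E t₀ - E t| ≤ C * t₀ := fun t ht => by
    have h := (convex_Icc t t₀).norm_image_sub_le_of_norm_hasDerivWithin_le (f := E) (f' := E')
      (fun s hs => (hd s ⟨ht.1.trans_le hs.1, hs.2⟩).1.hasDerivWithinAt)
      (fun s hs => (Real.norm_eq_abs _).trans_le (hd s ⟨ht.1.trans_le hs.1, hs.2⟩).2)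
      (Set.left_mem_Icc.2 ht.2.le) (Set.right_mem_Icc.2 ht.2.le)
    rw [Real.norm_eq_abs, Real.norm_eq_abs, abs_of_nonneg (sub_nonneg.2 ht.2.le)] at h
    exact h.trans (mul_le_mul_of_nonneg_left (by linarith [ht.1]) hC0)
  have hlim : Tendsto (fun t => |E t₀ - E t|) (𝓝[>] 0) (𝓝 |E t₀ - E 0|) :=
    (tendsto_const_nhds.sub ((hc 0 Set.self_mem_Ici).mono_left
      (nhdsWithin_mono _ Set.Ioi_subset_Ici_self))).abs
  have := le_of_tendsto hlim (by filter_upwards [Ioo_mem_nhdsGT ht₀] with t ht using key t ht)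
  rwa [hE0, sub_zero] at this

/-- A subdivision on which the right sums of a continuous derivative are below the increments. -/
theorem exists_subdivision {E E' : ℝ → ℝ} {lo hi ε : ℝ} (hlh : lo ≤ hi) (hε : 0 < ε)
    (hd : ∀ t ∈ Set.Icc lo hi, HasDerivAt E (E' t) t ∧ ContinuousAt E' t) :
    ∃ (n : ℕ) (b : ℕ → ℝ), b 0 = lo ∧ b n = hi ∧ (∀ i ≤ n, lo ≤ b i ∧ b i ≤ hi) ∧
      (∀ i < n, b i ≤ b (i + 1)) ∧
      ∀ i < n, (b (i + 1) - b i) * E' (b (i + 1)) ≤ E (b (i + 1)) - E (b i) + (b (i + 1) - b i) * ε := by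
  obtain ⟨ν, hν, hunif⟩ := Metric.uniformContinuousOn_iff.1 ((isCompact_Icc (a := lo) (b := hi))
    |>.uniformContinuousOn_of_continuous fun t ht => (hd t ht).2.continuousWithinAt) ε hε
  obtain ⟨n, hn⟩ := exists_nat_gt ((hi - lo) / ν)
  have hn0 : (0 : ℝ) < n := lt_of_le_of_lt (div_nonneg (sub_nonneg.2 hlh) hν.le) hn
  set Δ := (hi - lo) / n with hΔdef
  have hΔ : 0 ≤ Δ := div_nonneg (sub_nonneg.2 hlh) hn0.le
  have hnΔ : n * Δ = hi - lo := by rw [hΔdef]; field_simp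
  have hΔν : Δ < ν := by
    rw [div_lt_iff₀ hν] at hn
    rw [hΔdef, div_lt_iff₀ hn0]
    linarith
  have hb : ∀ i ≤ n, lo ≤ lo + (i : ℝ) * Δ ∧ lo + (i : ℝ) * Δ ≤ hi := fun i hi' => by
    have h1 : (i : ℝ) * Δ ≤ n * Δ := mul_le_mul_of_nonneg_right (by exact_mod_cast hi') hΔ
    have h2 : 0 ≤ (i : ℝ) * Δ := mul_nonneg (Nat.cast_nonneg _) hΔ
    constructor <;> linarith
  refine ⟨n, fun i => lo + i * Δ, by simp, by linarith, hb, fun i _ => by push_cast; linarith, fun i hi' => ?_⟩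
  have hl := hb i hi'.le
  have hu := hb (i + 1) hi'
  push_cast at hu ⊢
  rcases eq_or_lt_of_le hΔ with h | h
  · simp [← h]
  obtain ⟨t, ht, hte⟩ := exists_hasDerivAt_eq_slope E E'
    (show lo + (i : ℝ) * Δ < lo + ((i : ℝ) + 1) * Δ by linarith)
    (fun s hs => (hd s ⟨hl.1.trans hs.1, hs.2.trans hu.2⟩).1.continuousAt.continuousWithinAt)
    fun s hs => (hd s ⟨hl.1.trans hs.1.le, hs.2.le.trans hu.2⟩).1
  have hdist := hunif t ⟨hl.1.trans ht.1.le, ht.2.le.trans hu.2⟩ _ ⟨hu.1, hu.2⟩ (by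
    rw [Real.dist_eq, abs_sub_comm, abs_of_nonneg (sub_nonneg.2 ht.2.le)]
    linarith [ht.1])
  have e : lo + ((i : ℝ) + 1) * Δ - (lo + (i : ℝ) * Δ) = Δ := by ring
  rw [Real.dist_eq, abs_lt, hte, e] at hdist
  have h2 := hdist.1
  rw [lt_sub_iff_add_lt, lt_div_iff₀ h] at h2
  rw [e]
  linarith

/-- The amplitudes and the size of the perturbation. -/
theorem exists_room {X e ε : ℝ} (he : 0 < e) (he1 : e ≤ 1) (hX : 0 ≤ X) (hε : 0 < ε) (k n : ℕ)
    {β : ℝ} (hβ : 0 ≤ β) :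
    ∃ η R ρ : ℝ, 0 < η ∧ η ≤ R ∧ e * η / 3 ≤ R ∧ (k : ℝ) * (1 + e / 9) * η ^ 2 ≤ ε ∧
      X + (k : ℝ) * (1 + e / 9) * η ^ 2 < e / 9 * (R - e * η / 3) ^ 2 ∧ 0 < ρ ∧ ρ ≤ 1 ∧
      2 * (((k : ℝ) + β) * ρ) ≤ e * (e * η / 3) * η / 6 ∧ n * (2 * (((k : ℝ) + β) * ρ)) ≤ ε := by
  set η := min 1 (ε / ((k : ℝ) * (1 + e / 9) + 1)) with hηdef
  have hη : 0 < η := by positivity
  have hη1 : η ≤ 1 := min_le_left _ _
  have hηε : (k : ℝ) * (1 + e / 9) * η ^ 2 ≤ ε := by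
    have h := min_le_right 1 (ε / ((k : ℝ) * (1 + e / 9) + 1))
    rw [← hηdef, le_div_iff₀ (by positivity)] at h
    have hX : 0 ≤ (k : ℝ) * (1 + e / 9) := by positivity
    nlinarith [mul_le_mul_of_nonneg_left (mul_le_of_le_one_left hη.le hη1) hX]
  have hs1 : e * η / 3 ≤ 1 := by nlinarith
  set R := √((X + (k : ℝ) * (1 + e / 9) * η ^ 2 + 1) / (e / 9)) + 1 with hRdef
  have hR1 : 1 ≤ R := le_add_of_nonneg_left (sqrt_nonneg _)
  set ρ := min 1 (min (e * (e * η / 3) * η / (12 * ((k : ℝ) + β + 1)))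
    (ε / (2 * ((k : ℝ) + β + 1) * (n + 1)))) with hρdef
  have hρ : 0 < ρ := by positivity
  refine ⟨η, R, ρ, hη, hη1.trans hR1, hs1.trans hR1, hηε, ?_, hρ, min_le_left _ _, ?_, ?_⟩
  · have h1 : √((X + (k : ℝ) * (1 + e / 9) * η ^ 2 + 1) / (e / 9)) ≤ R - e * η / 3 := by
      rw [hRdef]; linarith
    have h2 := pow_le_pow_left₀ (sqrt_nonneg _) h1 2
    rw [sq_sqrt (by positivity), div_le_iff₀ (by positivity)] at h2
    linarith
  · have h : ρ ≤ e * (e * η / 3) * η / (12 * ((k : ℝ) + β + 1)) :=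
      (min_le_right _ _).trans (min_le_left _ _)
    rw [le_div_iff₀ (by positivity)] at h
    linarith
  · have h : ρ ≤ ε / (2 * ((k : ℝ) + β + 1) * (n + 1)) := (min_le_right _ _).trans (min_le_right _ _)
    rw [le_div_iff₀ (by positivity)] at h
    have : n * (((k : ℝ) + β) * ρ) ≤ (n + 1) * (((k : ℝ) + β + 1) * ρ) :=
      mul_le_mul (by linarith) (mul_le_mul_of_nonneg_right (by linarith) hρ.le) (by positivity) (by positivity)
    linarith

/-- The perturbation given by the energy identity, at a point of the box. -/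
theorem energy_at (hC : CalcStmt) (hN : 1 ≤ N) (hm : IsHaarOrth m) {q : ℕ → ℝ} {β η R ρ e C ε' : ℝ}
    (hq : IsPath k q) (hη : 0 ≤ η) (hR : 0 ≤ R) (he : 0 ≤ e)
    (hlip : ∀ p, IsPath k p → (∀ j ∈ Icc 1 k, tail k q j ≤ tail k p j + e) →
      A.eAt β k p ≤ A.eAt β k q + C * e)
    (hCe : C * e ≤ ε')
    (hF : ∀ σ : ℕ → ℝ, (∀ l, |σ l| ≤ R) → ∃ (τ : ℕ → ℝ) (h : ℝ), (∀ l, |τ l| ≤ ρ) ∧ 0 ≤ h ∧ h ≤ ρ ∧
      |enU m k β (raise A.a h) c σ τ - A.eAt β k (qSpin m k β (raise A.a h) c σ τ)| ≤ ε')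
    (y : Fin k → ℝ) (hy : ∀ l, η ≤ y l ∧ y l ≤ R) :
    ∃ (τ : ℕ → ℝ) (h : ℝ), (∀ l, |τ l| ≤ ρ) ∧ 0 ≤ h ∧ h ≤ ρ ∧
      ((∀ j ∈ Icc 1 k, tail k q j ≤ tail k (qSpin m k β (raise A.a h) c (lift y) τ) j + e) →
        enU m k β (raise A.a h) c (lift y) τ ≤ A.eAt β k q + 2 * ε') := by
  obtain ⟨τ, h, hτ, hh0, hhρ, herr⟩ := hF (lift y) fun l => by
    unfold P157.Rsb.lift
    split_ifs with hl
    · exact abs_le.2 ⟨by linarith [(hy ⟨l - 1, by omega⟩).1], (hy _).2⟩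
    · rw [abs_zero]; exact hR
  refine ⟨τ, h, hτ, hh0, hhρ, fun ht => ?_⟩
  have h1 := hlip _ ((hC d N A.a c m k hN hm).2.1 β h (lift y) τ).1 ht
  linarith [(abs_le.1 herr).2]

/-- The upper bound from the interfaces of modules A, C and F. -/
theorem upper (hA : FormulaStmt) (hC : CalcStmt) (hF : EnergyStmt) : UpperStmt := by
  intro d A β ε hβ hε
  obtain ⟨-, hlip, hder, hzero⟩ := hA d A
  obtain ⟨C, hC0, hCl⟩ := hlip β hβ
  set S := ∑ e, |A.a e|
  have hS : 0 ≤ S := sum_nonneg fun e _ => abs_nonneg _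
  set ε' := ε / (16 * (1 + β)) with hε'
  have hε'0 : 0 < ε' := by positivity
  have hεβ : β * ε' ≤ ε / 16 := by
    rw [hε', mul_div_assoc', div_le_iff₀ (by positivity)]
    nlinarith
  obtain ⟨e, he, he1, heC⟩ : ∃ e, 0 < e ∧ e ≤ 1 ∧ C * e ≤ ε' := by
    refine ⟨min 1 (ε' / (C + 1)), by positivity, min_le_left _ _, ?_⟩
    have h := min_le_right 1 (ε' / (C + 1))
    rw [le_div_iff₀ (by positivity)] at h
    nlinarith [show 0 < min 1 (ε' / (C + 1)) by positivity]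
  obtain ⟨β₀, hβ₀, hβ₀β, hβ₀ε⟩ : ∃ β₀, 0 < β₀ ∧ β₀ ≤ β ∧ β₀ * (S + C + 1) ≤ ε / 8 := by
    refine ⟨min β (ε / (8 * (S + C + 1))), by positivity, min_le_left _ _, ?_⟩
    have h := min_le_right β (ε / (8 * (S + C + 1)))
    rw [le_div_iff₀ (by positivity)] at h
    linarith
  obtain ⟨K, hK⟩ := hF d A β₀ β ε' hβ₀ hε'0
  refine ⟨K, fun k hk q hq => ?_⟩
  set E := fun t => eng A.law A.top t k q with hEdef
  have hE0 : |E β₀| ≤ C * β₀ := near_zero (E' := fun t => A.eAt t k q) hC0 hβ₀ (hzero k q hq).1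
    (hzero k q hq).2 fun t ht =>
      ⟨(hder k t q ht.1 hq).1, (hCl k t q q ht.1 (ht.2.trans hβ₀β) hq hq).2⟩
  obtain ⟨n, b, hb0, hbn, hbi, hbm, hriem⟩ := exists_subdivision (E := E)
    (E' := fun t => A.eAt t k q) hβ₀β hε'0 fun t ht => hder k t q (hβ₀.trans_le ht.1) hq
  obtain ⟨η, R, ρ, hη, hηR, hsR, hηε, hroom, hρ, hρ1, hρs, hρn⟩ :=
    exists_room (X := 2 * (β * S) + |spinSup k q|) he he1 (by positivity) (ε := ε / 8) (by linarith) k n hβ.le
  obtain ⟨θ, hθ, N₀, hN₀⟩ := hK k hk R ρ hρ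
  refine ⟨θ, hθ, max N₀ 1, fun N hN c hc m hm => ?_⟩
  have hN1 : 1 ≤ N := le_of_max_le_right hN
  have hmain := upper_chain hC hN1 hm hq hρ1 hρ.le hη he he1 rfl rfl hρs
    (b := b) (hb0 ▸ hβ₀.le) hbm (fun i hi => (hbi i hi).2) hηR hsR hroom
    (X := fun i => A.eAt (b (i + 1)) k q + 2 * ε')
    (fun i hi => energy_at hC hN1 hm hq hη.le (hη.le.trans hηR) he.le
      (fun p hp ht => (hCl k _ q p (hβ₀.trans_le (hbi (i + 1) hi).1) (hbi (i + 1) hi).2 hq hp).1 e he.le ht)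
      heC (hN₀ N (le_of_max_le_left hN) c hc m hm _ (hbi (i + 1) hi).1 (hbi (i + 1) hi).2))
    n le_rfl (fun _ => η) fun _ => ⟨le_rfl, hηR⟩
  have hsum : ∑ l ∈ range n, ((b (l + 1) - b l) * (A.eAt (b (l + 1)) k q + 2 * ε')
      + 2 * (((k : ℝ) + β) * ρ)) ≤ E β - E β₀ + (β - β₀) * (3 * ε') + n * (2 * (((k : ℝ) + β) * ρ)) := by
    have h : ∀ l ∈ range n, (b (l + 1) - b l) * (A.eAt (b (l + 1)) k q + 2 * ε')
        + 2 * (((k : ℝ) + β) * ρ) ≤ (E (b (l + 1)) - E (b l))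
          + ((b (l + 1) - b l) * (3 * ε') + 2 * (((k : ℝ) + β) * ρ)) :=
      fun l hl => by linarith [hriem l (mem_range.1 hl)]
    refine (sum_le_sum h).trans_eq ?_
    rw [sum_add_distrib, sum_range_sub (fun l => E (b l)), sum_add_distrib, ← sum_mul,
      sum_range_sub b, sum_const, card_range, nsmul_eq_mul, hbn, hb0]
    ring
  rw [hbn, hb0] at hmain
  have h1 := fr_zero_le (A := A) (c := c) hC hN1 hm β fun _ : Fin k => η
  have h2 : fr m k β A c (fun _ => 0) = meanP m β A.a c := (hC d N A.a c m k hN1 hm).2.2.2.1 β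
  have h3 : 0 ≤ ∑ j : Fin k, tail k q ((j : ℕ) + 1) * η ^ 2 :=
    sum_nonneg fun j _ => mul_nonneg (tail_mem hq (by omega)).1 (pow_two_nonneg _)
  simp only [upJ, sum_const, card_univ, Fintype.card_fin, nsmul_eq_mul] at hmain h1 h3
  have h4 : (β - β₀) * (3 * ε') ≤ β * (3 * ε') := by gcongr; linarith
  have h5 : E β = eng A.law A.top β k q := rfl
  rw [← h5, ← h2]
  nlinarith [(abs_le.1 hE0).1, mul_nonneg hβ₀.le hS, mul_nonneg (Nat.cast_nonneg k : (0 : ℝ) ≤ k)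
    (mul_nonneg (show (0 : ℝ) ≤ e / 9 by positivity) (pow_two_nonneg η))]

end Vale.Agent.P166.Rsb
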