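import Vale.Agent.P166.Rsb.Calc
import Vale.Agent.P166.Rsb.HaarConc
import Vale.Agent.P166.Rsb.ApproxLam
import Vale.Agent.P166.Rsb.Formula
import Vale.Agent.P166.Rsb.Upper
import Vale.Agent.P166.Rsb.Lower
import Vale.Agent.P166.Rsb.Sync.Main
import Vale.Agent.P166.Rsb.Energy.Main
import Vale.Agent.P166.Rsb.Energy.Point
import Vale.Agent.P166.Rsb.Cav.Alg
import Vale.Agent.P166.Rsb.Cav.Bounds
import Vale.Agent.P166.Rsb.Cav.Haar
import Vale.Agent.P166.Rsb.Cav.Img
import Vale.Agent.P166.Rsb.Cav.Shift
import Vale.Agent.P166.Rsb.Cav.Tilt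
import Vale.Agent.P166.Rsb.Cav.Gauss

/-!
# P166: both bounds from the last two statements

`upperStmt` and `lowerStmt`, from the proofs of all the modules.
-/

namespace Vale.Agent.P166.Rsb

theorem syncStmt : SyncStmt := sync concStmt

/-- Module F. -/
theorem energyStmt : EnergyStmt := Energy.energy_of_point Energy.pointStmt syncStmt

/-- The upper bound. -/
theorem upperStmt : UpperStmt := upper formulaStmt calcStmt energyStmt

/-- The lower bound. -/
theorem lowerStmt : LowerStmt :=
  lowerStmt_of (boundsStmt (tiltStmt Cav.gaussStmt) CavH.cavHaarStmt) algStmt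
    (img_of_point Energy.pointStmt syncStmt) shiftStmt syncStmt

end Vale.Agent.P166.Rsb
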