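import Vale.Agent.P166.Rsb.FieldDeriv
import Vale.Agent.P166.Rsb.Sys
import Vale.Agent.P166.Haar

/-!
# P166: the perturbed system at a fixed rotation

`hamU` is a cascade with one amplitude per level and coordinate: exports for the other modules.
-/

open MeasureTheory ProbabilityTheory Real Finset
open Vale.Agent.P157 (cubeLaw cubeLaw_isProb)
open Vale.Agent.P157.Rsb (stdG val cnd pairCnd mass LinB gaussSize)

namespace Vale.Agent.P166.Rsb

variable {d N k : ℕ} (β : ℝ) (a : Fin (d + 1) → ℝ) (c : Fin N → Fin (d + 1)) (U : Fin N → Fin N → ℝ)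

instance : IsProbabilityMeasure (cubeLaw N) := cubeLaw_isProb N

/-- The number seen by a field coordinate. -/
noncomputable def fldV (s : Fin N → Bool) : Fld N → ℝ :=
  Sum.elim (fun i => spin (s i)) fun i => topMask c i * rotate U s i

/-- The amplitude of a field coordinate. -/
def ampV (σ τ : ℕ → ℝ) (l : ℕ) : Fld N → ℝ := Sum.elim (fun _ => σ l) fun _ => τ l

/-- The part without fields. -/
noncomputable def enV (s : Fin N → Bool) : ℝ := ∑ i, a (c i) * rotate U s i ^ 2

/-- The data of `hamU` at a fixed rotation. -/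
noncomputable def fdata : FData (Fld N) (Fin N → Bool) where
  v := fldV c U
  det s := β / 2 * enV a c U s
  v_meas _ := measurable_of_countable _
  det_meas := measurable_of_countable _
  bdd := by
    refine ⟨∑ s, ((∑ i, |fldV c U s i|) + |β / 2 * enV a c U s|), fun s => ⟨fun i => ?_, ?_⟩⟩
    · refine le_trans ?_ (single_le_sum (f := fun s => (∑ i, |fldV c U s i|) + |β / 2 * enV a c U s|)
        (fun s _ => by positivity) (mem_univ s))
      exact le_add_of_le_of_nonneg
        (single_le_sum (f := fun i => |fldV c U s i|) (fun i _ => abs_nonneg _) (mem_univ i)) (abs_nonneg _)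
    · refine le_trans ?_ (single_le_sum (f := fun s => (∑ i, |fldV c U s i|) + |β / 2 * enV a c U s|)
        (fun s _ => by positivity) (mem_univ s))
      exact le_add_of_nonneg_left (sum_nonneg fun i _ => abs_nonneg _)

theorem topMask_sq (i : Fin N) : topMask c i ^ 2 = topMask c i := by
  unfold topMask; split_ifs <;> norm_num

theorem hamU_eq (σ τ : ℕ → ℝ) :
    hamU (k := k) β a c σ τ U = gham (fdata β a c U) (ampV σ τ) := by
  funext z s
  simp only [hamU, gham, fdata, Fintype.sum_sum_type, ampV, fldV, Sum.elim_inl, Sum.elim_inr,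
    spin_sq, mul_pow, topMask_sq, enV, topSq]
  simp only [sum_add_distrib, sum_sub_distrib, ← mul_sum, sum_const, card_univ, Fintype.card_fin,
    nsmul_eq_mul, mul_one, mul_assoc]
  simp only [← mul_sum, ← sum_mul, ← sum_div, mul_left_comm (topMask c _)]
  ring

theorem hamU_linB (σ τ : ℕ → ℝ) : LinB (gaussSize (Fld N)) (hamU (k := k) β a c σ τ U) := by
  rw [hamU_eq]; exact gham_linB _ _

theorem rootU_eq (σ τ : ℕ → ℝ) : rootU k β a c σ τ U
    = val (k := k) (stdG (Fld N)) (cubeLaw N) (gham (fdata β a c U) (ampV σ τ)) 0 fun _ _ => 0 := by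
  rw [rootU, hamU_eq]

/-- The root expectation of an observable of one configuration. -/
noncomputable def gibR (k : ℕ) (σ τ : ℕ → ℝ) (φ : (Fin N → Bool) → ℝ) : ℝ :=
  cnd (stdG (Fld N)) (cubeLaw N) (hamU (k := k) β a c σ τ U) (fun _ s => φ s) 0 fun _ _ => 0

/-- The root expectation of an observable of two configurations branching after level `j`. -/
noncomputable def pairR (k : ℕ) (σ τ : ℕ → ℝ) (j : ℕ)
    (ψ : (Fin N → Bool) → (Fin N → Bool) → ℝ) : ℝ :=
  cnd (stdG (Fld N)) (cubeLaw N) (hamU (k := k) β a c σ τ U) (fun z _ =>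
    pairCnd (stdG (Fld N)) (cubeLaw N) (hamU (k := k) β a c σ τ U) (fun _ x _ y => ψ x y) j z)
    0 fun _ _ => 0

/-- The weighted tail of the spin overlaps at the root, times `N`. -/
noncomputable def spinTailR (k : ℕ) (σ τ : ℕ → ℝ) (j : ℕ) : ℝ :=
  P157.Rsb.mass k * ∑ l ∈ Icc j k, pairR β a c U k σ τ l fun x y => ∑ i, spin (x i) * spin (y i)

/-- The weighted tail of the overlaps inside the last block at the root, times `N`. -/
noncomputable def topTailR (k : ℕ) (σ τ : ℕ → ℝ) (j : ℕ) : ℝ :=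
  P157.Rsb.mass k * ∑ l ∈ Icc j k, pairR β a c U k σ τ l fun x y =>
    ∑ i, topMask c i * rotate U x i * rotate U y i

theorem spinTailR_eq (σ τ : ℕ → ℝ) (j : ℕ) : spinTailR β a c U k σ τ j
    = ∑ i, gtail (cubeLaw N) k (fdata β a c U) (ampV σ τ) (.inl i) j := by
  simp only [spinTailR, gtail, gq, groot, pairR, hamU_eq, ← mul_sum]
  rw [sum_comm]
  congr 1
  refine sum_congr rfl fun l _ => ?_
  rw [← P157.Rsb.cnd_finsum (gham_linB _ _) _ fun i _ => tame_gmv_sq (cubeLaw N) _ _ l _]
  refine congrArg (fun φ => cnd (k := k) (stdG (Fld N)) (cubeLaw N)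
    (gham (fdata β a c U) (ampV σ τ)) φ 0 fun _ _ => 0) ?_
  funext z _
  have h := pair_eq_gmv_sq (cubeLaw N) (fdata β a c U) (ampV σ τ)
    (univ.map ⟨Sum.inl, Sum.inl_injective⟩ : Finset (Fld N)) l z
  simp only [sum_map, Function.Embedding.coeFn_mk] at h
  exact h

theorem topTailR_eq (σ τ : ℕ → ℝ) (j : ℕ) : topTailR β a c U k σ τ j
    = ∑ i, gtail (cubeLaw N) k (fdata β a c U) (ampV σ τ) (.inr i) j := by
  simp only [topTailR, gtail, gq, groot, pairR, hamU_eq, ← mul_sum]
  rw [sum_comm]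
  congr 1
  refine sum_congr rfl fun l _ => ?_
  rw [← P157.Rsb.cnd_finsum (gham_linB _ _) _ fun i _ => tame_gmv_sq (cubeLaw N) _ _ l _]
  refine congrArg (fun φ => cnd (k := k) (stdG (Fld N)) (cubeLaw N)
    (gham (fdata β a c U) (ampV σ τ)) φ 0 fun _ _ => 0) ?_
  funext z _
  have h := pair_eq_gmv_sq (cubeLaw N) (fdata β a c U) (ampV σ τ)
    (univ.map ⟨Sum.inr, Sum.inr_injective⟩ : Finset (Fld N)) l z
  simp only [sum_map, Function.Embedding.coeFn_mk] at h
  refine Eq.trans ?_ h
  refine congrArg (fun ψ => pairCnd (k := k) (stdG (Fld N)) (cubeLaw N)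
    (gham (fdata β a c U) (ampV σ τ)) ψ l z) ?_
  funext _ x _ y
  refine sum_congr rfl fun i _ => ?_
  show _ = topMask c i * rotate U x i * (topMask c i * rotate U y i)
  linear_combination (-(rotate U x i * rotate U y i)) * topMask_sq c i

theorem sum_sq_inr (s : Fin N → Bool) : ∑ i, fldV c U s (.inr i) ^ 2 = topSq c U s := by
  simp only [fldV, Sum.elim_inr, mul_pow, topMask_sq, topSq]

theorem topSq_nonneg (s : Fin N → Bool) : 0 ≤ topSq c U s :=
  sum_nonneg fun i _ => mul_nonneg (by unfold topMask; split_ifs <;> norm_num) (sq_nonneg _)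

theorem topSq_le (hU : IsOrth U) (s : Fin N → Bool) : topSq c U s ≤ N := by
  refine (sum_le_sum fun i _ => ?_).trans_eq (sum_sq_rotate hU s)
  refine mul_le_of_le_one_left (sq_nonneg _) ?_
  unfold topMask; split_ifs <;> norm_num

theorem enV_raise (h : ℝ) (s : Fin N → Bool) :
    enV (raise a h) c U s = enV a c U s + h * topSq c U s := by
  simp only [enV, raise, topSq, mul_sum, ← sum_add_distrib]
  refine sum_congr rfl fun i _ => ?_
  unfold topMask; split_ifs <;> ring

/-- The derivative of the root along a line of amplitudes, inverse temperature and shift of the last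
atom at a fixed product `β · shift`. -/
theorem rootU_line_deriv (σ τ dσ dτ : ℕ → ℝ) (g : (Fin N → Bool) → ℝ) (b : ℝ → ℝ)
    (α : ℝ → Fin (d + 1) → ℝ) (hα : ∀ t s, b t / 2 * enV (α t) c U s = β / 2 * enV a c U s + t * g s)
    (t : ℝ) :
    HasDerivAt (fun u => rootU k (b u) (α u) c (fun l => σ l + u * dσ l) (fun l => τ l + u * dτ l) U)
      (gibR (b t) (α t) c U k (fun l => σ l + t * dσ l) (fun l => τ l + t * dτ l) g
        - ∑ l : Fin k, (dσ ((l : ℕ) + 1) * (σ ((l : ℕ) + 1) + t * dσ ((l : ℕ) + 1)) *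
              spinTailR (b t) (α t) c U k (fun l => σ l + t * dσ l) (fun l => τ l + t * dτ l) ((l : ℕ) + 1)
            + dτ ((l : ℕ) + 1) * (τ ((l : ℕ) + 1) + t * dτ ((l : ℕ) + 1)) *
              topTailR (b t) (α t) c U k (fun l => σ l + t * dσ l) (fun l => τ l + t * dτ l) ((l : ℕ) + 1)))
      t := by
  have hg : BMeas g := ⟨measurable_of_countable _, ∑ s, |g s|,
    fun s => single_le_sum (f := fun s => |g s|) (fun _ _ => abs_nonneg _) (mem_univ s)⟩
  have hD : ∀ u, (fdata β a c U).shift g hg u = fdata (b u) (α u) c U := fun u => by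
    simp only [FData.shift, fdata, hα]
  have hS : ∀ u, lineAmp (ampV (N := N) σ τ) (ampV dσ dτ) u
      = ampV (fun l => σ l + u * dσ l) (fun l => τ l + u * dτ l) := fun u => by
    funext l i
    cases i <;> simp [lineAmp, ampV]
  have h := gval_line_deriv (k := k) (cubeLaw N) (fdata β a c U) (ampV σ τ) (ampV dσ dτ) hg t
  simp only [hD, hS, ← rootU_eq] at h
  refine h.congr_deriv ?_
  simp only [groot, gibR, spinTailR_eq, topTailR_eq, hamU_eq, Fintype.sum_sum_type, ampV,
    Sum.elim_inl, Sum.elim_inr, ← mul_sum]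

/-- A supporting paraboloid of the root in all parameters. -/
theorem rootU_support (hU : IsOrth U) (β' : ℝ) (a' : Fin (d + 1) → ℝ) (σ τ σ' τ' : ℕ → ℝ) :
    rootU k β a c σ τ U + gibR β a c U k σ τ (fun s => β' / 2 * enV a' c U s - β / 2 * enV a c U s)
      + ∑ l : Fin k, ((σ' ((l : ℕ) + 1) - σ ((l : ℕ) + 1)) *
            (-σ ((l : ℕ) + 1) * spinTailR β a c U k σ τ ((l : ℕ) + 1))
          - (σ' ((l : ℕ) + 1) - σ ((l : ℕ) + 1)) ^ 2 / 2 * N
          + ((τ' ((l : ℕ) + 1) - τ ((l : ℕ) + 1)) *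
            (-τ ((l : ℕ) + 1) * topTailR β a c U k σ τ ((l : ℕ) + 1))
          - (τ' ((l : ℕ) + 1) - τ ((l : ℕ) + 1)) ^ 2 / 2 * N))
      ≤ rootU k β' a' c σ' τ' U := by
  have h := gval_support (k := k) (cubeLaw N) (fdata β a c U) (fdata β' a' c U) rfl
    (ampV σ τ) (ampV σ' τ')
  rw [← rootU_eq, ← rootU_eq] at h
  refine le_trans ?_ h
  simp only [groot, gibR, ← hamU_eq]
  have ev : ∀ x i, (fdata β a c U).v x i = fldV c U x i := fun _ _ => rfl
  have ed : ∀ b a₀ x, (fdata b a₀ c U).det x = b / 2 * enV a₀ c U x := fun _ _ _ => rfl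
  simp only [ev, ed, Fintype.sum_sum_type]
  simp only [show ∀ σ τ l i, ampV (N := N) σ τ l (.inl i) = σ l from fun _ _ _ _ => rfl,
    show ∀ σ τ l i, ampV (N := N) σ τ l (.inr i) = τ l from fun _ _ _ _ => rfl]
  refine add_le_add le_rfl (sum_le_sum fun l _ => ?_)
  have hH := hamU_linB (k := k) β a c U σ τ
  have hsum : ∀ (v : Fin N → (Fin N → Bool) → ℝ),
      ∑ i, cnd (stdG (Fld N)) (cubeLaw N) (hamU (k := k) β a c σ τ U) (fun _ s => v i s ^ 2) 0
        (fun _ _ => 0) = cnd (stdG (Fld N)) (cubeLaw N) (hamU (k := k) β a c σ τ U)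
          (fun _ s => ∑ i, v i s ^ 2) 0 fun _ _ => 0 := fun v =>
    (P157.Rsb.cnd_finsum hH _ (fun i _ => P157.Rsb.Tame.of_bdd (φ := fun _ s => v i s ^ 2)
      (show Measurable ((fun s => v i s ^ 2) ∘ Prod.snd) from (measurable_of_countable _).comp
        measurable_snd) (B := ∑ s, |v i s ^ 2|) fun _ s => single_le_sum
        (f := fun s => |v i s ^ 2|) (fun _ _ => abs_nonneg _) (mem_univ s)) 0 _).symm
  have h1 : ∑ i, cnd (stdG (Fld N)) (cubeLaw N) (hamU (k := k) β a c σ τ U)
      (fun _ s => fldV c U s (.inl i) ^ 2) 0 (fun _ _ => 0) = N := by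
    rw [hsum]
    simp only [fldV, Sum.elim_inl, spin_sq, sum_const, card_univ, Fintype.card_fin, nsmul_eq_mul,
      mul_one]
    exact P157.Rsb.cnd_const hH _ 0 _
  have h2 : ∑ i, cnd (stdG (Fld N)) (cubeLaw N) (hamU (k := k) β a c σ τ U)
      (fun _ s => fldV c U s (.inr i) ^ 2) 0 (fun _ _ => 0) ≤ N := by
    rw [hsum]
    simp only [sum_sq_inr]
    refine (le_abs_self _).trans (P157.Rsb.cnd_abs_le (φ := fun _ s => topSq c U s) hH
      ((measurable_of_countable _).comp measurable_snd) (fun _ s => ?_) 0 _)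
    rw [abs_of_nonneg (topSq_nonneg c U s)]
    exact topSq_le c U hU s
  simp only [sum_sub_distrib, ← mul_sum, h1, spinTailR_eq, topTailR_eq]
  linarith [mul_le_mul_of_nonneg_left h2
    (by positivity : 0 ≤ (τ' ((l : ℕ) + 1) - τ ((l : ℕ) + 1)) ^ 2 / 2)]

end Vale.Agent.P166.Rsb
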