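import Vale.Agent.P157.Cube2.Intf
import Vale.Agent.P166.Rsb.FieldAux
import Vale.Agent.P166.Rsb.CalcRoot
import Vale.Agent.P166.Rsb.FormulaKappa
import Vale.Agent.P166.Rsb.Secular

/-!
# P166: objects of the cavity computation

One direction is added to a system.  Against a base system that has all special coordinates in the
last block the gain is the value of a tilt by the squares of those coordinates, coupled linearly to
the new spin; in the limit this value is a Gaussian recursion in closed form.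
-/

open MeasureTheory ProbabilityTheory Real Finset
open Vale.Agent.P157 (cubeLaw coin)
open Vale.Agent.P157.Rsb (stdG val lev mass)
open Vale.Agent.P157.Cube2 (spinG bump)

namespace Vale.Agent.P166.Rsb

variable {d N p : ℕ}

/-- The law with its top atom raised by `max h 0`. -/
noncomputable def Atoms.up (A : Atoms d) (h : ℝ) : Atoms d where
  a := raise A.a (max h 0)
  w := A.w
  mono := fun e f hef => by
    have h1 := A.mono hef
    have h2 : e ≠ Fin.last d := (hef.trans_le (Fin.le_last f)).ne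
    simp only [raise, if_neg h2]
    split_ifs <;> linarith [le_max_right h 0]
  w_pos := A.w_pos
  w_sum := A.w_sum

/-- The number of coordinates in block `e`. -/
def blockCard (c : Fin N → Fin (d + 1)) (e : Fin (d + 1)) : ℕ := (univ.filter fun i => c i = e).card

/-- The number of coordinates in the last block. -/
noncomputable def nTop (c : Fin N → Fin (d + 1)) : ℝ := blockCard c (Fin.last d)

/-- The overlaps of one coordinate of the last block. -/
noncomputable def kerK (m : Measure (Fin N → Fin N → ℝ)) (k : ℕ) (β : ℝ) (a : Fin (d + 1) → ℝ)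
    (c : Fin N → Fin (d + 1)) (τ : ℕ → ℝ) (l : ℕ) : ℝ :=
  qTop m k β a c (fun _ => 0) τ l * N / nTop c

/-- The mean square of one coordinate of the last block. -/
noncomputable def kerP (m : Measure (Fin N → Fin N → ℝ)) (k : ℕ) (β : ℝ) (a : Fin (d + 1) → ℝ)
    (c : Fin N → Fin (d + 1)) (τ : ℕ → ℝ) : ℝ :=
  pTop m k β a c (fun _ => 0) τ * N / nTop c

/-- The tail variables of a kernel `K` with diagonal `P`. -/
noncomputable def dOfK (k : ℕ) (K : ℕ → ℝ) (P : ℝ) (j : ℕ) : ℝ :=
  P - K k + ∑ i ∈ Ico j k, lev k (i + 1) * (K (i + 1) - K i)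

/-- The path functional on tail variables. -/
noncomputable def combV (k : ℕ) (V : ℕ → ℝ) (φ : ℝ → ℝ) : ℝ :=
  φ (V k) + ∑ i ∈ range k, (φ (V i) - φ (V (i + 1))) / lev k (i + 1)

/-- The path with tail variables `V`, up to normalisation. -/
noncomputable def imgQ (k : ℕ) (V : ℕ → ℝ) (l : ℕ) : ℝ :=
  ∑ i ∈ range l, (V i - V (i + 1)) / lev k (i + 1)

/-- The spin kernel induced by the kernel of the last block. -/
noncomputable def imgV (A : Atoms d) (β : ℝ) (k : ℕ) (K : ℕ → ℝ) (P : ℝ) (j : ℕ) : ℝ :=
  A.swapV β (dOfK k K P j)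

/-- Tilts `T` and couplings `b` at kernel `D`: the variance of the field on the new spin. -/
noncomputable def tiltF (T b : Fin p → ℝ) (D : ℝ) : ℝ := ∑ r, b r ^ 2 * D / (1 + T r * D)

/-- The cumulative variances of the field on the new spin. -/
noncomputable def tiltR (k : ℕ) (T b : Fin p → ℝ) (D : ℕ → ℝ) (j : ℕ) : ℝ :=
  ∑ i ∈ range j, (tiltF T b (D i) - tiltF T b (D (i + 1))) / lev k (i + 1)

/-- The limit value of a tilt, with an extra field of variance `s` at level `j` on the new spin. -/
noncomputable def tiltV (k : ℕ) (T b : Fin p → ℝ) (K : ℕ → ℝ) (P : ℝ) (j : ℕ) (s : ℝ) : ℝ :=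
  tiltF T b (dOfK k K P k) / 2 + tiltR k T b (dOfK k K P) k / 2
    + spinG k (bump (tiltR k T b (dOfK k K P)) j s)
    - (∑ r, combV k (dOfK k K P) fun x => log (1 + T r * x)) / 2

/-- The auxiliary field on the new spin: amplitude `√s` at level `j`, compensated. -/
noncomputable def auxTerm {k : ℕ} (j : ℕ) (s : ℝ) (y : Fin k → ℝ) (x : ℝ) : ℝ :=
  √s * (∑ l : Fin k, if (l : ℕ) + 1 = j then y l else 0) * x - s / 2

/-- The base system with a tilt by the special coordinates `sp`, coupled to a new spin. -/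
noncomputable def tiltHam {k : ℕ} (β : ℝ) (a : Fin (d + 1) → ℝ) (c : Fin N → Fin (d + 1))
    (τ : ℕ → ℝ) (U : Fin N → Fin N → ℝ) (sp : Fin p → Fin N) (T b : Fin p → ℝ) (j : ℕ) (s : ℝ)
    (z : Fin k → Fld N ⊕ Unit → ℝ) (x : (Fin N → Bool) × Bool) : ℝ :=
  hamU β a c (fun _ => 0) τ U (fun l i => z l (.inl i)) x.1
    + auxTerm j s (fun l => z l (.inr ())) (spin x.2)
    + ∑ r, (b r * spin x.2 * rotate U x.1 (sp r) - T r / 2 * rotate U x.1 (sp r) ^ 2)

/-- The mean value of the tilted system. -/
noncomputable def tiltE (m : Measure (Fin N → Fin N → ℝ)) (k : ℕ) (β : ℝ) (a : Fin (d + 1) → ℝ)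
    (c : Fin N → Fin (d + 1)) (τ : ℕ → ℝ) (sp : Fin p → Fin N) (T b : Fin p → ℝ) (j : ℕ) (s : ℝ) : ℝ :=
  ∫ U, val (stdG (Fld N ⊕ Unit)) ((cubeLaw N).prod coin) (tiltHam (k := k) β a c τ U sp T b j s) 0
    (fun _ _ => 0) ∂m

/-- The amplitudes of the system with a field of variance `s` at level `j` on spin `i₀`. -/
noncomputable def auxAmp (τ : ℕ → ℝ) (i₀ : Fin N) (j : ℕ) (s : ℝ) (l : ℕ) (i : Fld N) : ℝ :=
  ampV (fun _ => 0) τ l i + if l = j ∧ i = .inl i₀ then √s else 0

/-- The mean value of a system with a field of variance `s` at level `j` on spin `i₀`. -/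
noncomputable def auxE (m : Measure (Fin N → Fin N → ℝ)) (k : ℕ) (β : ℝ) (a : Fin (d + 1) → ℝ)
    (c : Fin N → Fin (d + 1)) (τ : ℕ → ℝ) (i₀ : Fin N) (j : ℕ) (s : ℝ) : ℝ :=
  ∫ U, val (k := k) (stdG (Fld N)) (cubeLaw N) (gham (fdata β a c U) (auxAmp τ i₀ j s)) 0
    (fun _ _ => 0) ∂m

/-- The compensation of fields of amplitudes `τ`. -/
noncomputable def fldC (k : ℕ) (τ : ℕ → ℝ) : ℝ := (∑ l : Fin k, τ ((l : ℕ) + 1) ^ 2) / 2

/-- The squared components of the first column in the blocks. -/
noncomputable def colW (c : Fin (N + 1) → Fin (d + 1)) (U : Fin (N + 1) → Fin (N + 1) → ℝ)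
    (e : Fin (d + 1)) : ℝ :=
  ∑ i ∈ univ.filter (fun i => c i = e), U i 0 ^ 2

namespace Secular

/-- The tilts of the new directions. -/
noncomputable def tT (S : Secular d) (β : ℝ) (r : Fin d) : ℝ := β * (S.a (Fin.last d) - S.ν r)

/-- The couplings of the new directions to the new spin. -/
noncomputable def tB (S : Secular d) (β : ℝ) (r : Fin d) : ℝ := β * S.cpl r

/-- The tilts of the gain in block `e`, moved by `u` in the new and `u'` in the old direction. -/
noncomputable def gainT (S : Secular d) (β u u' : ℝ) (e : Fin (d + 1)) : Fin (d + 1) → ℝ :=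
  Fin.snoc (fun r => S.tT β r + u)
    (if e = Fin.last d then 0 else β * (S.a (Fin.last d) - S.a e) + u')

/-- The couplings of the gain. -/
noncomputable def gainB (S : Secular d) (β : ℝ) : Fin (d + 1) → ℝ := Fin.snoc (S.tB β) 0

end Secular

/-- The tilts that give back the system without the new direction. -/
noncomputable def baseT (β : ℝ) (a : Fin (d + 1) → ℝ) (u : ℝ) (f : Fin d) : ℝ :=
  β * (a (Fin.last d) - a f.castSucc) + u

end Vale.Agent.P166.Rsb
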