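import Vale.Agent.P166.Rsb.CavDefs
import Vale.Agent.P166.Rsb.Pins
import Vale.Agent.P166.Rsb.Slot.Ends

/-!
# P166: interfaces inside the lower bound

Each `...Stmt` is proved in a module of its own; `LowerStmt` follows from all of them.
-/

open MeasureTheory ProbabilityTheory Real Finset
open Vale.Agent.P157 (cubeLaw coin)
open Vale.Agent.P157.Rsb (stdG val lev IsPath tail)
open Vale.Agent.P157.Cube2 (IsVar spinG spinObj bump)
open Vale.Agent.P166.Rsb.Slot (IsKer kerFld)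

namespace Vale.Agent.P166.Rsb

/-- The Gaussian recursion of a tilt in closed form. -/
def GaussStmt : Prop :=
  ∀ (p k : ℕ) (T b : Fin p → ℝ) (K : ℕ → ℝ) (P : ℝ) (j : ℕ) (s : ℝ), (∀ r, 0 ≤ T r) →
    IsKer k K P → 1 ≤ j → j ≤ k → 0 ≤ s →
      val (stdG (Fin p ⊕ Unit)) ((stdG (Fin p)).prod coin)
        (fun (z : Fin k → Fin p ⊕ Unit → ℝ) x =>
          auxTerm j s (fun l => z l (.inr ())) (spin x.2)
            + ∑ r, (b r * spin x.2 * kerFld k K P (fun l => z l (.inl r)) (x.1 r)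
                - T r / 2 * kerFld k K P (fun l => z l (.inl r)) (x.1 r) ^ 2))
        0 (fun _ _ => 0) = tiltV k T b K P j s

/-- The value of a tilt by special coordinates of the last block is the Gaussian recursion. -/
def TiltStmt : Prop :=
  ∀ (p : ℕ) (t B L ε : ℝ), 0 < t → 0 < ε → ∃ C : ℝ, 0 ≤ C ∧ ∀ k : ℕ, ∃ N₀ : ℕ, ∀ N : ℕ, N₀ ≤ N →
    ∀ (d : ℕ) (β : ℝ) (a : Fin (d + 1) → ℝ) (c : Fin N → Fin (d + 1))
      (m : Measure (Fin N → Fin N → ℝ)), IsHaarOrth m → (N : ℝ) ≤ L * nTop c →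
      ∀ (τ : ℕ → ℝ) (sp : Fin p → Fin N), Function.Injective sp → (∀ r, c (sp r) = Fin.last d) →
      ∀ T b : Fin p → ℝ, (∀ r, (t ≤ T r ∧ T r ≤ B ∧ |b r| ≤ B) ∨ (T r = 0 ∧ b r = 0)) →
      ∀ (j : ℕ) (s : ℝ), 1 ≤ j → j ≤ k → 0 ≤ s → s ≤ 1 →
        |tiltE m k β a c τ sp T b j s - (N * freeU m k β a c (fun _ => 0) τ
            + tiltV k T b (kerK m k β a c τ) (kerP m k β a c τ) j s)|
          ≤ ε + C * topErr m k β a c (fun _ => 0) τ

/-- One more direction and the base system: the exact comparison in law, and bounds that need no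
positivity of the weights. -/
def CavHaarStmt : Prop :=
  ∀ (d N : ℕ) (c : Fin N → Fin (d + 1)), (∀ e, 2 ≤ blockCard c e) →
    ∃ (cR : Fin N → Fin (d + 1)) (sp : Fin (d + 1) → Fin N), Function.Injective sp ∧
      (∀ r, cR (sp r) = Fin.last d) ∧ (blockCard cR (Fin.last d) = blockCard c (Fin.last d) + d) ∧
      (∀ e, e ≠ Fin.last d → blockCard cR e + 1 = blockCard c e) ∧
      ∀ (k : ℕ) (β : ℝ) (a : Fin (d + 1) → ℝ), 0 ≤ β → (hmono : StrictMono a) →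
      ∀ (m : Measure (Fin N → Fin N → ℝ)) (m' : Measure (Fin (N + 1) → Fin (N + 1) → ℝ)),
        IsHaarOrth m → IsHaarOrth m' →
      ∀ τ : ℕ → ℝ,
        let F := N * freeU m k β a cR (fun _ => 0) τ
        let cp := fldC k τ
        let crude := (β * (∑ e, |a e|) + 2 * cp) * (1 + (d + 1) * (N / nTop cR))
        (N * freeU m k β a c (fun _ => 0) τ
            ≤ tiltE m k β a cR τ (fun f : Fin d => sp f.castSucc) (baseT β a (-(2 * cp)))
                (fun _ => 0) 1 0) ∧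
          F - crude ≤ N * freeU m k β a c (fun _ => 0) τ ∧
          ∀ (e : Fin (d + 1)) (j : ℕ) (s : ℝ), 1 ≤ j → j ≤ k → 0 ≤ s → s ≤ 1 →
            ∀ g : (Fin (N + 1) → Fin (N + 1) → ℝ) → ℝ, Integrable g m' →
              ((∀ᵐ U ∂m', g U ≤ F - crude - s ∨
                  ∃ (hp : ∀ f, 0 < colW (Fin.cons e c) U f) (hs : ∑ f, colW (Fin.cons e c) U f = 1),
                    let S : Secular d := ⟨a, colW (Fin.cons e c) U, hmono, hp, hs⟩
                    g U ≤ β * S.mean / 2 - 2 * cp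
                      + tiltE m k β a cR τ sp (S.gainT β (4 * cp) 0 e) (S.gainB β) j s) →
                ∫ U, g U ∂m' ≤ auxE m' k β a (Fin.cons e c) τ 0 j s) ∧
              (8 * (d + 1) * cp * N ≤ nTop cR →
                (∀ᵐ U ∂m', F + β * (∑ e, |a e|) + 1 + s ≤ g U ∨
                  ∃ (hp : ∀ f, 0 < colW (Fin.cons e c) U f) (hs : ∑ f, colW (Fin.cons e c) U f = 1),
                    let S : Secular d := ⟨a, colW (Fin.cons e c) U, hmono, hp, hs⟩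
                    β * S.mean / 2
                      + tiltE m k β a cR τ sp (S.gainT β (-(2 * cp)) (-(2 * cp)) e) (S.gainB β) j s
                      ≤ g U) →
                auxE m' k β a (Fin.cons e c) τ 0 j s ≤ ∫ U, g U ∂m')

/-- The weights of one column are those of the law, and every Haar law is invariant on the right. -/
def ColumnStmt : Prop :=
  (∀ (N : ℕ) (m : Measure (Fin N → Fin N → ℝ)), IsHaarOrth m → ∀ V, IsOrth V →
    m.map (fun U => mul U V) = m) ∧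
  ∀ (d N : ℕ) (c : Fin (N + 1) → Fin (d + 1)) (m : Measure (Fin (N + 1) → Fin (N + 1) → ℝ)),
    IsHaarOrth m → ∀ e,
      ∫ U, (colW c U e - (blockCard c e : ℝ) / (N + 1 : ℕ)) ^ 2 ∂m ≤ 4 / (N + 1 : ℕ)

/-- The secular data depend continuously on the weights, uniformly in the shift of the top atom. -/
def SecStmt : Prop :=
  ∀ (d : ℕ) (A : Atoms d) (β : ℝ), 0 < β → ∃ t B : ℝ, 0 < t ∧ ∀ ε : ℝ, 0 < ε → ∃ ρ : ℝ, 0 < ρ ∧
    ∀ (h : ℝ), 0 ≤ h → h ≤ 1 → ∀ (ω : Fin (d + 1) → ℝ) (hp : ∀ f, 0 < ω f) (hs : ∑ f, ω f = 1),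
      (∀ f, |ω f - A.w f| ≤ ρ) →
        let S : Secular d := ⟨(A.up h).a, ω, (A.up h).mono, hp, hs⟩
        let S₀ : Secular d := ⟨(A.up h).a, A.w, (A.up h).mono, A.w_pos, A.w_sum⟩
        (∀ r, t ≤ S.tT β r ∧ S.tT β r ≤ B ∧ |S.tB β r| ≤ B ∧ |S.tT β r - S₀.tT β r| ≤ ε ∧
          |S.tB β r - S₀.tB β r| ≤ ε) ∧
        |S.mean - S₀.mean| ≤ ε ∧
        ∀ f : Fin d, t ≤ baseT β (A.up h).a 0 f ∧ baseT β (A.up h).a 0 f ≤ B

/-- The limit value is Lipschitz in tilts and couplings. -/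
def ContStmt : Prop :=
  ∀ (p : ℕ) (B : ℝ), ∃ C : ℝ, 0 ≤ C ∧ ∀ (k : ℕ) (K : ℕ → ℝ) (P : ℝ), IsKer k K P → P ≤ B →
    ∀ (T T' b b' : Fin p → ℝ), (∀ r, 0 ≤ T r ∧ T r ≤ B ∧ 0 ≤ T' r ∧ T' r ≤ B ∧ |b r| ≤ B ∧ |b' r| ≤ B) →
      ∀ (j : ℕ) (s : ℝ), 1 ≤ j → j ≤ k → 0 ≤ s →
        |tiltV k T b K P j s - tiltV k T' b' K P j s| ≤ C * ∑ r, (|T r - T' r| + |b r - b' r|)

/-- The gain at the exact weights is the variational functional at the induced path. -/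
def AlgStmt : Prop :=
  ∀ (d : ℕ) (A : Atoms d) (β : ℝ), 0 < β → ∃ C δ₀ : ℝ, 0 ≤ C ∧ 0 < δ₀ ∧
    ∀ (h : ℝ), 0 ≤ h → h ≤ 1 → ∀ (k : ℕ) (K : ℕ → ℝ) (P : ℝ), 1 ≤ k → IsKer k K P →
      let V := imgV (A.up h) β k K P
      let M := combV k V fun v => v
      let S : Secular d := ⟨(A.up h).a, A.w, (A.up h).mono, A.w_pos, A.w_sum⟩
      let r := tiltR k (S.tT β) (S.tB β) (dOfK k K P)
      let q := fun l => imgQ k V l / M
      |M - 1| ≤ δ₀ →
        IsPath k q ∧ IsVar k r ∧ r k ≤ C ∧ (∀ e, tiltR k (S.gainT β 0 0 e) (S.gainB β) (dOfK k K P) = r) ∧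
        |∑ e, A.w e * (β * S.mean / 2 + tiltV k (S.gainT β 0 0 e) (S.gainB β) K P 1 0)
            - tiltV k (baseT β (A.up h).a 0) (fun _ => 0) K P 1 0
            - (spinObj k q r + eng (A.up h).law (A.up h).top β k q)| ≤ C * |M - 1|

/-- The spin path is the image of the kernel of the last block, on average over small perturbations. -/
def ImgStmt : Prop :=
  ∀ (d : ℕ) (A : Atoms d) (β ε : ℝ), 0 < β → 0 < ε → ∃ K₀ : ℕ, ∀ k : ℕ, K₀ ≤ k →
    ∃ ρ : ℝ, 0 < ρ ∧ ∀ η δ δ' : ℝ, 0 < η → 0 < δ → 0 < δ' → η ≤ ρ → δ ≤ ρ → δ' ≤ ρ →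
      ∃ θ : ℝ, 0 < θ ∧ ∃ N₀ : ℕ, ∀ N : ℕ, N₀ ≤ N → ∀ (c : Fin N → Fin (d + 1)), Fits A c θ →
        ∀ (m : Measure (Fin N → Fin N → ℝ)), IsHaarOrth m →
          pertAvg k η δ δ' (fun τ h =>
            let V := imgV (A.up h) β k (kerK m k β (raise A.a h) c τ) (kerP m k β (raise A.a h) c τ)
            |combV k V (fun v => v) - 1| + P157.Rsb.mass k * ∑ l ∈ Icc 1 k,
              |qSpin m k β (raise A.a h) c (fun _ => 0) τ l - imgQ k V l|) ≤ ε

/-- Two systems with values at bounded distance have close overlaps inside the last block. -/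
def ShiftStmt : Prop :=
  ∀ (d : ℕ) (a : Fin (d + 1) → ℝ) (β : ℝ), 0 < β → ∀ (k : ℕ) (G ε η δ δ' : ℝ), 0 < ε → 0 < η →
    0 < δ → 0 < δ' → η ≤ 1 → δ ≤ 1 → δ' ≤ 1 → ∃ N₀ : ℕ, ∀ N N' : ℕ, N₀ ≤ N → N₀ ≤ N' →
      |(N : ℝ) - N'| ≤ 1 →
      ∀ (c : Fin N → Fin (d + 1)) (c' : Fin N' → Fin (d + 1)) (m : Measure (Fin N → Fin N → ℝ))
        (m' : Measure (Fin N' → Fin N' → ℝ)), IsHaarOrth m → IsHaarOrth m' →
        (∀ (τ : ℕ → ℝ) (h : ℝ), (∀ l, |τ l| ≤ 2 * (η + δ)) → -δ' ≤ h → h ≤ 2 * δ' →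
          |N * freeU m k β (raise a h) c (fun _ => 0) τ
            - N' * freeU m' k β (raise a h) c' (fun _ => 0) τ| ≤ G) →
        pertAvg k η δ δ' (fun τ h =>
          ∑ l ∈ Icc 1 k, |qTop m k β (raise a h) c (fun _ => 0) τ l
              - qTop m' k β (raise a h) c' (fun _ => 0) τ l|
            + |pTop m k β (raise a h) c (fun _ => 0) τ - pTop m' k β (raise a h) c' (fun _ => 0) τ|) ≤ ε

end Vale.Agent.P166.Rsb
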