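import Vale.Agent.P157.Cube2.Intf
import Vale.Agent.P166.Rsb.FormulaDefs

/-!
# P166: the values of the variational formula in field variables

With increments `d`, the cumulative variances are `r = psum d`, the path is the overlaps
`spinQ k r` of one spin in these fields, and the value is `spinObj` there plus the energy `eng`.
-/

open MeasureTheory Real Finset
open Vale.Agent.P157.Cube2 (spinQ spinObj)

namespace Vale.Agent.P166.Rsb

/-- The cumulative variances with increments `d`: `psum d l = d 1 + ... + d l`. -/
def psum (d : ℕ → ℝ) (l : ℕ) : ℝ := ∑ i ∈ Icc 1 l, d i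

/-- The functional at the increments `d`: with `r = psum d` and `Q = spinQ k r` it is the one-spin
objective `spinObj k Q r` plus the energy `eng` of the path `Q`; there is no supremum inside. -/
noncomputable def fieldValue (μ : Measure ℝ) (b β : ℝ) (k : ℕ) (d : ℕ → ℝ) : ℝ :=
  spinObj k (spinQ k (psum d)) (psum d) + eng μ b β k (spinQ k (psum d))

/-- The values of `fieldValue` over all numbers of levels `k` and all positive increments `d`. -/
def fieldValues (μ : Measure ℝ) (b β : ℝ) : Set ℝ :=
  {x | ∃ (k : ℕ) (d : ℕ → ℝ), (∀ j, 0 < d j) ∧ x = fieldValue μ b β k d}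

end Vale.Agent.P166.Rsb
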