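import Vale.Agent.P166.Rsb.Final
import Vale.Agent.P166.Rsb.ExplicitDefs
import Vale.Agent.P166.Rsb.FormulaApprox
import Vale.Agent.P157.Cube2.Product
import Vale.Agent.P157.Cube2.Path
import Vale.Agent.P166.Rsb.FormulaCavity

/-!
# P166: the formula without an inner supremum

The variational value is also the infimum over increasing field variances `r` of the one-spin
objective at its own overlaps `spinQ k r`, plus the energy functional of these overlaps.  A penalised
maximiser of the objective at a path `q` has overlap tails above those of `q` up to a small error,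
so the energy, which decreases in the tails, does not grow.
-/

open MeasureTheory Real Filter Topology Finset
open Vale.Agent.P157.Rsb (IsPath tail lev)
open Vale.Agent.P157.Cube2 (spinSup spinG spinQ spinObj spinTail IsVar cum line PosNear)

namespace Vale.Agent.P166.Rsb

theorem psum_zero (d : ℕ → ℝ) : psum d 0 = 0 := by simp [psum]

theorem psum_succ (d : ℕ → ℝ) (l : ℕ) : psum d (l + 1) = psum d l + d (l + 1) :=
  sum_Icc_succ_top (by omega) _

theorem psum_lt {d : ℕ → ℝ} (hd : ∀ j, 0 < d j) (l : ℕ) : psum d l < psum d (l + 1) := by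
  rw [psum_succ]; linarith [hd (l + 1)]

theorem isVar_psum {d : ℕ → ℝ} (hd : ∀ j, 0 < d j) (k : ℕ) : IsVar k (psum d) :=
  ⟨psum_zero d, fun j _ => (psum_lt hd j).le⟩

/-- The overlaps of one spin in increasing fields form a path. -/
theorem isPath_spinQ {d : ℕ → ℝ} (hd : ∀ j, 0 < d j) (k : ℕ) : IsPath k (spinQ k (psum d)) := by
  set σ : ℕ → ℝ := fun j => √(d j) with hσ
  have hr : psum d = cum σ := funext fun l => sum_congr rfl fun i _ => (sq_sqrt (hd i).le).symm
  have hp := P157.Cube2.cubePath (fun _ => 0) 0 measurable_const (fun _ => by simp) 0 0 k σ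
  have h0 : spinQ k (cum σ) 0 = 0 := by
    simp only [spinQ, P157.Cube2.spinW_self, P157.Cube2.spinU_zero (Nat.zero_le k)]
    ring
  have h : ∀ l ≤ k, P157.Cube2.cubeQ (fun _ => 0) 0 0 k σ l = spinQ k (cum σ) l := by
    intro l hl
    rcases Nat.eq_zero_or_pos l with rfl | hl0
    · rw [h0]; exact hp.1
    · exact P157.Cube2.cubeProduct.2.1 _ k σ l (mem_Icc.2 ⟨hl0, hl⟩)
  rw [hr]
  exact ⟨h0, fun j hj => (h j hj.le).symm.trans_le ((hp.2.1 j hj).trans_eq (h (j + 1) hj)),
    (h k le_rfl).symm.trans_le hp.2.2⟩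

/-- At its own overlaps the one-spin objective is maximal. -/
theorem spinSup_le_field {d : ℕ → ℝ} (hd : ∀ j, 0 < d j) (k : ℕ) :
    spinSup k (spinQ k (psum d)) ≤ spinObj k (spinQ k (psum d)) (psum d) := by
  refine csSup_le (P157.Cube2.spin.2.1 k _ (isPath_spinQ hd k)).1 ?_
  rintro _ ⟨r, hr, rfl⟩
  have h := P157.Cube2.spin.1 k (spinQ k (psum d)) r (psum d) 0 hr (isVar_psum hd k)
    (fun j _ => psum_lt hd j) fun j _ => by simp [P157.Rsb.tail, P157.Cube2.spinTail]
  simpa using h

/-- A penalised maximiser of the one-spin objective at `q`. -/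
theorem exists_field {k : ℕ} {q : ℕ → ℝ} (hq : IsPath k q) {e : ℝ} (he : 0 < e) :
    ∃ d : ℕ → ℝ, (∀ j, 0 < d j) ∧
      (∀ j ∈ Icc 1 k, tail k q j ≤ tail k (spinQ k (psum d)) j + e) ∧
      spinObj k (spinQ k (psum d)) (psum d) ≤ spinSup k q + e := by
  classical
  set U := spinSup k q + 2 * k with hU
  have hsup0 := (P157.Cube2.spin.2.1 k q hq).2.2
  have hU0 : 0 ≤ U := by positivity
  set ε := min 1 (e ^ 2 / (16 * (U + 1))) with hε
  have hε0 : 0 < ε := lt_min one_pos (by positivity)
  have hεU : 16 * (ε * U) ≤ e ^ 2 := by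
    have := (le_div_iff₀ (show (0 : ℝ) < 16 * (U + 1) by positivity)).1
      (show ε ≤ e ^ 2 / (16 * (U + 1)) from min_le_right _ _)
    linarith
  set η := min 1 (e / (k + 1)) with hη
  have hη0 : 0 < η := lt_min one_pos (by positivity)
  have hη1 : η ≤ 1 := min_le_left _ _
  have hηk : η * k ≤ e := by
    have := (le_div_iff₀ (show (0 : ℝ) < k + 1 by positivity)).1
      (show η ≤ e / (k + 1) from min_le_right _ _)
    linarith
  set B := √(U / ε) + 2 with hB
  set ext : (Fin k → ℝ) → ℕ → ℝ := fun x j =>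
    if h : 1 ≤ j ∧ j ≤ k then x ⟨j - 1, by omega⟩ else η with hext
  have hexte : ∀ x (i : Fin k), ext x (i + 1) = x i := fun x i => by
    simp only [hext]
    rw [dif_pos ⟨Nat.le_add_left 1 i, i.2⟩]
    exact congrArg x (Fin.ext (by simp))
  set K : Set (Fin k → ℝ) := Set.pi Set.univ fun _ => Set.Icc η B with hK
  have hB1 : 1 ≤ B := by linarith [sqrt_nonneg (U / ε)]
  have hpos : ∀ x ∈ K, ∀ j, 0 < ext x j := fun x hx j => by
    simp only [hext]
    split_ifs with h
    · exact hη0.trans_le (hx ⟨j - 1, by omega⟩ trivial).1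
    · exact hη0
  set Φ : (Fin k → ℝ) → ℝ := fun x => spinObj k q (psum (ext x)) - ε * ∑ i, x i ^ 2 with hΦ
  have hextc : ∀ j, Continuous fun x => ext x j := fun j => by
    simp only [hext]; split_ifs <;> fun_prop
  have hpc : ∀ l, Continuous fun x => psum (ext x) l := fun l =>
    continuous_finsetSum _ fun i _ => hextc i
  have hcont : Continuous Φ := by
    have hc := P157.Cube2.continuous_spinN (k := k) (ρ := fun x => psum (ext x)) hpc k le_rfl
    have hF : Continuous fun x => P157.Cube2.spinN k (psum (ext x)) k 0 :=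
      hc.comp (continuous_id.prodMk continuous_const)
    simp only [hΦ, spinObj, spinG, P157.Cube2.spinF, Nat.sub_zero]
    exact ((hF.sub ((hpc k).div_const 2)).add
      ((continuous_finsetSum _ fun l _ => (hpc l).const_mul (q l)).const_mul _)).sub
        (continuous_const.mul (continuous_finsetSum _ fun i _ => (continuous_apply i).pow 2))
  obtain ⟨x, hxK, hmax⟩ := (isCompact_univ_pi fun _ => isCompact_Icc).exists_isMaxOn
    ⟨fun _ => η, fun _ _ => ⟨le_rfl, hη1.trans hB1⟩⟩ hcont.continuousOn (s := K)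
  set d := ext x with hd
  set r := psum d with hr
  have hd0 := hpos x hxK
  have hsupx : spinObj k q r ≤ spinSup k q :=
    le_csSup (P157.Cube2.spin.2.1 k q hq).2.1 ⟨r, isVar_psum hd0 k, rfl⟩
  have hlow : -(2 * (k : ℝ)) ≤ Φ fun _ => η := by
    set x₀ : Fin k → ℝ := fun _ => η
    have hp₀ := hpos x₀ fun _ _ => ⟨le_rfl, hη1.trans hB1⟩
    have h := P157.Cube2.spinG_tangent (k := k) (r := fun _ => (0 : ℝ)) (r' := psum (ext x₀))
      (psum_zero _).symm (fun _ _ _ => le_rfl) fun j h1 _ => by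
        have := psum_lt hp₀ (j - 1)
        rwa [show j - 1 + 1 = j by omega] at this
    have h0 : spinG k (fun _ => (0 : ℝ)) = 0 := by
      simp [spinG, P157.Cube2.spinF_zero (Nat.zero_le k)]
    have hle : ∀ l ∈ Icc 1 k, 0 ≤ psum (ext x₀) l ∧ psum (ext x₀) l ≤ k := fun l hl => by
      refine ⟨P157.Cube2.isVar_nonneg (isVar_psum hp₀ k) (mem_Icc.1 hl).2, ?_⟩
      calc psum (ext x₀) l ≤ ∑ _i ∈ Icc 1 l, (1 : ℝ) := sum_le_sum fun i hi => by
            simp only [hext, x₀]; split_ifs <;> exact hη1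
        _ ≤ k := by
            rw [sum_const, Nat.card_Icc, nsmul_eq_mul, mul_one, Nat.add_sub_cancel]
            exact_mod_cast (mem_Icc.1 hl).2
    have h2 : -(k : ℝ) / 2 ≤ spinG k (psum (ext x₀)) := by
      have hs : ∑ l ∈ Icc 1 k, spinQ k (psum (ext x₀)) l * psum (ext x₀) l
          ≤ (k : ℝ) * k := by
        calc ∑ l ∈ Icc 1 k, spinQ k (psum (ext x₀)) l * psum (ext x₀) l
            ≤ ∑ _l ∈ Icc 1 k, (k : ℝ) := sum_le_sum fun l hl =>
              (mul_le_of_le_one_left (hle l hl).1 (P157.Cube2.spinQ_mem (mem_Icc.1 hl).2).2).trans (hle l hl).2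
          _ = _ := by rw [sum_const, Nat.card_Icc, nsmul_eq_mul, Nat.add_sub_cancel]
      have hm : P157.Rsb.mass k * ((k : ℝ) * (k : ℝ)) ≤ (k : ℝ) := by
        rw [← mul_assoc]
        refine mul_le_of_le_one_left (Nat.cast_nonneg k) ?_
        unfold P157.Rsb.mass; rw [div_mul_eq_mul_div, one_mul, div_le_one (by positivity)]; linarith
      simp only [zero_sub, mul_neg, sum_neg_distrib] at h
      have := mul_le_mul_of_nonneg_left hs (P157.Cube2.massK_pos (k := k)).le
      linarith
    have h3 : 0 ≤ ∑ l ∈ Icc 1 k, q l * psum (ext x₀) l := sum_nonneg fun l hl =>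
      mul_nonneg (P157.Cube2.isPath_mem hq (mem_Icc.1 hl).2).1 (hle l hl).1
    have h4 : ε * ∑ i, x₀ i ^ 2 ≤ k := by
      calc ε * ∑ i, x₀ i ^ 2 ≤ 1 * ∑ _i : Fin k, (1 : ℝ) := mul_le_mul (min_le_left _ _)
            (sum_le_sum fun i _ => pow_le_one₀ hη0.le hη1) (sum_nonneg fun i _ => sq_nonneg _) zero_le_one
        _ = k := by simp
    have := mul_nonneg (div_nonneg (P157.Cube2.massK_pos (k := k)).le zero_le_two) h3
    simp only [hΦ, spinObj]
    linarith [Nat.cast_nonneg (α := ℝ) k]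
  have hsq : ∀ i, ε * x i ^ 2 ≤ U := fun i => by
    have h1 : Φ (fun _ => η) ≤ Φ x := hmax fun _ _ => ⟨le_rfl, hη1.trans hB1⟩
    have h2 : ε * x i ^ 2 ≤ ε * ∑ i, x i ^ 2 := mul_le_mul_of_nonneg_left
      (single_le_sum (f := fun i => x i ^ 2) (fun i _ => sq_nonneg _) (mem_univ i)) hε0.le
    have h3 : Φ x = spinObj k q r - ε * ∑ i, x i ^ 2 := rfl
    linarith
  have hxB : ∀ i, x i < B - 1 := fun i => by
    have h : x i ≤ √(U / ε) := le_sqrt_of_sq_le ((le_div_iff₀' hε0).2 (hsq i))
    linarith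
  have hεx : ∀ i, 4 * (ε * x i) ≤ e := fun i => by
    refine (sq_le_sq₀ (mul_nonneg (by norm_num) (mul_nonneg hε0.le (hη0.le.trans (hxK i trivial).1))) he.le).1 ?_
    have := mul_le_mul_of_nonneg_left (hsq i) hε0.le
    linarith
  set g : Fin k → ℝ := fun i =>
    (tail k q (i + 1) - spinTail k r (i + 1)) / 2 - 2 * ε * x i with hg
  have key : ∀ i, g i ≤ 0 ∧ (η < x i → 0 ≤ g i) := by
    intro i
    set dir : ℕ → ℝ := fun l => if (i : ℕ) + 1 ≤ l then 1 else 0 with hdir
    set y : ℝ → Fin k → ℝ := fun t => Function.update x i (x i + t) with hy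
    have hps : ∀ t, psum (ext (y t)) = line r dir t := fun t => by
      funext l
      have e : t * dir l = ∑ j ∈ Icc 1 l, if j = (i : ℕ) + 1 then t else 0 := by
        rw [sum_ite_eq']
        simp only [hdir, mem_Icc]
        split_ifs <;> first | ring1 | omega
      simp only [line, e]
      simp only [psum, hr, ← sum_add_distrib]
      refine sum_congr rfl fun j hj => ?_
      simp only [hd, hext]
      by_cases h : 1 ≤ j ∧ j ≤ k
      · rw [dif_pos h, dif_pos h]
        simp only [hy]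
        by_cases hji : (⟨j - 1, by omega⟩ : Fin k) = i
        · rw [if_pos (by rw [← hji]; simp; omega)]
          subst hji
          rw [Function.update_self]
        · rw [if_neg (fun e => hji (Fin.ext (by simp; omega))), Function.update_of_ne hji, add_zero]
      · rw [dif_neg h, dif_neg h, if_neg (fun e => h ⟨by omega, by omega⟩), add_zero]
    set H : ℝ → ℝ := fun t => spinG k (line r dir t)
      + P157.Rsb.mass k / 2 * ∑ l ∈ Icc 1 k, q l * line r dir t l
      - ε * ((∑ j ∈ univ.erase i, x j ^ 2) + (x i + t) ^ 2) with hH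
    have hHΦ : ∀ t, Φ (y t) = H t := fun t => by
      simp only [hΦ, hH, spinObj, hps]
      have he' : ∑ j ∈ univ.erase i, y t j ^ 2 = ∑ j ∈ univ.erase i, x j ^ 2 :=
        sum_congr rfl fun j hj => by simp only [hy, Function.update_of_ne (ne_of_mem_erase hj)]
      rw [← add_sum_erase univ (fun j => y t j ^ 2) (mem_univ i), he',
        show y t i = x i + t by simp [hy]]
      ring
    have hline0 : line r dir 0 = r := funext fun l => by simp [line]
    have hnear : PosNear k r dir 0 η := by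
      refine ⟨hη0, fun s hs j h1 h2 => ?_⟩
      have hdj : η ≤ d j := by
        simp only [hd, hext, dif_pos (And.intro h1 h2)]
        exact (hxK _ trivial).1
      have e1 : r j = r (j - 1) + d j := by
        have := psum_succ d (j - 1)
        rwa [show j - 1 + 1 = j by omega] at this
      simp only [line, hdir, sub_zero] at hs ⊢
      rw [abs_lt] at hs
      split_ifs <;> linarith
    have hdir0 : dir 0 = 0 := by simp [hdir]
    have hsum : ∀ F : ℕ → ℝ, ∑ l ∈ Icc 1 k, dir l * F l = ∑ l ∈ Icc ((i : ℕ) + 1) k, F l := fun F => by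
      simp only [hdir, ite_mul, one_mul, zero_mul, ← sum_filter]
      refine sum_congr ?_ fun _ _ => rfl
      ext l; simp only [mem_filter, mem_Icc]; omega
    have hder : HasDerivAt H (g i) 0 := by
      have h1 := P157.Cube2.deriv_spinG hnear hdir0
      have h2 : HasDerivAt (fun t => ∑ l ∈ Icc 1 k, q l * line r dir t l)
          (∑ l ∈ Icc 1 k, dir l * q l) 0 := HasDerivAt.fun_sum fun l _ => by
        have := (((hasDerivAt_id (0 : ℝ)).mul_const (dir l)).const_add (r l)).const_mul (q l)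
        simpa [line, mul_comm] using this
      have h3 : HasDerivAt (fun t => (∑ j ∈ univ.erase i, x j ^ 2) + (x i + t) ^ 2) (2 * x i) 0 := by
        simpa using (((hasDerivAt_id (0 : ℝ)).const_add (x i)).pow 2).const_add
          (∑ j ∈ univ.erase i, x j ^ 2)
      have h := (h1.fun_add (h2.const_mul (P157.Rsb.mass k / 2))).fun_sub (h3.const_mul ε)
      refine h.congr_deriv ?_
      rw [hline0, hsum, hsum]
      simp only [hg, P157.Rsb.tail, spinTail]
      ring
    have hy0 : y 0 = x := by simp [hy]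
    have hmem : ∀ t, η ≤ x i + t → x i + t ≤ B → y t ∈ K := fun t a b j _ => by
      simp only [hy]
      by_cases h : j = i
      · subst h; simp only [Function.update_self, Set.mem_Icc]; exact ⟨a, b⟩
      · simp only [Function.update_of_ne h]; exact hxK j trivial
    have hle : ∀ t, η ≤ x i + t → x i + t ≤ B → H t ≤ H 0 := fun t a b => by
      rw [← hHΦ, ← hHΦ, hy0]; exact hmax (hmem t a b)
    have hs := hasDerivAt_iff_tendsto_slope.1 hder
    refine ⟨?_, fun hlt => ?_⟩
    · refine le_of_tendsto (hs.mono_left (nhdsWithin_mono 0 (show Set.Ioi (0 : ℝ) ⊆ {0}ᶜ from fun t ht => (Set.mem_Ioi.1 ht).ne'))) ?_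
      filter_upwards [Ioo_mem_nhdsGT one_pos] with t ht
      rw [slope_def_field, sub_zero]
      exact div_nonpos_of_nonpos_of_nonneg (sub_nonpos.2 (hle t (by linarith [(hxK i trivial).1, ht.1])
        (by linarith [hxB i, ht.2]))) ht.1.le
    · refine ge_of_tendsto (hs.mono_left (nhdsWithin_mono 0 (show Set.Iio (0 : ℝ) ⊆ {0}ᶜ from fun t ht => (Set.mem_Iio.1 ht).ne))) ?_
      filter_upwards [Ioo_mem_nhdsLT (show η - x i < 0 by linarith)] with t ht
      rw [slope_def_field, sub_zero]
      exact div_nonneg_of_nonpos (sub_nonpos.2 (hle t (by linarith [ht.1]) (by linarith [hxB i, ht.2]))) ht.2.le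
  refine ⟨d, hd0, fun j hj => ?_, ?_⟩
  · obtain ⟨h1, h2⟩ := mem_Icc.1 hj
    obtain ⟨i, rfl⟩ : ∃ i : Fin k, (i : ℕ) + 1 = j := ⟨⟨j - 1, by omega⟩, by simp; omega⟩
    have := (key i).1
    simp only [hg] at this
    show tail k q ((i : ℕ) + 1) ≤ spinTail k r ((i : ℕ) + 1) + e
    linarith [hεx i]
  · have e1 : ∀ p : ℕ → ℝ, spinObj k p r = spinG k r
        + (∑ i : Fin k, tail k p ((i : ℕ) + 1) * x i) / 2 := fun p => by
      have h := sum_tail_mul k p d
      rw [P157.Rsb.sum_Icc_one, ← Fin.sum_univ_eq_sum_range] at h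
      simp only [hd, hexte] at h
      simp only [spinObj]
      have hc : ∀ l, r l = ∑ j ∈ Icc 1 l, ext x j := fun l => rfl
      simp only [hc, h]
      ring
    have e2 : ∀ i : Fin k, (tail k (spinQ k r) ((i : ℕ) + 1) - tail k q ((i : ℕ) + 1)) * x i ≤ η := by
      intro i
      have hx0 : η ≤ x i := (hxK i trivial).1
      rcases hx0.eq_or_lt with h | h
      · have a1 : tail k (spinQ k r) ((i : ℕ) + 1) - tail k q ((i : ℕ) + 1) ≤ 1 := by
          have b1 := (P157.Rsb.tail_mem (isPath_spinQ hd0 k) (show 1 ≤ (i : ℕ) + 1 by omega)).2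
          have b2 := (P157.Rsb.tail_mem hq (show 1 ≤ (i : ℕ) + 1 by omega)).1
          linarith
        rw [← h]
        exact mul_le_of_le_one_left hη0.le a1
      · have := (key i).2 h
        simp only [hg] at this
        have a1 : tail k (spinQ k r) ((i : ℕ) + 1) - tail k q ((i : ℕ) + 1) ≤ 0 := by
          show spinTail k r ((i : ℕ) + 1) - tail k q ((i : ℕ) + 1) ≤ 0
          linarith [mul_pos hε0 (hη0.trans h)]
        exact (mul_nonpos_of_nonpos_of_nonneg a1 (hη0.trans h).le).trans hη0.le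
    have hsum := sum_le_sum fun i (_ : i ∈ (univ : Finset (Fin k))) => e2 i
    simp only [sub_mul, sum_sub_distrib, sum_const, card_univ, Fintype.card_fin, nsmul_eq_mul] at hsum
    linarith [e1 q, e1 (spinQ k r), mul_comm η (k : ℝ)]

/-- The infimum of the functional is also the infimum over fields, with no supremum inside. -/
theorem isGLB_fieldValues {μ : Measure ℝ} [IsProbabilityMeasure μ] {b : ℝ} (hb : IsTopEdge μ b)
    (hlo : ∃ lo, μ (Set.Iio lo) = 0) {β : ℝ} (hβ : 0 < β) {l : ℝ}
    (hl : IsGLB (formulaValues μ b β) l) : IsGLB (fieldValues μ b β) l := by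
  refine ⟨?_, fun x hx => hl.2 ?_⟩
  · rintro _ ⟨k, d, hd, rfl⟩
    exact (hl.1 ⟨k, _, isPath_spinQ hd k, rfl⟩).trans (add_le_add (spinSup_le_field hd k) le_rfl)
  rintro _ ⟨k, q, hq, rfl⟩
  refine le_of_forall_pos_le_add fun ε hε => ?_
  obtain ⟨lo, hlo⟩ := hlo
  obtain ⟨n, A, -, -, -, -, -, -, heng⟩ :=
    exists_atoms_eng hb hlo (ε := ε / (4 * β)) (by positivity)
  obtain ⟨C, hC0, hC⟩ := (formulaStmt n A).2.1 β hβ
  set e := min (ε / 4) (ε / (4 * (β * C + 1))) with he
  have he0 : 0 < e := lt_min (by linarith) (by positivity)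
  have heC : β * (C * e) ≤ ε / 4 := by
    have h := (le_div_iff₀ (show 0 < 4 * (β * C + 1) by positivity)).1
      (show e ≤ ε / (4 * (β * C + 1)) from min_le_right _ _)
    linarith
  obtain ⟨d, hd, htail, hobj⟩ := exists_field hq he0
  have hq' := isPath_spinQ hd k
  have hA := A.eng_sub_le (M := C * e) hβ.le hq hq' fun t ht => by
    linarith [(hC k t q _ ht.1 ht.2.le hq hq').1 e he0.le htail]
  have h1 := (abs_le.1 (heng β k q hβ.le hq)).1
  have h2 := (abs_le.1 (heng β k _ hβ.le hq')).2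
  have hβε : β * (ε / (4 * β)) = ε / 4 := by field_simp
  rw [hβε] at h1 h2
  have h3 : x ≤ fieldValue μ b β k d := hx ⟨k, d, hd, rfl⟩
  simp only [fieldValue] at h3
  linarith [min_le_left (ε / 4) (ε / (4 * (β * C + 1)))]

/-- The hand-in statement for the formula, in both forms. -/
theorem formula_explicit_of (hUp : UpperStmt) (hLo : LowerStmt) (hX : ApproxStmt) :
    (∀ N : ℕ, ∃ m : Measure (Fin N → Fin N → ℝ), IsHaarOrth m) ∧
    (∀ (k : ℕ) (q : ℕ → ℝ), Vale.Agent.P157.Rsb.IsPath k q →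
      BddAbove (Vale.Agent.P157.Cube2.spinObj k q '' {r | Vale.Agent.P157.Cube2.IsVar k r})) ∧
    ∀ β : ℝ, 0 < β → ∀ μ : Measure ℝ, IsProbabilityMeasure μ → ∀ b : ℝ, IsTopEdge μ b →
      (∃ lo, μ (Set.Iio lo) = 0) →
      (∀ x : ℝ, 0 < x →
        BddBelow ((fun z => (z * x - 1 - Real.log x - ∫ t, Real.log (z - t) ∂μ) / 2) '' Set.Ioi b)) ∧
      ∃ l, IsGLB (fieldValues μ b β) l ∧ IsGLB {x | ∃ (k : ℕ) (q : ℕ → ℝ), Vale.Agent.P157.Rsb.IsPath k q ∧
          x = Vale.Agent.P157.Cube2.spinSup k q + eng μ b β k q} l ∧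
        ∀ lam : ∀ N, Fin N → ℝ, Admissible μ b lam →
          ∀ m : ∀ N, Measure (Fin N → Fin N → ℝ), (∀ N, IsHaarOrth (m N)) →
            Tendsto (fun N => ∫ U, press β (lam N) U ∂m N) atTop (nhds l) ∧
            Tendsto (fun N => ∫⁻ U, ENNReal.ofReal |press β (lam N) U - l| ∂m N) atTop (nhds 0) := by
  obtain ⟨h1, h2, h3⟩ := formula_of hUp hLo hX
  refine ⟨h1, h2, fun β hβ μ hμ b hb hlo => ?_⟩
  obtain ⟨hbdd, l, hl, h⟩ := h3 β hβ μ hμ b hb hlo
  exact ⟨hbdd, l, isGLB_fieldValues hb hlo hβ hl, hl, h⟩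

end Vale.Agent.P166.Rsb
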