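import Vale.Agent.P157.Rsb.Calc
import Vale.Agent.P157.Rsb.Upd

/-!
# P166: cascades with one amplitude per level and coordinate

A leaf sees, in every coordinate `i` of a level of fields, the number `v x i`; the field of level `l`
in that coordinate has amplitude `s l i`. Bounds and integration by parts.
-/

open MeasureTheory ProbabilityTheory Real Finset

namespace Vale.Agent.P166.Rsb

open Vale.Agent.P157.Rsb (stdG val cnd pairCnd mass Size LinB Tame gaussSize cnd_ibp cnd_tame
  cnd_finsum cnd_const_mul cnd_congr_upto cnd_upto)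

/-- What the leaf shows to the fields, and the part without fields. -/
structure FData (ι X : Type) [MeasurableSpace X] where
  /-- the number seen in each coordinate -/
  v : X → ι → ℝ
  /-- the part without fields -/
  det : X → ℝ
  v_meas : ∀ i, Measurable fun x => v x i
  det_meas : Measurable det
  bdd : ∃ B, ∀ x, (∀ i, |v x i| ≤ B) ∧ |det x| ≤ B

variable {ι X : Type} [Fintype ι] [MeasurableSpace X] {k : ℕ}

/-- The Hamiltonian. -/
noncomputable def gham (D : FData ι X) (s : ℕ → ι → ℝ) (z : Fin k → ι → ℝ) (x : X) : ℝ :=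
  ∑ l : Fin k, ∑ i, (s ((l : ℕ) + 1) i * z l i * D.v x i - s ((l : ℕ) + 1) i ^ 2 / 2 * D.v x i ^ 2)
    + D.det x

/-- The mean of a coordinate at level `l`. -/
noncomputable def gmv (μ : Measure X) (D : FData ι X) (s : ℕ → ι → ℝ) (l : ℕ) (i : ι)
    (z : Fin k → ι → ℝ) : ℝ :=
  cnd (stdG ι) μ (gham D s) (fun _ x => D.v x i) l z

omit [Fintype ι] in
theorem FData.bound (D : FData ι X) :
    ∃ B, 0 ≤ B ∧ ∀ x, (∀ i, |D.v x i| ≤ B) ∧ |D.det x| ≤ B := by
  obtain ⟨B, hB⟩ := D.bdd
  exact ⟨|B|, abs_nonneg B, fun x =>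
    ⟨fun i => ((hB x).1 i).trans (le_abs_self B), (hB x).2.trans (le_abs_self B)⟩⟩

theorem abs_z_le_tot (z : Fin k → ι → ℝ) (a : Fin k) (i : ι) : |z a i| ≤ (gaussSize ι).tot z :=
  (single_le_sum (f := fun i => |z a i|) (fun _ _ => abs_nonneg _) (mem_univ i)).trans
    (single_le_sum (f := fun a => ∑ i, |z a i|) (fun _ _ => sum_nonneg fun _ _ => abs_nonneg _)
      (mem_univ a))

theorem tame_coord (a : Fin k) (i : ι) :
    Tame (gaussSize ι) fun (z : Fin k → ι → ℝ) (_ : X) => z a i :=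
  ⟨(measurable_pi_apply i).comp ((measurable_pi_apply a).comp measurable_fst), 1, zero_le_one,
    fun z _ => by
      rw [one_mul, one_mul]
      exact (abs_z_le_tot z a i).trans ((lt_add_one _).le.trans (add_one_le_exp _))⟩

theorem tame_v (D : FData ι X) (i : ι) :
    Tame (gaussSize ι) fun (_ : Fin k → ι → ℝ) x => D.v x i := by
  obtain ⟨B, _, hB⟩ := D.bound
  exact Tame.of_bdd ((D.v_meas i).comp measurable_snd) fun _ x => (hB x).1 i

theorem tame_v_sq (D : FData ι X) (i : ι) :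
    Tame (gaussSize ι) fun (_ : Fin k → ι → ℝ) x => D.v x i ^ 2 :=
  ((tame_v D i).mul (tame_v D i)).congr fun _ _ => (pow_two _).symm

theorem gham_meas (D : FData ι X) (s : ℕ → ι → ℝ) :
    Measurable (Function.uncurry (gham (k := k) D s)) := by
  have := D.v_meas
  have := D.det_meas
  simp only [Function.uncurry_def, gham]
  fun_prop

/-- A linear bound that depends only on bounds for the amplitudes and the leaf. -/
theorem abs_gham_le {R B : ℝ} (D : FData ι X) (hB0 : 0 ≤ B)
    (hB : ∀ x, (∀ i, |D.v x i| ≤ B) ∧ |D.det x| ≤ B) {s : ℕ → ι → ℝ}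
    (hs : ∀ (l : Fin k) i, |s ((l : ℕ) + 1) i| ≤ R) (z : Fin k → ι → ℝ) (x : X) :
    |gham D s z x| ≤ (|R| * B + k * Fintype.card ι * (R ^ 2 / 2 * B ^ 2) + B)
      * (1 + (gaussSize ι).tot z) := by
  obtain ⟨hv, hd⟩ := hB x
  have ht := (gaussSize ι).tot_nonneg z
  have hterm : ∀ (l : Fin k) i, |s ((l : ℕ) + 1) i * z l i * D.v x i
      - s ((l : ℕ) + 1) i ^ 2 / 2 * D.v x i ^ 2| ≤ |R| * B * |z l i| + R ^ 2 / 2 * B ^ 2 := fun l i => by
    refine (abs_sub _ _).trans (add_le_add ?_ ?_)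
    · rw [abs_mul, abs_mul, mul_right_comm |R|]
      exact mul_le_mul (mul_le_mul_of_nonneg_right ((hs l i).trans (le_abs_self R)) (abs_nonneg _))
        (hv i) (abs_nonneg _) (by positivity)
    · rw [abs_mul, abs_div, abs_pow, abs_pow, abs_two]
      exact mul_le_mul (div_le_div_of_nonneg_right (pow_le_pow_left₀ (abs_nonneg _) (hs l i) 2)
        zero_le_two) (pow_le_pow_left₀ (abs_nonneg _) (hv i) 2) (by positivity) (by positivity)
  unfold gham
  refine (abs_add_le _ _).trans ((add_le_add ((abs_sum_le_sum_abs _ _).trans (sum_le_sum fun l _ =>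
    (abs_sum_le_sum_abs _ _).trans (sum_le_sum fun i _ => hterm l i))) hd).trans ?_)
  simp only [sum_add_distrib, ← mul_sum, sum_const, card_univ, Fintype.card_fin, nsmul_eq_mul]
  have e : (gaussSize ι).tot z = ∑ l : Fin k, ∑ i, |z l i| := rfl
  rw [← e]
  nlinarith [mul_nonneg (mul_nonneg (mul_nonneg (Nat.cast_nonneg (α := ℝ) k)
    (Nat.cast_nonneg (α := ℝ) (Fintype.card ι))) (by positivity : 0 ≤ R ^ 2 / 2 * B ^ 2)) ht,
    mul_nonneg hB0 ht, mul_nonneg (abs_nonneg R) hB0]

theorem le_sum_amp (s : ℕ → ι → ℝ) (l : Fin k) (i : ι) :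
    |s ((l : ℕ) + 1) i| ≤ ∑ l : Fin k, ∑ i, |s ((l : ℕ) + 1) i| :=
  (single_le_sum (f := fun i => |s ((l : ℕ) + 1) i|) (fun _ _ => abs_nonneg _) (mem_univ i)).trans
    (single_le_sum (f := fun l : Fin k => ∑ i, |s ((l : ℕ) + 1) i|)
      (fun _ _ => sum_nonneg fun _ _ => abs_nonneg _) (mem_univ l))

theorem gham_linB (D : FData ι X) (s : ℕ → ι → ℝ) : LinB (gaussSize ι) (gham (k := k) D s) := by
  obtain ⟨B, hB0, hB⟩ := D.bound
  exact ⟨gham_meas D s, _, by positivity, fun z x => abs_gham_le D hB0 hB (le_sum_amp s) z x⟩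

/-- The Hamiltonian as a function of one field coordinate. -/
theorem gham_upd [DecidableEq ι] (D : FData ι X) (s : ℕ → ι → ℝ) (a : Fin k) (i : ι) (t : ℝ)
    (z : Fin k → ι → ℝ) (x : X) :
    gham D s (Function.update z a (Function.update (z a) i t)) x
      = gham D s z x + s ((a : ℕ) + 1) i * D.v x i * (t - z a i) := by
  set z' := Function.update z a (Function.update (z a) i t)
  have h : ∀ (l : Fin k) (b : ι), s ((l : ℕ) + 1) b * z' l b * D.v x b
      = s ((l : ℕ) + 1) b * z l b * D.v x b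
        + if l = a ∧ b = i then s ((a : ℕ) + 1) i * D.v x i * (t - z a i) else 0 := fun l b => by
    by_cases hl : l = a
    · subst hl
      by_cases hb : b = i
      · subst hb; simp [z']; ring
      · simp [z', hb]
    · simp [z', hl]
  simp only [gham, h, add_sub_right_comm, sum_add_distrib, ite_and, sum_ite_irrel, sum_ite_eq',
    mem_univ, if_true, sum_const_zero]
  ring

theorem gham_upd_deriv [DecidableEq ι] (D : FData ι X) (s : ℕ → ι → ℝ) (a : Fin k) (i : ι)
    (z : Fin k → ι → ℝ) (x : X) :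
    HasDerivAt (fun t => gham D s (Function.update z a (Function.update (z a) i t)) x)
      (s ((a : ℕ) + 1) i * D.v x i) (z a i) := by
  simp only [gham_upd]
  simpa using (((hasDerivAt_id (z a i)).sub_const _).const_mul
    (s ((a : ℕ) + 1) i * D.v x i)).const_add (gham D s z x)

variable (μ : Measure X) [IsFiniteMeasure μ] [NeZero μ]

theorem tame_gmv (D : FData ι X) (s : ℕ → ι → ℝ) (l : ℕ) (i : ι) :
    Tame (gaussSize ι) fun (z : Fin k → ι → ℝ) (_ : X) => gmv μ D s l i z :=
  cnd_tame (μ := μ) (gham_linB D s) (tame_v D i) l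

theorem tame_gmv_sq (D : FData ι X) (s : ℕ → ι → ℝ) (l : ℕ) (i : ι) :
    Tame (gaussSize ι) fun (z : Fin k → ι → ℝ) (_ : X) => gmv μ D s l i z ^ 2 :=
  ((tame_gmv μ D s l i).mul (tame_gmv μ D s l i)).congr fun _ _ => (pow_two _).symm

/-- Integration by parts of a field coordinate against an observable of the leaf. -/
theorem gcoord_ibp [DecidableEq ι] (D : FData ι X) (s : ℕ → ι → ℝ) (a : Fin k) (i : ι) {φ : X → ℝ}
    (hφm : Measurable φ) {P : ℝ} (hφ : ∀ x, |φ x| ≤ P) {j : ℕ} (hj : j ≤ a) (z : Fin k → ι → ℝ) :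
    cnd (stdG ι) μ (gham D s) (fun z x => z a i * φ x) j z
      = s ((a : ℕ) + 1) i * (cnd (stdG ι) μ (gham D s) (fun _ x => φ x * D.v x i) j z
          - mass k * ∑ l ∈ Icc ((a : ℕ) + 1) k, cnd (stdG ι) μ (gham D s)
              (fun z _ => cnd (stdG ι) μ (gham D s) (fun _ x => φ x) l z * gmv μ D s l i z) j z) := by
  set r := s ((a : ℕ) + 1) i
  have h0 : Tame (gaussSize ι) fun (_ : Fin k → ι → ℝ) (_ : X) => (0 : ℝ) :=
    Tame.of_bdd measurable_const (B := 0) fun _ _ => by simp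
  rw [cnd_ibp (H := gham D s) (φ := fun _ x => φ x) (dH := fun _ x => r * D.v x i)
    (dφ := fun _ _ => 0) i a (gham_linB D s) (Tame.of_bdd (hφm.comp measurable_snd) fun _ x => hφ x)
    ((tame_v D i).const_mul r) h0 (fun z x => gham_upd_deriv D s a i z x)
    (fun z x => hasDerivAt_const _ _) hj z]
  have e1 : (fun (_ : Fin k → ι → ℝ) x => 0 + φ x * (r * D.v x i))
      = fun _ x => r * (φ x * D.v x i) := funext₂ fun _ x => by ring
  have e2 : ∀ l, (fun (z : Fin k → ι → ℝ) (_ : X) =>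
      cnd (stdG ι) μ (gham D s) (fun _ x => φ x) l z
        * (r * cnd (stdG ι) μ (gham D s) (fun _ x => D.v x i) l z))
      = fun z _ => r * (cnd (stdG ι) μ (gham D s) (fun _ x => φ x) l z * gmv μ D s l i z) :=
    fun l => funext₂ fun z _ => by rw [gmv]; ring
  simp only [e1, e2, cnd_const_mul]
  rw [← mul_sum]
  ring

/-- Two leaves branching after level `j`, in a coordinatewise product. -/
theorem pair_eq_gmv_sq (D : FData ι X) (s : ℕ → ι → ℝ) (S : Finset ι) (j : ℕ)
    (z : Fin k → ι → ℝ) :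
    pairCnd (stdG ι) μ (gham D s) (fun _ x _ y => ∑ i ∈ S, D.v x i * D.v y i) j z
      = ∑ i ∈ S, gmv μ D s j i z ^ 2 := by
  have hH := gham_linB (k := k) D s
  have h1 : ∀ x : X, cnd (stdG ι) μ (gham (k := k) D s)
      (fun _ y => ∑ i ∈ S, D.v x i * D.v y i) j z = ∑ i ∈ S, D.v x i * gmv μ D s j i z := fun x => by
    rw [cnd_finsum hH _ fun i _ => (tame_v D i).const_mul _]
    simp only [cnd_const_mul, gmv]
  show cnd (stdG ι) μ (gham D s) (fun _ x => cnd (stdG ι) μ (gham (k := k) D s)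
    (fun _ y => ∑ i ∈ S, D.v x i * D.v y i) j z) j z = _
  simp only [h1]
  rw [show (fun (_ : Fin k → ι → ℝ) x => ∑ i ∈ S, D.v x i * gmv μ D s j i z)
      = fun (_ : Fin k → ι → ℝ) x => ∑ i ∈ S, gmv μ D s j i z * D.v x i from
    funext₂ fun _ x => sum_congr rfl fun i _ => mul_comm _ _,
    cnd_finsum hH _ fun i _ => (tame_v D i).const_mul _]
  simp only [cnd_const_mul, gmv, pow_two]

end Vale.Agent.P166.Rsb
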