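import Vale.Agent.P166.Rsb.FieldBasic

/-!
# P166: the root of a cascade as a function of the amplitudes and of the part without fields

The derivative along a line, the supporting paraboloid, and monotonicity of the mean squares.
-/

open MeasureTheory ProbabilityTheory Real Finset

namespace Vale.Agent.P166.Rsb

open Vale.Agent.P157.Rsb (stdG val cnd mass Size LinB Tame Family gaussSize cnd_tame cnd_finsum
  cnd_const_mul cnd_const cnd_add cnd_sub cnd_mono cnd_nonneg cnd_abs_le cnd_exp_le cnd_sq_le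
  cnd_tower hasDerivAt_val mass_pos)

variable {ι X : Type} [Fintype ι] [MeasurableSpace X] {k : ℕ}

/-- A bounded measurable function of the leaf. -/
def BMeas (g : X → ℝ) : Prop := Measurable g ∧ ∃ G, ∀ x, |g x| ≤ G

omit [Fintype ι] in
/-- The data with `t g` added to the part without fields. -/
def FData.shift (D : FData ι X) (g : X → ℝ) (hg : BMeas g) (t : ℝ) : FData ι X where
  v := D.v
  det x := D.det x + t * g x
  v_meas := D.v_meas
  det_meas := D.det_meas.add (hg.1.const_mul t)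
  bdd := by
    obtain ⟨B, hB⟩ := D.bdd
    obtain ⟨G, hG⟩ := hg.2
    refine ⟨|B| + |t| * |G|, fun x => ?_⟩
    have h0 : 0 ≤ |t| * |G| := by positivity
    refine ⟨fun i => ((hB x).1 i).trans (by linarith [le_abs_self B]), ?_⟩
    refine (abs_add_le _ _).trans (add_le_add ((hB x).2.trans (le_abs_self B)) ?_)
    rw [abs_mul]
    exact mul_le_mul_of_nonneg_left ((hG x).trans (le_abs_self G)) (abs_nonneg t)

/-- The amplitudes moved by `t d`. -/
def lineAmp (s d : ℕ → ι → ℝ) (t : ℝ) (l : ℕ) (i : ι) : ℝ := s l i + t * d l i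

/-- The derivative of the Hamiltonian along `(d, g)`. -/
noncomputable def gDer (D : FData ι X) (s d : ℕ → ι → ℝ) (g : X → ℝ) (z : Fin k → ι → ℝ) (x : X) : ℝ :=
  ∑ l : Fin k, ∑ i, d ((l : ℕ) + 1) i * (z l i * D.v x i - s ((l : ℕ) + 1) i * D.v x i ^ 2) + g x

variable (μ : Measure X)

/-- The root expectation. -/
noncomputable def groot (D : FData ι X) (s : ℕ → ι → ℝ) (φ : (Fin k → ι → ℝ) → X → ℝ) : ℝ :=
  cnd (stdG ι) μ (gham D s) φ 0 fun _ _ => 0

/-- The mean square of one coordinate at level `l`, seen from the root. -/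
noncomputable def gq (k : ℕ) (D : FData ι X) (s : ℕ → ι → ℝ) (i : ι) (l : ℕ) : ℝ :=
  groot (k := k) μ D s fun z _ => gmv μ D s l i z ^ 2

/-- Its weighted tail. -/
noncomputable def gtail (k : ℕ) (D : FData ι X) (s : ℕ → ι → ℝ) (i : ι) (j : ℕ) : ℝ :=
  mass k * ∑ l ∈ Icc j k, gq μ k D s i l

theorem tame_bmeas {g : X → ℝ} (hg : BMeas g) :
    Tame (gaussSize ι) fun (_ : Fin k → ι → ℝ) x => g x := by
  obtain ⟨G, hG⟩ := hg.2
  exact Tame.of_bdd (hg.1.comp measurable_snd) fun _ x => hG x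

theorem tame_gterm (D : FData ι X) (s d : ℕ → ι → ℝ) (l : Fin k) (i : ι) :
    Tame (gaussSize ι) fun (z : Fin k → ι → ℝ) x =>
      d ((l : ℕ) + 1) i * (z l i * D.v x i - s ((l : ℕ) + 1) i * D.v x i ^ 2) :=
  ((((tame_coord l i).mul (tame_v D i)).sub ((tame_v_sq D i).const_mul _)).const_mul _).congr
    fun _ _ => rfl

theorem tame_gDer (D : FData ι X) (s d : ℕ → ι → ℝ) {g : X → ℝ} (hg : BMeas g) :
    Tame (gaussSize ι) (gDer (k := k) D s d g) :=
  ((Tame.sum univ fun l _ => Tame.sum univ fun i _ => tame_gterm D s d l i).add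
    (tame_bmeas hg)).congr fun _ _ => rfl

theorem gDer_line (D : FData ι X) (s d : ℕ → ι → ℝ) {g : X → ℝ} (hg : BMeas g) (t : ℝ)
    (z : Fin k → ι → ℝ) (x : X) :
    gDer (D.shift g hg t) (lineAmp s d t) d g z x = gDer D s d g z x
      - t * ∑ l : Fin k, ∑ i, d ((l : ℕ) + 1) i ^ 2 * D.v x i ^ 2 := by
  simp only [gDer, lineAmp, FData.shift, mul_sum]
  rw [add_sub_right_comm, ← sum_sub_distrib]
  congr 1
  refine sum_congr rfl fun l _ => ?_
  rw [← sum_sub_distrib]
  refine sum_congr rfl fun i _ => ?_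
  ring

/-- The Hamiltonian is quadratic along a line. -/
theorem gham_line (D : FData ι X) (s d : ℕ → ι → ℝ) {g : X → ℝ} (hg : BMeas g) (t : ℝ)
    (z : Fin k → ι → ℝ) (x : X) :
    gham (D.shift g hg t) (lineAmp s d t) z x = gham D s z x + (t * gDer D s d g z x
      - t ^ 2 / 2 * ∑ l : Fin k, ∑ i, d ((l : ℕ) + 1) i ^ 2 * D.v x i ^ 2) := by
  simp only [gham, gDer, lineAmp, FData.shift, mul_sum, mul_add]
  rw [add_sub_right_comm, ← sum_sub_distrib, add_add_add_comm, ← sum_add_distrib]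
  congr 1
  refine sum_congr rfl fun l _ => ?_
  rw [← sum_sub_distrib, ← sum_add_distrib]
  refine sum_congr rfl fun i _ => ?_
  ring

theorem gham_line_deriv (D : FData ι X) (s d : ℕ → ι → ℝ) {g : X → ℝ} (hg : BMeas g) (t : ℝ)
    (z : Fin k → ι → ℝ) (x : X) :
    HasDerivAt (fun u => gham (D.shift g hg u) (lineAmp s d u) z x)
      (gDer (D.shift g hg t) (lineAmp s d t) d g z x) t := by
  simp only [gham_line, gDer_line]
  have h := (((hasDerivAt_id t).mul_const (gDer D s d g z x)).sub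
    (((hasDerivAt_pow 2 t).div_const 2).mul_const
      (∑ l : Fin k, ∑ i, d ((l : ℕ) + 1) i ^ 2 * D.v x i ^ 2))).const_add (gham D s z x)
  refine HasDerivAt.congr_deriv h ?_
  push_cast
  ring

theorem lineAmp_le {s d : ℕ → ι → ℝ} {t T : ℝ} (ht : |t| ≤ T) (l : Fin k) (i : ι) :
    |lineAmp s d t ((l : ℕ) + 1) i|
      ≤ (∑ l : Fin k, ∑ i, |s ((l : ℕ) + 1) i|) + T * ∑ l : Fin k, ∑ i, |d ((l : ℕ) + 1) i| := by
  refine (abs_add_le _ _).trans (add_le_add (le_sum_amp s l i) ?_)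
  rw [abs_mul]
  exact mul_le_mul ht (le_sum_amp d l i) (abs_nonneg _) ((abs_nonneg t).trans ht)

variable [IsFiniteMeasure μ] [NeZero μ]

/-- The derivative of the Hamiltonian at the root, after integration by parts. -/
theorem groot_gDer (D : FData ι X) (s d : ℕ → ι → ℝ) {g : X → ℝ} (hg : BMeas g) :
    groot μ D s (gDer (k := k) D s d g)
      = groot (k := k) μ D s (fun _ x => g x)
        - ∑ l : Fin k, ∑ i, d ((l : ℕ) + 1) i * s ((l : ℕ) + 1) i * gtail μ k D s i ((l : ℕ) + 1) := by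
  classical
  obtain ⟨B, hB0, hB⟩ := D.bound
  have hH := gham_linB (k := k) D s
  unfold groot gDer
  rw [cnd_add hH (Tame.sum univ fun l _ => Tame.sum univ fun i _ => tame_gterm D s d l i)
      (tame_bmeas hg), cnd_finsum hH _ fun l _ => Tame.sum univ fun i _ => tame_gterm D s d l i,
    add_comm, sub_eq_add_neg, ← sum_neg_distrib]
  congr 1
  refine sum_congr rfl fun l _ => ?_
  rw [cnd_finsum hH _ fun i _ => tame_gterm D s d l i, ← sum_neg_distrib]
  refine sum_congr rfl fun i _ => ?_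
  rw [cnd_const_mul, cnd_sub hH ((tame_coord l i).mul (tame_v D i)) ((tame_v_sq D i).const_mul _),
    cnd_const_mul, gcoord_ibp μ D s l i (D.v_meas i) (fun x => (hB x).1 i) (Nat.zero_le _)]
  simp only [gtail, gq, groot, gmv, pow_two]
  ring

/-- The family along a line with a fixed observable. -/
theorem gfamily (D : FData ι X) (s d : ℕ → ι → ℝ) {g : X → ℝ} (hg : BMeas g)
    {φ : (Fin k → ι → ℝ) → X → ℝ} (hφ : Tame (gaussSize ι) φ) (t₀ : ℝ) :
    Family (gaussSize ι) (fun t => gham (D.shift g hg t) (lineAmp s d t)) (fun _ => φ)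
      (fun t => gDer (D.shift g hg t) (lineAmp s d t) d g) (fun _ _ _ => 0) t₀ 1 := by
  obtain ⟨B, hB0, hB⟩ := D.bound
  obtain ⟨G', hG'⟩ := hg.2
  set G := |G'|
  set T := |t₀| + 1
  set R := (∑ l : Fin k, ∑ i, |s ((l : ℕ) + 1) i|) + T * ∑ l : Fin k, ∑ i, |d ((l : ℕ) + 1) i|
  set B' := B + T * G
  set A := |R| * B' + k * Fintype.card ι * (R ^ 2 / 2 * B' ^ 2) + B'
  obtain ⟨A1, hA1, hb1⟩ := (tame_gDer (k := k) D s d hg).bound
  obtain ⟨A2, hA2, hb2⟩ := (Tame.sum univ fun (l : Fin k) _ => Tame.sum univ fun i _ =>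
    (tame_v_sq (k := k) D i).const_mul (d ((l : ℕ) + 1) i ^ 2)).bound
  obtain ⟨A3, hA3, hb3⟩ := hφ.bound
  have hG0 : 0 ≤ G := abs_nonneg _
  have hT0 : 0 ≤ T := by positivity
  have hp : 0 ≤ T * A2 := by positivity
  have hA : 0 ≤ A := by positivity
  have hsh : ∀ t, |t| ≤ T → ∀ x, (∀ i, |(D.shift g hg t).v x i| ≤ B') ∧
      |(D.shift g hg t).det x| ≤ B' := fun t ht x => by
    have hTG : 0 ≤ T * G := by positivity
    refine ⟨fun i => ((hB x).1 i).trans (le_add_of_nonneg_right hTG), ?_⟩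
    refine (abs_add_le _ _).trans (add_le_add (hB x).2 ?_)
    rw [abs_mul]
    exact mul_le_mul ht ((hG' x).trans (le_abs_self G')) (abs_nonneg _) hT0
  refine ⟨one_pos, fun t => gham_meas _ _, fun t => (tame_gDer _ _ d hg).meas, fun _ => hφ.meas,
    fun _ => measurable_const,
    ⟨A + A1 + T * A2 + A2 + A3, by positivity, fun t ht z x => ⟨?_, ?_, ?_, ?_⟩⟩,
    fun t _ z x => gham_line_deriv D s d hg t z x, fun t _ z x => hasDerivAt_const _ _⟩
  · have ht' : |t| ≤ T := by linarith [abs_sub_abs_le_abs_sub t t₀]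
    refine (abs_gham_le (D.shift g hg t) (by positivity) (hsh t ht') (lineAmp_le ht') z x).trans
      (mul_le_mul_of_nonneg_right (show A ≤ A + A1 + T * A2 + A2 + A3 by linarith) ?_)
    linarith [(gaussSize ι).tot_nonneg z]
  · have ht' : |t| ≤ T := by linarith [abs_sub_abs_le_abs_sub t t₀]
    set e := exp ((A + A1 + T * A2 + A2 + A3) * (gaussSize ι).tot z)
    have e1 : exp (A1 * (gaussSize ι).tot z) ≤ e :=
      exp_le_exp.2 (mul_le_mul_of_nonneg_right (by linarith) ((gaussSize ι).tot_nonneg z))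
    have e2 : exp (A2 * (gaussSize ι).tot z) ≤ e :=
      exp_le_exp.2 (mul_le_mul_of_nonneg_right (by linarith) ((gaussSize ι).tot_nonneg z))
    have he : 0 ≤ e := (exp_pos _).le
    rw [gDer_line]
    refine (abs_sub _ _).trans ((add_le_add ((hb1 z x).trans (mul_le_mul_of_nonneg_left e1 hA1))
      (show _ ≤ T * (A2 * e) from ?_)).trans ?_)
    · rw [abs_mul]
      exact mul_le_mul ht' ((hb2 z x).trans (mul_le_mul_of_nonneg_left e2 hA2)) (abs_nonneg _) hT0
    · nlinarith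
  · exact Tame.mono_bound hA3 (by linarith) hb3 z x
  · rw [abs_zero]; positivity

/-- The derivative of the root value along a line. -/
theorem gval_line_deriv (D : FData ι X) (s d : ℕ → ι → ℝ) {g : X → ℝ} (hg : BMeas g) (t : ℝ) :
    HasDerivAt (fun u => val (k := k) (stdG ι) μ (gham (D.shift g hg u) (lineAmp s d u)) 0
      fun _ _ => 0)
      (groot (k := k) μ (D.shift g hg t) (lineAmp s d t) (fun _ x => g x)
        - ∑ l : Fin k, ∑ i, d ((l : ℕ) + 1) i * lineAmp s d t ((l : ℕ) + 1) i *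
            gtail μ k (D.shift g hg t) (lineAmp s d t) i ((l : ℕ) + 1)) t := by
  rw [← groot_gDer μ (D.shift g hg t) (lineAmp s d t) d hg]
  exact hasDerivAt_val (μ := μ) (gfamily D s d hg (φ := fun _ _ => (0 : ℝ))
    (Tame.of_bdd measurable_const (B := 0) fun _ _ => by simp) t) 0 (fun _ _ => 0)

/-- A supporting paraboloid at every point. -/
theorem gval_support (D D' : FData ι X) (hv : D'.v = D.v) (s s' : ℕ → ι → ℝ) :
    val (k := k) (stdG ι) μ (gham D s) 0 (fun _ _ => 0)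
      + groot (k := k) μ D s (fun _ x => D'.det x - D.det x)
      + ∑ l : Fin k, ∑ i, ((s' ((l : ℕ) + 1) i - s ((l : ℕ) + 1) i) *
          (-s ((l : ℕ) + 1) i * gtail μ k D s i ((l : ℕ) + 1))
        - (s' ((l : ℕ) + 1) i - s ((l : ℕ) + 1) i) ^ 2 / 2 *
            groot (k := k) μ D s (fun _ x => D.v x i ^ 2))
      ≤ val (k := k) (stdG ι) μ (gham D' s') 0 (fun _ _ => 0) := by
  obtain ⟨B, hB0, hB⟩ := D.bound
  obtain ⟨B', hB0', hB'⟩ := D'.bound
  set g : X → ℝ := fun x => D'.det x - D.det x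
  have hg : BMeas g := ⟨D'.det_meas.sub D.det_meas, B' + B, fun x =>
    (abs_sub _ _).trans (add_le_add (hB' x).2 (hB x).2)⟩
  set d : ℕ → ι → ℝ := fun l i => s' l i - s l i
  have hH := gham_linB (k := k) D s
  have hT : Tame (gaussSize ι) fun (_ : Fin k → ι → ℝ) x =>
      ∑ l : Fin k, ∑ i, d ((l : ℕ) + 1) i ^ 2 / 2 * D.v x i ^ 2 :=
    Tame.sum univ fun l _ => Tame.sum univ fun i _ => (tame_v_sq D i).const_mul _
  have e : (fun (z : Fin k → ι → ℝ) x => gham D' s' z x - gham D s z x) = fun z x =>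
      gDer D s d g z x - ∑ l : Fin k, ∑ i, d ((l : ℕ) + 1) i ^ 2 / 2 * D.v x i ^ 2 := by
    funext z x
    simp only [gham, gDer, d, g, hv]
    rw [add_sub_add_comm, ← sum_sub_distrib, add_sub_right_comm _ (D'.det x - D.det x),
      ← sum_sub_distrib]
    congr 1
    refine sum_congr rfl fun l _ => ?_
    rw [← sum_sub_distrib, ← sum_sub_distrib]
    refine sum_congr rfl fun i _ => ?_
    ring
  have h := cnd_exp_le (μ := μ) hH (gham_linB (k := k) D' s') 0 (fun _ _ => 0)
  rw [e, cnd_sub hH (tame_gDer D s d hg) hT,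
    cnd_finsum hH _ fun l _ => Tame.sum univ fun i _ => (tame_v_sq D i).const_mul _] at h
  refine le_trans (le_of_eq ?_) h
  rw [show cnd (stdG ι) μ (gham (k := k) D s) (gDer D s d g) 0 (fun _ _ => 0) = _ from
    groot_gDer μ D s d hg, add_assoc]
  congr 1
  simp only [groot, g]
  rw [sub_sub, sub_eq_add_neg, neg_add, ← sum_neg_distrib, ← sum_neg_distrib, ← sum_add_distrib]
  congr 1
  refine sum_congr rfl fun l _ => ?_
  rw [cnd_finsum hH _ fun i _ => (tame_v_sq D i).const_mul _, ← sum_neg_distrib, ← sum_neg_distrib,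
    ← sum_add_distrib]
  refine sum_congr rfl fun i _ => ?_
  rw [cnd_const_mul]
  simp only [d]
  ring

/-- The mean square grows in conditional expectation. -/
theorem gmv_sq_le (D : FData ι X) (s : ℕ → ι → ℝ) (i : ι) {j l : ℕ} (hjl : j ≤ l)
    (z : Fin k → ι → ℝ) :
    gmv μ D s j i z ^ 2 ≤ cnd (stdG ι) μ (gham D s) (fun z _ => gmv μ D s l i z ^ 2) j z := by
  have hH := gham_linB (k := k) D s
  rw [show gmv μ D s j i z = cnd (stdG ι) μ (gham D s) (fun z _ => gmv μ D s l i z) j z from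
    (cnd_tower hH hjl z).symm]
  exact cnd_sq_le hH (tame_gmv μ D s l i) j z

theorem gq_mono (D : FData ι X) (s : ℕ → ι → ℝ) (i : ι) {j l : ℕ} (hjl : j ≤ l) :
    gq μ k D s i j ≤ gq μ k D s i l := by
  have hH := gham_linB (k := k) D s
  refine (cnd_mono hH (tame_gmv_sq μ D s j i) (cnd_tame hH (tame_gmv_sq μ D s l i) j)
    (fun z _ => gmv_sq_le μ D s i hjl z) 0 _).trans (le_of_eq ?_)
  exact cnd_tower hH (Nat.zero_le j) _

theorem gq_nonneg (D : FData ι X) (s : ℕ → ι → ℝ) (i : ι) (j : ℕ) : 0 ≤ gq μ k D s i j :=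
  cnd_nonneg (fun z _ => sq_nonneg _) 0 _

theorem gq_le (D : FData ι X) (s : ℕ → ι → ℝ) (i : ι) (j : ℕ) :
    gq μ k D s i j ≤ groot (k := k) μ D s fun _ x => D.v x i ^ 2 := by
  have hH := gham_linB (k := k) D s
  refine (cnd_mono hH (tame_gmv_sq μ D s j i) (cnd_tame hH (tame_v_sq D i) j)
    (fun z _ => cnd_sq_le hH (tame_v D i) j z) 0 _).trans (le_of_eq ?_)
  exact cnd_tower hH (Nat.zero_le j) _

end Vale.Agent.P166.Rsb
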