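import Vale.Agent.P166.Rsb.Main
import Vale.Agent.P166.Rsb.FormulaApprox

/-!
# P166: the statements of the formula and of the upper bound, from the pins

Both state the boundedness of the suprema and infima used in the functional.
-/

open MeasureTheory Filter

namespace Vale.Agent.P166.Rsb

/-- The hand-in statement for the formula, from the three pins. -/
theorem formula_of (hUp : UpperStmt) (hLo : LowerStmt) (hX : ApproxStmt) :
    (∀ N : ℕ, ∃ m : Measure (Fin N → Fin N → ℝ), IsHaarOrth m) ∧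
    (∀ (k : ℕ) (q : ℕ → ℝ), Vale.Agent.P157.Rsb.IsPath k q →
      BddAbove (Vale.Agent.P157.Cube2.spinObj k q '' {r | Vale.Agent.P157.Cube2.IsVar k r})) ∧
    ∀ β : ℝ, 0 < β → ∀ μ : Measure ℝ, IsProbabilityMeasure μ → ∀ b : ℝ, IsTopEdge μ b →
      (∃ lo, μ (Set.Iio lo) = 0) →
      (∀ x : ℝ, 0 < x →
        BddBelow ((fun z => (z * x - 1 - Real.log x - ∫ t, Real.log (z - t) ∂μ) / 2) '' Set.Ioi b)) ∧
      ∃ l, IsGLB {x | ∃ (k : ℕ) (q : ℕ → ℝ), Vale.Agent.P157.Rsb.IsPath k q ∧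
          x = Vale.Agent.P157.Cube2.spinSup k q + eng μ b β k q} l ∧
        ∀ lam : ∀ N, Fin N → ℝ, Admissible μ b lam →
          ∀ m : ∀ N, Measure (Fin N → Fin N → ℝ), (∀ N, IsHaarOrth (m N)) →
            Tendsto (fun N => ∫ U, press β (lam N) U ∂m N) atTop (nhds l) ∧
            Tendsto (fun N => ∫⁻ U, ENNReal.ofReal |press β (lam N) U - l| ∂m N) atTop (nhds 0) :=
  ⟨exists_isHaarOrth, fun k q hq => (Vale.Agent.P157.Cube2.spin.2.1 k q hq).2.1,
    fun _β hβ μ hμ b hb hlo => by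
      have := hμ
      refine ⟨fun x hx => ?_, variational hUp hLo hX hb hlo hβ⟩
      obtain ⟨lo, hlo⟩ := hlo
      refine ⟨lo * x / 2, ?_⟩
      rintro _ ⟨z, hz, rfl⟩
      have := mul_le_spec (P := μ) (r := id) (c := lo) (b := b) (z := z) (x := x) measurable_id (by
        filter_upwards [measure_eq_zero_iff_ae_notMem.1 hb.1, measure_eq_zero_iff_ae_notMem.1 hlo] with t a c
        exact ⟨not_lt.1 c, not_lt.1 a⟩) hz hx
      simp only [id_eq] at this
      linarith⟩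

/-- The hand-in statement for the upper bound. -/
theorem upper_of (hUp : UpperStmt) (hX : ApproxStmt) :
    (∀ N : ℕ, ∃ m : Measure (Fin N → Fin N → ℝ), IsHaarOrth m) ∧
    (∀ (k : ℕ) (q : ℕ → ℝ), Vale.Agent.P157.Rsb.IsPath k q →
      BddAbove (Vale.Agent.P157.Cube2.spinObj k q '' {r | Vale.Agent.P157.Cube2.IsVar k r})) ∧
    ∀ β : ℝ, 0 < β → ∀ μ : Measure ℝ, IsProbabilityMeasure μ → ∀ b : ℝ, IsTopEdge μ b →
      (∃ lo, μ (Set.Iio lo) = 0) →
      (∀ x : ℝ, 0 < x →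
        BddBelow ((fun z => (z * x - 1 - Real.log x - ∫ t, Real.log (z - t) ∂μ) / 2) '' Set.Ioi b)) ∧
      ∃ l, IsGLB {x | ∃ (k : ℕ) (q : ℕ → ℝ), Vale.Agent.P157.Rsb.IsPath k q ∧
          x = Vale.Agent.P157.Cube2.spinSup k q + eng μ b β k q} l ∧
        ∀ lam : ∀ N, Fin N → ℝ, Admissible μ b lam →
          ∀ m : ∀ N, Measure (Fin N → Fin N → ℝ), (∀ N, IsHaarOrth (m N)) →
            (∀ ε : ℝ, 0 < ε → ∀ᶠ N in atTop, ∫ U, press β (lam N) U ∂m N ≤ l + ε) ∧
            Tendsto (fun N => ∫⁻ U, ENNReal.ofReal (press β (lam N) U - l) ∂m N) atTop (nhds 0) :=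
  ⟨exists_isHaarOrth, fun k q hq => (Vale.Agent.P157.Cube2.spin.2.1 k q hq).2.1,
    fun _β hβ μ hμ b hb hlo => by
      have := hμ
      refine ⟨fun x hx => ?_, upper_only hUp hX hb hlo hβ⟩
      obtain ⟨lo, hlo⟩ := hlo
      refine ⟨lo * x / 2, ?_⟩
      rintro _ ⟨z, hz, rfl⟩
      have := mul_le_spec (P := μ) (r := id) (c := lo) (b := b) (z := z) (x := x) measurable_id (by
        filter_upwards [measure_eq_zero_iff_ae_notMem.1 hb.1, measure_eq_zero_iff_ae_notMem.1 hlo] with t a c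
        exact ⟨not_lt.1 c, not_lt.1 a⟩) hz hx
      simp only [id_eq] at this
      linarith⟩

end Vale.Agent.P166.Rsb
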