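import Vale.Agent.P166.Rsb.FormulaBase

/-!
# P166: the inverse Stieltjes transform and the block kernels of an atomic law

The kernels `kA` are monotone and Lipschitz, they are the unique nonnegative solution of the swap
relation `K e * (1 + (a d - a e) * K d) = K d` with `∑ w c * K c = x`, and `hA = ∑ w a kA` is
`x * zA - 1`.
-/

open Real Finset Set Filter Topology

namespace Vale.Agent.P166.Rsb

variable {p : ℕ} {a w : Fin p → ℝ}

namespace IsSpec

theorem pos_card (hw : IsSpec w) : 0 < p := by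
  rcases Nat.eq_zero_or_pos p with h | h
  · subst h
    simpa using hw.2
  · exact h

theorem le_topA (a : Fin p → ℝ) (c : Fin p) : a c ≤ topA a := le_ciSup (Finite.bddAbove_range a) c

theorem exists_topA (hw : IsSpec w) (a : Fin p → ℝ) : ∃ c, a c = topA a := by
  have : Nonempty (Fin p) := ⟨⟨0, hw.pos_card⟩⟩
  exact exists_eq_ciSup_of_finite

theorem gap_pos {z : ℝ} (hz : topA a < z) (c : Fin p) : 0 < z - a c := by
  linarith [le_topA a c]

theorem stA_antitone (hw : IsSpec w) (a : Fin p → ℝ) : StrictAntiOn (stA a w) (Ioi (topA a)) := by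
  intro z hz z' _ h
  have hne : (Finset.univ : Finset (Fin p)).Nonempty := ⟨⟨0, hw.pos_card⟩, mem_univ _⟩
  exact sum_lt_sum_of_nonempty hne fun c _ =>
    div_lt_div_of_pos_left (hw.1 c) (gap_pos hz c) (by linarith)

theorem stA_le (hw : IsSpec w) {z : ℝ} (hz : topA a < z) : stA a w z ≤ 1 / (z - topA a) := by
  calc stA a w z ≤ ∑ c, w c / (z - topA a) :=
        sum_le_sum fun c _ => div_le_div_of_nonneg_left (hw.1 c).le (sub_pos.2 hz)
          (by linarith [le_topA a c])
    _ = 1 / (z - topA a) := by rw [← sum_div, hw.2]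

theorem stA_continuousOn (a w : Fin p → ℝ) : ContinuousOn (stA a w) (Ioi (topA a)) :=
  continuousOn_finsetSum _ fun c _ => continuousOn_const.div (continuousOn_id.sub continuousOn_const)
    fun _ hz => (gap_pos hz c).ne'

theorem exists_stA_eq (hw : IsSpec w) {x : ℝ} (hx : 0 < x) :
    ∃ z, topA a < z ∧ stA a w z = x := by
  obtain ⟨c, hc⟩ := hw.exists_topA a
  set u := topA a + min (w c / x) (1 / x) with hu
  set v := topA a + 1 / x with hv
  have hm : 0 < min (w c / x) (1 / x) := lt_min (div_pos (hw.1 c) hx) (by positivity)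
  have huv : u ≤ v := by linarith [min_le_right (w c / x) (1 / x)]
  have hu0 : topA a < u := by linarith
  have hgu : x ≤ stA a w u := by
    refine le_trans ?_ (single_le_sum (f := fun d => w d / (u - a d))
      (fun d _ => div_nonneg (hw.1 d).le (gap_pos hu0 d).le) (mem_univ c))
    have h : u - a c ≤ w c / x := by rw [hc, hu]; linarith [min_le_left (w c / x) (1 / x)]
    rw [le_div_iff₀ (gap_pos hu0 c)]
    calc x * (u - a c) ≤ x * (w c / x) := by gcongr
      _ = w c := by field_simp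
  have hgv : stA a w v ≤ x := by
    refine (hw.stA_le (by linarith : topA a < v)).trans (le_of_eq ?_)
    simp [hv]
  obtain ⟨z, hz, he⟩ := intermediate_value_Icc' huv
    ((stA_continuousOn a w).mono fun y hy => lt_of_lt_of_le hu0 hy.1) ⟨hgv, hgu⟩
  exact ⟨z, hu0.trans_le hz.1, he⟩

theorem zA_spec (hw : IsSpec w) {x : ℝ} (hx : 0 < x) :
    topA a < zA a w x ∧ stA a w (zA a w x) = x := by
  rw [zA, dif_pos (hw.exists_stA_eq hx)]
  exact (hw.exists_stA_eq hx).choose_spec

theorem zA_unique (hw : IsSpec w) {x z : ℝ} (hx : 0 < x) (hz : topA a < z)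
    (he : stA a w z = x) : zA a w x = z :=
  (hw.stA_antitone a).injOn (hw.zA_spec hx).1 hz ((hw.zA_spec hx).2.trans he.symm)

theorem zA_le (hw : IsSpec w) {x : ℝ} (hx : 0 < x) : zA a w x ≤ topA a + 1 / x := by
  have h := hw.stA_le (hw.zA_spec (a := a) hx).1
  rw [(hw.zA_spec hx).2, le_div_iff₀ (sub_pos.2 (hw.zA_spec hx).1)] at h
  have h2 : zA a w x - topA a ≤ 1 / x := by rw [le_div_iff₀ hx]; linarith
  linarith

theorem zA_anti (hw : IsSpec w) {x y : ℝ} (hx : 0 < x) (hxy : x ≤ y) :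
    zA a w y ≤ zA a w x := by
  have hy := hx.trans_le hxy
  by_contra h
  rw [not_le] at h
  have := hw.stA_antitone a (hw.zA_spec hx).1 (hw.zA_spec hy).1 h
  rw [(hw.zA_spec hx).2, (hw.zA_spec hy).2] at this
  linarith

theorem kA_pos (hw : IsSpec w) {x : ℝ} (hx : 0 < x) (c : Fin p) : 0 < kA a w c x := by
  rw [kA, if_pos hx]
  exact one_div_pos.2 (gap_pos (hw.zA_spec hx).1 c)

theorem kA_nonneg (hw : IsSpec w) (c : Fin p) (x : ℝ) : 0 ≤ kA a w c x := by
  rcases lt_or_ge 0 x with hx | hx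
  · exact (hw.kA_pos hx c).le
  · rw [kA, if_neg (by linarith)]

theorem kA_of_nonpos (a w : Fin p → ℝ) (c : Fin p) {x : ℝ} (hx : x ≤ 0) : kA a w c x = 0 :=
  if_neg (by linarith)

theorem sum_kA (hw : IsSpec w) {x : ℝ} (hx : 0 ≤ x) : ∑ c, w c * kA a w c x = x := by
  rcases hx.eq_or_lt with rfl | hx
  · simp [kA]
  · conv_rhs => rw [← (hw.zA_spec (a := a) hx).2]
    simp [kA, hx, stA, div_eq_mul_inv]

/-- The swap relation between two blocks. -/
theorem kA_swap (hw : IsSpec w) (c d : Fin p) (x : ℝ) :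
    kA a w d x * (1 + (a c - a d) * kA a w c x) = kA a w c x := by
  rcases lt_or_ge 0 x with hx | hx
  · have h1 := (gap_pos (hw.zA_spec (a := a) hx).1 c).ne'
    have h2 := (gap_pos (hw.zA_spec (a := a) hx).1 d).ne'
    simp only [kA, if_pos hx]
    field_simp
    ring
  · simp [kA_of_nonpos a w _ hx]

/-- Nonnegative kernels with the swap relation are the kernels `kA`. -/
theorem kA_unique (hw : IsSpec w) {K : Fin p → ℝ} {x : ℝ} (hK : ∀ c, 0 ≤ K c)
    (hs : ∀ c d, K d * (1 + (a c - a d) * K c) = K c) (hx : ∑ c, w c * K c = x) (c : Fin p) :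
    K c = kA a w c x := by
  by_cases h0 : ∃ d, K d = 0
  · obtain ⟨d, hd⟩ := h0
    have hz : ∀ e, K e = 0 := fun e => by simpa [hd] using (hs e d).symm
    rw [hz c, kA_of_nonpos a w c (by rw [← hx]; simp [hz])]
  · push Not at h0
    have hp : ∀ e, 0 < K e := fun e => lt_of_le_of_ne (hK e) (h0 e).symm
    have hx0 : 0 < x := hx ▸ sum_pos (fun e _ => mul_pos (hw.1 e) (hp e))
      ⟨⟨0, hw.pos_card⟩, mem_univ _⟩
    set z := a c + 1 / K c with hz
    have he : ∀ e, z - a e = 1 / K e := fun e => by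
      rw [hz]
      have := hs c e
      field_simp [(hp e).ne', (hp c).ne']
      linear_combination this
    have htop : topA a < z := by
      obtain ⟨e, he'⟩ := hw.exists_topA a
      have := he e
      rw [he'] at this
      linarith [one_div_pos.2 (hp e)]
    have hzA := hw.zA_unique hx0 htop (by
      rw [← hx]; exact sum_congr rfl fun e _ => by rw [he e]; simp)
    rw [kA, if_pos hx0, hzA, he c, one_div_one_div]

theorem kA_mono (hw : IsSpec w) (c : Fin p) : Monotone (kA a w c) := by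
  intro x y hxy
  rcases lt_or_ge 0 x with hx | hx
  · have hy := hx.trans_le hxy
    simp only [kA, if_pos hx, if_pos hy]
    exact one_div_le_one_div_of_le (gap_pos (hw.zA_spec hy).1 c) (by linarith [hw.zA_anti (a := a) hx hxy])
  · rw [kA_of_nonpos a w c hx]
    exact hw.kA_nonneg c y

theorem kA_sub (hw : IsSpec w) {x y : ℝ} (hx : 0 < x) (hy : 0 < y) (c : Fin p) :
    kA a w c y - kA a w c x = (zA a w x - zA a w y) * (kA a w c x * kA a w c y) := by
  have h1 := (gap_pos (hw.zA_spec (a := a) hx).1 c).ne'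
  have h2 := (gap_pos (hw.zA_spec (a := a) hy).1 c).ne'
  simp only [kA, if_pos hx, if_pos hy]
  field_simp
  ring

theorem sub_eq_zA_mul (hw : IsSpec w) {x y : ℝ} (hx : 0 < x) (hy : 0 < y) :
    y - x = (zA a w x - zA a w y) * ∑ d, w d * (kA a w d x * kA a w d y) := by
  conv_lhs => rw [← hw.sum_kA (a := a) hx.le, ← hw.sum_kA (a := a) hy.le, ← sum_sub_distrib]
  rw [mul_sum]
  exact sum_congr rfl fun d _ => by rw [← mul_sub, hw.kA_sub hx hy d]; ring

theorem kA_le (hw : IsSpec w) (c : Fin p) {x : ℝ} (hx : 0 ≤ x) : kA a w c x ≤ x / w c := by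
  rw [le_div_iff₀ (hw.1 c), mul_comm]
  calc w c * kA a w c x ≤ ∑ d, w d * kA a w d x :=
        single_le_sum (f := fun d => w d * kA a w d x)
          (fun d _ => mul_nonneg (hw.1 d).le (hw.kA_nonneg d x)) (mem_univ c)
    _ = x := hw.sum_kA hx

theorem kA_sub_le (hw : IsSpec w) (c : Fin p) {x y : ℝ} (hxy : x ≤ y) :
    kA a w c y - kA a w c x ≤ (y - x) / w c := by
  rcases lt_or_ge 0 x with hx | hx
  · have hy := hx.trans_le hxy
    rw [le_div_iff₀ (hw.1 c), hw.kA_sub hx hy, hw.sub_eq_zA_mul (a := a) hx hy, mul_assoc]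
    refine mul_le_mul_of_nonneg_left ?_ (sub_nonneg.2 (hw.zA_anti hx hxy))
    rw [mul_comm _ (w c)]
    exact single_le_sum (f := fun d => w d * (kA a w d x * kA a w d y))
      (fun d _ => mul_nonneg (hw.1 d).le (mul_nonneg (hw.kA_nonneg d x) (hw.kA_nonneg d y)))
      (mem_univ c)
  · rw [kA_of_nonpos a w c hx, sub_zero]
    rcases lt_or_ge 0 y with hy | hy
    · exact (hw.kA_le c hy.le).trans (div_le_div_of_nonneg_right (by linarith) (hw.1 c).le)
    · rw [kA_of_nonpos a w c hy]
      exact div_nonneg (sub_nonneg.2 hxy) (hw.1 c).le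

theorem kA_dist_le (hw : IsSpec w) (c : Fin p) (x y : ℝ) :
    |kA a w c y - kA a w c x| ≤ |y - x| / w c := by
  rcases le_total x y with h | h
  · rw [abs_of_nonneg (sub_nonneg.2 (hw.kA_mono c h)), abs_of_nonneg (sub_nonneg.2 h)]
    exact hw.kA_sub_le c h
  · rw [abs_of_nonpos (sub_nonpos.2 (hw.kA_mono c h)), abs_of_nonpos (sub_nonpos.2 h), neg_sub, neg_sub]
    exact hw.kA_sub_le c h

theorem continuous_kA (hw : IsSpec w) (c : Fin p) : Continuous (kA a w c) := by
  refine (LipschitzWith.of_dist_le_mul (K := ⟨1 / w c, (one_div_pos.2 (hw.1 c)).le⟩) fun y x => ?_).continuous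
  rw [Real.dist_eq, Real.dist_eq]
  exact (hw.kA_dist_le c x y).trans (le_of_eq (show |y - x| / w c = 1 / w c * |y - x| by ring))

theorem continuous_hA (hw : IsSpec w) : Continuous (hA a w) :=
  continuous_finsetSum _ fun c _ => (hw.continuous_kA c).const_mul _

/-- `hA` is `x * zA - 1`. -/
theorem hA_eq (hw : IsSpec w) {x : ℝ} (hx : 0 < x) : hA a w x = x * zA a w x - 1 := by
  have e : hA a w x = ∑ c, (w c * kA a w c x * zA a w x - w c) :=
    sum_congr rfl fun c _ => by
      have := (gap_pos (hw.zA_spec (a := a) hx).1 c).ne'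
      simp only [kA, if_pos hx]
      field_simp
      ring
  rw [e, sum_sub_distrib, hw.2, ← sum_mul, hw.sum_kA hx.le]

theorem hA_zero (a w : Fin p → ℝ) {x : ℝ} (hx : x ≤ 0) : hA a w x = 0 := by
  simp [hA, kA_of_nonpos a w _ hx]

theorem hA_eq_mul_rA (hw : IsSpec w) {x : ℝ} (hx : 0 ≤ x) : hA a w x = x * rA a w x := by
  rcases hx.eq_or_lt with rfl | hx
  · simp [hA_zero a w le_rfl]
  · rw [hw.hA_eq hx, rA, if_pos hx]
    field_simp

/-- The derivative of a kernel. -/
theorem hasDerivAt_kA (hw : IsSpec w) (c : Fin p) {x : ℝ} (hx : 0 < x) :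
    HasDerivAt (kA a w c) (kA a w c x ^ 2 / ∑ d, w d * kA a w d x ^ 2) x := by
  rw [hasDerivAt_iff_tendsto_slope]
  let D : ℝ → ℝ := fun y => ∑ d, w d * (kA a w d x * kA a w d y)
  have hD : Continuous D :=
    continuous_finsetSum _ fun d _ => ((hw.continuous_kA d).const_mul _).const_mul _
  have hp : ∀ y, 0 < y → 0 < D y := fun y hy => sum_pos
    (fun d _ => mul_pos (hw.1 d) (mul_pos (hw.kA_pos hx d) (hw.kA_pos hy d)))
    ⟨⟨0, hw.pos_card⟩, mem_univ _⟩
  have ht : Tendsto (fun y => kA a w c x * kA a w c y / D y) (𝓝[≠] x)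
      (𝓝 (kA a w c x ^ 2 / ∑ d, w d * kA a w d x ^ 2)) := by
    have h : ContinuousAt (fun y => kA a w c x * kA a w c y / D y) x :=
      ((hw.continuous_kA c).const_mul _).continuousAt.div hD.continuousAt (hp x hx).ne'
    have e : D x = ∑ d, w d * kA a w d x ^ 2 := sum_congr rfl fun d _ => by rw [pow_two]
    rw [← e, pow_two]
    exact h.tendsto.mono_left nhdsWithin_le_nhds
  refine ht.congr' ?_
  filter_upwards [self_mem_nhdsWithin, nhdsWithin_le_nhds (Ioi_mem_nhds hx)] with y hy hy0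
  rw [slope_def_field, hw.kA_sub hx hy0, hw.sub_eq_zA_mul (a := a) hx hy0]
  have : zA a w x - zA a w y ≠ 0 := fun h => hy (sub_eq_zero.1
    (by rw [hw.sub_eq_zA_mul (a := a) hx hy0, h, zero_mul]))
  rw [mul_div_mul_left _ _ this]

end IsSpec

end Vale.Agent.P166.Rsb
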