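import Vale.Agent.P166.Rsb.FormulaDefs

/-!
# P166: the R-transform of an atomic law given by atoms `a` and weights `w`

These are working versions of `Atoms.zOf`, `Atoms.hOf` and `gSph`, with the kernels of the blocks.
-/

open Real Finset

namespace Vale.Agent.P166.Rsb

variable {p : ℕ}

/-- The atoms `a` carry positive weights `w` of total mass one. -/
def IsSpec (w : Fin p → ℝ) : Prop := (∀ c, 0 < w c) ∧ ∑ c, w c = 1

/-- The largest atom. -/
noncomputable def topA (a : Fin p → ℝ) : ℝ := ⨆ c, a c

/-- The Stieltjes transform. -/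
noncomputable def stA (a w : Fin p → ℝ) (z : ℝ) : ℝ := ∑ c, w c / (z - a c)

/-- The inverse of the Stieltjes transform above the largest atom. -/
noncomputable def zA (a w : Fin p → ℝ) (x : ℝ) : ℝ :=
  @dite ℝ (∃ z, topA a < z ∧ stA a w z = x) (Classical.dec _) (fun h => h.choose) fun _ => 0

/-- The kernel of the block `c`. -/
noncomputable def kA (a w : Fin p → ℝ) (c : Fin p) (x : ℝ) : ℝ :=
  if 0 < x then 1 / (zA a w x - a c) else 0

/-- The mean of the atomic law. -/
def meanA (a w : Fin p → ℝ) : ℝ := ∑ c, w c * a c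

/-- `x` times the R-transform. -/
noncomputable def hA (a w : Fin p → ℝ) (x : ℝ) : ℝ := ∑ c, w c * a c * kA a w c x

/-- The R-transform. -/
noncomputable def rA (a w : Fin p → ℝ) (x : ℝ) : ℝ :=
  if 0 < x then zA a w x - 1 / x else meanA a w

/-- Half the integral of the R-transform. -/
noncomputable def gA (a w : Fin p → ℝ) (x : ℝ) : ℝ :=
  if 0 < x then (zA a w x * x - 1 - log x - ∑ c, w c * log (zA a w x - a c)) / 2 else 0

end Vale.Agent.P166.Rsb
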