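import Vale.Agent.P166.Rsb.FormulaAtom

/-!
# P166: `x R(x)` is convex, and `gA` is half the integral of `R`
-/

open Real Finset Set Filter Topology

namespace Vale.Agent.P166.Rsb

variable {p : ℕ} {a w : Fin p → ℝ}

/-- The derivative of `hA`. -/
noncomputable def dhA (a w : Fin p → ℝ) (x : ℝ) : ℝ :=
  (∑ c, w c * a c * kA a w c x ^ 2) / ∑ c, w c * kA a w c x ^ 2

/-- The double sum behind the correlation inequality. -/
theorem cheb_eq (f u v : Fin p → ℝ) :
    ∑ c, ∑ d, (f c - f d) * (v c * u d - u c * v d) =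
      2 * ((∑ c, f c * v c) * ∑ c, u c - (∑ c, f c * u c) * ∑ c, v c) := by
  simp only [sub_mul, mul_sub, sum_sub_distrib, Finset.sum_mul_sum]
  rw [sum_comm (f := fun c d => f d * (v c * u d)), sum_comm (f := fun c d => f d * (u c * v d))]
  simp only [two_mul, ← sum_add_distrib, ← sum_sub_distrib]
  exact sum_congr rfl fun c _ => sum_congr rfl fun d _ => by ring

/-- A correlation inequality: similarly ordered factors. -/
theorem cheb {f u v : Fin p → ℝ} (h : ∀ c d, 0 ≤ (f c - f d) * (v c * u d - u c * v d)) :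
    (∑ c, f c * u c) * ∑ c, v c ≤ (∑ c, f c * v c) * ∑ c, u c := by
  have h0 : 0 ≤ ∑ c, ∑ d, (f c - f d) * (v c * u d - u c * v d) :=
    sum_nonneg fun c _ => sum_nonneg fun d _ => h c d
  rw [cheb_eq] at h0
  linarith

namespace IsSpec

/-- Later kernels weigh larger atoms more. -/
theorem cross_nonneg (hw : IsSpec w) {x y : ℝ} (hx : 0 < x) (hxy : x ≤ y) (c d : Fin p) :
    0 ≤ (a c - a d) * (kA a w c y * kA a w d x - kA a w c x * kA a w d y) := by
  have hy := hx.trans_le hxy
  have h1 := gap_pos (hw.zA_spec (a := a) hx).1 c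
  have h2 := gap_pos (hw.zA_spec (a := a) hx).1 d
  have h3 := gap_pos (hw.zA_spec (a := a) hy).1 c
  have h4 := gap_pos (hw.zA_spec (a := a) hy).1 d
  have e : (a c - a d) * (kA a w c y * kA a w d x - kA a w c x * kA a w d y) =
      (a c - a d) ^ 2 * (zA a w x - zA a w y) /
        ((zA a w x - a c) * (zA a w x - a d) * ((zA a w y - a c) * (zA a w y - a d))) := by
    simp only [kA, if_pos hx, if_pos hy]
    field_simp
    ring
  rw [e]
  exact div_nonneg (mul_nonneg (sq_nonneg _) (sub_nonneg.2 (hw.zA_anti hx hxy))) (by positivity)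

theorem sum_kA_sq_pos (hw : IsSpec w) {x : ℝ} (hx : 0 < x) :
    0 < ∑ c, w c * kA a w c x ^ 2 :=
  sum_pos (fun c _ => mul_pos (hw.1 c) (pow_pos (hw.kA_pos hx c) 2))
    ⟨⟨0, hw.pos_card⟩, mem_univ _⟩

theorem hasDerivAt_hA (hw : IsSpec w) {x : ℝ} (hx : 0 < x) :
    HasDerivAt (hA a w) (dhA a w x) x := by
  have h := HasDerivAt.fun_sum (u := Finset.univ) fun c _ =>
    (hw.hasDerivAt_kA (a := a) c hx).const_mul (w c * a c)
  refine h.congr_deriv ?_
  rw [dhA, sum_div]
  exact sum_congr rfl fun c _ => mul_div_assoc' _ _ _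

theorem dhA_mono (hw : IsSpec w) {x y : ℝ} (hx : 0 < x) (hxy : x ≤ y) :
    dhA a w x ≤ dhA a w y := by
  have hy := hx.trans_le hxy
  rw [dhA, dhA, div_le_div_iff₀ (hw.sum_kA_sq_pos hx) (hw.sum_kA_sq_pos hy)]
  have := cheb (f := a) (u := fun c => w c * kA a w c x ^ 2) (v := fun c => w c * kA a w c y ^ 2)
    fun c d => by
      have h1 := hw.cross_nonneg (a := a) hx hxy c d
      have h2 : 0 ≤ w c * w d * (kA a w c y * kA a w d x + kA a w c x * kA a w d y) :=
        mul_nonneg (mul_pos (hw.1 c) (hw.1 d)).le (add_nonneg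
          (mul_nonneg (hw.kA_nonneg c y) (hw.kA_nonneg d x))
          (mul_nonneg (hw.kA_nonneg c x) (hw.kA_nonneg d y)))
      exact le_of_le_of_eq (mul_nonneg h1 h2) (by ring)
  simp only [← mul_assoc, mul_comm (a _) (w _)] at this
  exact this

theorem dhA_le_top (hw : IsSpec w) {x : ℝ} (hx : 0 < x) : dhA a w x ≤ topA a := by
  rw [dhA, div_le_iff₀ (hw.sum_kA_sq_pos hx), mul_sum]
  exact sum_le_sum fun c _ => by
    rw [mul_comm (w c) (a c), mul_assoc]
    exact mul_le_mul_of_nonneg_right (le_topA a c) (mul_nonneg (hw.1 c).le (sq_nonneg _))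

theorem abs_dhA_le (hw : IsSpec w) {A : ℝ} (hA : ∀ c, |a c| ≤ A) {x : ℝ} (hx : 0 < x) :
    |dhA a w x| ≤ A := by
  rw [dhA, abs_div, abs_of_pos (hw.sum_kA_sq_pos hx), div_le_iff₀ (hw.sum_kA_sq_pos hx), mul_sum]
  refine (abs_sum_le_sum_abs _ _).trans (sum_le_sum fun c _ => ?_)
  have h : 0 ≤ w c * kA a w c x ^ 2 := mul_nonneg (hw.1 c).le (sq_nonneg _)
  calc |w c * a c * kA a w c x ^ 2| = |a c| * |w c * kA a w c x ^ 2| := by
        rw [← abs_mul]; congr 1; ring
    _ ≤ A * (w c * kA a w c x ^ 2) := by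
        rw [abs_of_nonneg h]; exact mul_le_mul_of_nonneg_right (hA c) h

theorem convexOn_hA (hw : IsSpec w) : ConvexOn ℝ (Ici 0) (hA a w) := by
  refine MonotoneOn.convexOn_of_deriv (convex_Ici 0) hw.continuous_hA.continuousOn
    (fun x hx => ?_) ?_
  · rw [interior_Ici] at hx
    exact (hw.hasDerivAt_hA hx).differentiableAt.differentiableWithinAt
  · intro x hx y hy hxy
    rw [interior_Ici] at hx hy
    rw [(hw.hasDerivAt_hA hx).deriv, (hw.hasDerivAt_hA hy).deriv]
    exact hw.dhA_mono hx hxy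

theorem hA_ge (hw : IsSpec w) {x : ℝ} (hx : 0 ≤ x) : x * meanA a w ≤ hA a w x := by
  have h := cheb (f := a) (u := w) (v := fun c => w c * kA a w c x) fun c d => by
    refine le_of_le_of_eq (mul_nonneg (mul_pos (hw.1 c) (hw.1 d)).le
      (?_ : 0 ≤ (a c - a d) * (kA a w c x - kA a w d x))) (by ring)
    have e : (a c - a d) * (kA a w c x - kA a w d x) =
        (a c - a d) ^ 2 * (kA a w c x * kA a w d x) := by
      have := hw.kA_swap (a := a) c d x
      linear_combination (-(a c - a d)) * this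
    rw [e]
    exact mul_nonneg (sq_nonneg _) (mul_nonneg (hw.kA_nonneg c x) (hw.kA_nonneg d x))
  rw [hw.2, hw.sum_kA hx, mul_one] at h
  have e1 : ∑ c, a c * w c = meanA a w := sum_congr rfl fun c _ => mul_comm _ _
  have e2 : ∑ c, a c * (w c * kA a w c x) = hA a w x := sum_congr rfl fun c _ => by ring
  rw [e1, e2] at h
  linarith [mul_comm x (meanA a w)]

theorem meanA_le_rA (hw : IsSpec w) (x : ℝ) : meanA a w ≤ rA a w x := by
  rcases lt_or_ge 0 x with hx | hx
  · have h := hw.hA_ge (a := a) hx.le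
    rw [hw.hA_eq_mul_rA hx.le] at h
    exact le_of_mul_le_mul_left h hx
  · rw [rA, if_neg (by linarith)]

theorem rA_le_top (hw : IsSpec w) (x : ℝ) : rA a w x ≤ topA a := by
  rw [rA]
  split_ifs with hx
  · linarith [hw.zA_le (a := a) hx]
  · calc meanA a w ≤ ∑ c, w c * topA a :=
          sum_le_sum fun c _ => mul_le_mul_of_nonneg_left (le_topA a c) (hw.1 c).le
      _ = topA a := by rw [← sum_mul, hw.2, one_mul]

theorem rA_mono (hw : IsSpec w) : Monotone (rA a w) := by
  intro x y hxy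
  rcases lt_or_ge 0 x with hx | hx
  · have hy := hx.trans_le hxy
    rcases hxy.eq_or_lt with rfl | hlt
    · exact le_rfl
    have h := (hw.convexOn_hA (a := a)).secant_mono (a := 0) self_mem_Ici (Set.mem_Ici.2 hx.le)
      (Set.mem_Ici.2 hy.le) hx.ne' hy.ne' hxy
    rw [hA_zero a w le_rfl, sub_zero, sub_zero, sub_zero, sub_zero, hw.hA_eq_mul_rA hx.le,
      hw.hA_eq_mul_rA hy.le, mul_div_cancel_left₀ _ hx.ne', mul_div_cancel_left₀ _ hy.ne'] at h
    exact h
  · rw [show rA a w x = meanA a w from if_neg (by linarith)]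
    exact hw.meanA_le_rA y

/-- `zA` minimises `z * x - ∑ w log (z - a)`. -/
theorem zA_min (hw : IsSpec w) {x z : ℝ} (hx : 0 < x) (hz : topA a < z) :
    zA a w x * x - ∑ c, w c * log (zA a w x - a c) ≤ z * x - ∑ c, w c * log (z - a c) := by
  have hst := (hw.zA_spec (a := a) hx).2
  have h0 := (hw.zA_spec (a := a) hx).1
  set u := zA a w x with hu
  have hsum : (z - u) * x = ∑ c, w c * ((z - a c) / (u - a c) - 1) := by
    conv_lhs => rw [← hst, stA, mul_sum]
    exact sum_congr rfl fun c _ => by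
      have := (gap_pos h0 c).ne'
      field_simp
      ring
  have hlog : ∀ c, w c * (log (z - a c) - log (u - a c)) ≤ w c * ((z - a c) / (u - a c) - 1) :=
    fun c => mul_le_mul_of_nonneg_left (by
      rw [← log_div (gap_pos hz c).ne' (gap_pos h0 c).ne']
      exact log_le_sub_one_of_pos (div_pos (gap_pos hz c) (gap_pos h0 c))) (hw.1 c).le
  have := Finset.sum_le_sum fun c (_ : c ∈ Finset.univ) => hlog c
  simp only [mul_sub, sum_sub_distrib] at this hsum
  linarith

theorem continuousAt_zA (hw : IsSpec w) {x : ℝ} (hx : 0 < x) : ContinuousAt (zA a w) x := by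
  obtain ⟨c, -⟩ := hw.exists_topA a
  have h : ContinuousAt (fun y => a c + 1 / kA a w c y) x :=
    continuousAt_const.add (continuousAt_const.div (hw.continuous_kA c).continuousAt
      (hw.kA_pos hx c).ne')
  refine h.congr ?_
  filter_upwards [Ioi_mem_nhds hx] with y hy
  replace hy : (0 : ℝ) < y := hy
  rw [kA, if_pos (hy : (0 : ℝ) < y), one_div_one_div]
  ring

/-- The derivative of `gA` is half the R-transform. -/
theorem hasDerivAt_gA (hw : IsSpec w) {x : ℝ} (hx : 0 < x) :
    HasDerivAt (gA a w) (rA a w x / 2) x := by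
  set Φ : ℝ → ℝ := fun y => zA a w y * y - ∑ c, w c * log (zA a w y - a c) with hΦ
  have hb : ∀ y, 0 < y → ∀ u, 0 < u → Φ u - Φ y ≤ zA a w y * (u - y) := fun y hy u hu => by
    have h := hw.zA_min (a := a) hu (hw.zA_spec hy).1
    simp only [hΦ]
    linarith
  have hd : HasDerivAt Φ (zA a w x) x := by
    rw [hasDerivAt_iff_tendsto_slope]
    have hc : Tendsto (zA a w) (𝓝[≠] x) (𝓝 (zA a w x)) :=
      (hw.continuousAt_zA hx).tendsto.mono_left nhdsWithin_le_nhds
    have he : ∀ᶠ y in 𝓝[≠] x, min (zA a w x) (zA a w y) ≤ slope Φ x y ∧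
        slope Φ x y ≤ max (zA a w x) (zA a w y) := by
      filter_upwards [self_mem_nhdsWithin, nhdsWithin_le_nhds (Ioi_mem_nhds hx)] with y hy hy0
      have h1 := hb x hx y hy0
      have h2 := hb y hy0 x hx
      rw [slope_def_field]
      rcases lt_or_gt_of_ne (hy : y ≠ x) with h | h
      · have e : (Φ y - Φ x) / (y - x) = (Φ x - Φ y) / (x - y) := by
          rw [← neg_sub (Φ x), ← neg_sub x, neg_div_neg_eq]
        rw [e]
        exact ⟨(min_le_left _ _).trans ((le_div_iff₀ (sub_pos.2 h)).2 (by linarith)),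
          ((div_le_iff₀ (sub_pos.2 h)).2 h2).trans (le_max_right _ _)⟩
      · exact ⟨(min_le_right _ _).trans ((le_div_iff₀ (sub_pos.2 h)).2 (by linarith)),
          ((div_le_iff₀ (sub_pos.2 h)).2 h1).trans (le_max_left _ _)⟩
    exact tendsto_of_tendsto_of_tendsto_of_le_of_le'
      (by simpa using (tendsto_const_nhds (x := zA a w x)).min hc)
      (by simpa using (tendsto_const_nhds (x := zA a w x)).max hc)
      (he.mono fun _ h => h.1) (he.mono fun _ h => h.2)
  have h := ((hd.sub_const 1).sub (hasDerivAt_log hx.ne')).div_const 2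
  have h' : HasDerivAt (gA a w) ((zA a w x - x⁻¹) / 2) x := by
    refine h.congr_of_eventuallyEq ?_
    filter_upwards [Ioi_mem_nhds hx] with y hy
    replace hy : (0 : ℝ) < y := hy
    simp only [gA, if_pos hy, hΦ, Pi.sub_apply]
    ring
  rwa [rA, if_pos hx, one_div]

theorem gA_bounds (hw : IsSpec w) {x : ℝ} (hx : 0 ≤ x) :
    meanA a w * x / 2 ≤ gA a w x ∧ gA a w x ≤ topA a * x / 2 := by
  rcases hx.eq_or_lt with rfl | hx
  · simp [gA]
  rw [gA, if_pos hx]
  obtain ⟨h0, -⟩ := hw.zA_spec (a := a) hx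
  refine ⟨?_, ?_⟩
  · have : ∑ c, w c * (log (zA a w x - a c) + log x) ≤ ∑ c, w c * ((zA a w x - a c) * x - 1) :=
      sum_le_sum fun c _ => mul_le_mul_of_nonneg_left (by
        rw [← log_mul (gap_pos h0 c).ne' hx.ne']
        exact log_le_sub_one_of_pos (mul_pos (gap_pos h0 c) hx)) (hw.1 c).le
    have e : ∑ c, w c * ((zA a w x - a c) * x - 1) = zA a w x * x - meanA a w * x - 1 := by
      simp only [mul_sub, sub_mul, sum_sub_distrib, meanA, sum_mul, mul_one, hw.2, mul_assoc]
      rw [← sum_mul, hw.2, one_mul]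
    rw [e] at this
    simp only [mul_add, sum_add_distrib, ← sum_mul, hw.2, one_mul] at this
    linarith
  · have hz : topA a < topA a + 1 / x := lt_add_of_pos_right _ (one_div_pos.2 hx)
    have h := hw.zA_min (a := a) hx hz
    have hl : -log x ≤ ∑ c, w c * log (topA a + 1 / x - a c) := by
      calc -log x = ∑ c, w c * log (1 / x) := by rw [← sum_mul, hw.2, one_mul, one_div, log_inv]
        _ ≤ _ := sum_le_sum fun c _ => mul_le_mul_of_nonneg_left
            (log_le_log (one_div_pos.2 hx) (by linarith [le_topA a c])) (hw.1 c).le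
    have e : (topA a + 1 / x) * x = topA a * x + 1 := by field_simp
    linarith

theorem continuousOn_gA (hw : IsSpec w) : ContinuousOn (gA a w) (Ici 0) := by
  intro x hx
  rcases (Set.mem_Ici.1 hx).eq_or_lt with rfl | hx
  · have hb : ∀ y ∈ Ici (0 : ℝ), |gA a w y - gA a w 0| ≤ (|meanA a w| + |topA a|) * y := by
      intro y hy
      obtain ⟨l, u⟩ := hw.gA_bounds (a := a) hy
      have hy' : (0 : ℝ) ≤ y := hy
      have e0 : gA a w 0 = 0 := by simp [gA]
      have p1 : -(|meanA a w| * y) ≤ meanA a w * y := by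
        rw [← neg_mul]; exact mul_le_mul_of_nonneg_right (neg_abs_le _) hy'
      have p2 := mul_le_mul_of_nonneg_right (le_abs_self (topA a)) hy'
      have n1 := mul_nonneg (abs_nonneg (meanA a w)) hy'
      have n2 := mul_nonneg (abs_nonneg (topA a)) hy'
      rw [e0, sub_zero, abs_le]
      constructor <;> linarith
    rw [ContinuousWithinAt, tendsto_iff_norm_sub_tendsto_zero]
    refine squeeze_zero' (Eventually.of_forall fun _ => norm_nonneg _)
      (eventually_nhdsWithin_of_forall hb) ?_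
    exact ((continuous_const.mul continuous_id).tendsto' 0 0 (mul_zero _)).mono_left nhdsWithin_le_nhds
  · exact (hw.hasDerivAt_gA hx).continuousAt.continuousWithinAt

end IsSpec

end Vale.Agent.P166.Rsb
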